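import Vale.Agent.P073.H73.Final3
import Vale.Agent.P073.H880.AsmS1

/-!
# P073: the last step for `1 ≤ p < 3`: conical homeomorphisms with small energies on the faces
-/

namespace Vale.Agent.P073.H73

open MeasureTheory Set Filter Topology Metric Vale.Agent.P073.St Vale.Agent.P073.AB
open Vale.Agent.P073.SQ (ev cube Cells dE faceE)
open _root_.P073 (ConHomeo)
open scoped ContDiff ENNReal

variable {p : ℝ} {Ω Λ R : Set V}

/-- energy of the conical map `h` on the square with centre `a`, normal `k`, half side `ρ`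
(times `2ρ`) -/
noncomputable def faceL (p : ℝ) (h : V → V) (a : V) (k : Fin 3) (ρ : ℝ) : ℝ≥0∞ :=
  ∑ j ∈ Finset.univ.erase k, ∫⁻ x in cube a ρ,
    ENNReal.ofReal (‖lineDeriv ℝ h (Function.update x k (a k)) (ev j)‖ ^ p)

/-- energy of the conical map `h` on the faces of the cube `i`, with the right weights -/
noncomputable def enL (W : Cells Ω R) (p : ℝ) (h : V → V) (i : W.ι) : ℝ≥0∞ :=
  ∑ q ∈ W.bd i, ENNReal.ofReal (W.ρ i / W.σ q) * faceL p h (W.a q) (W.k q) (W.σ q)

/-- Cells with controlled squares only, a protected set `R`, and a conical homeomorphism `h` which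
is good on `R` and has small energy on the faces of the cells. -/
def ConFace (p ε : ℝ) (Ω Λ : Set V) (f : V → V) (F : V → Mat) : Prop :=
  ∃ (R : Set V) (W : Cells Ω R) (h : ConHomeo Ω Λ), (∀ q, q ∈ W.ctrl) ∧ MeasurableSet R ∧
    R ⊆ Ω ∧
    ∑ j, ∫⁻ x in R, ENNReal.ofReal (‖fderiv ℝ h.toFun x (ev j) - cl (F x) (ev j)‖ ^ p) ≤
      ENNReal.ofReal ε ∧
    ∑' i, enL W p h.toFun i ≤ ENNReal.ofReal ε ∧
    ∑ j, ∫⁻ x in Ω \ R, ENNReal.ofReal (‖cl (F x) (ev j)‖ ^ p) ≤ ENNReal.ofReal ε ∧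
    ∃ K ⊆ Ω, MeasurableSet K ∧ volume (Ω \ K) ≤ ENNReal.ofReal ε ∧
      (∀ x ∈ K ∩ R, ‖h.toFun x - f x‖ ≤ ε) ∧
      ∀ i, ∀ x ∈ K ∩ cube (W.c i) (W.ρ i), ∀ y ∈ W.net i, ‖h.toFun y - f x‖ ≤ ε

theorem mem_update_cube {a : V} {σ : ℝ} (hσ : 0 < σ) (k : Fin 3) {x : V} (hx : x ∈ cube a σ) :
    Function.update x k (a k) ∈ cube a σ := by
  intro l
  by_cases hl : l = k
  · subst hl
    rw [Function.update_self, sub_self, abs_zero]
    exact hσ.le
  · rw [Function.update_of_ne hl]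
    exact hx l

/-- the energy on a face of a nearby smooth map -/
theorem faceE_le (hp : 1 ≤ p) (hΩ : IsOpen Ω) {h G : V → V} (hh : ContinuousOn h Ω) {a : V}
    {k : Fin 3} {σ η : ℝ} (hσ : 0 < σ) (hsub : cube a σ ⊆ Ω)
    (hη : ∀ j, j ≠ k → ∫⁻ x in cube a σ,
      ENNReal.ofReal (‖fderiv ℝ G (Function.update x k (a k)) (ev j) -
        lineDeriv ℝ h (Function.update x k (a k)) (ev j)‖ ^ p) ≤ ENNReal.ofReal η) :
    faceE p G a k σ ≤ 2 ^ (p - 1) * (faceL p h a k σ + 2 * ENNReal.ofReal η) := by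
  have h2 : (∑ _j ∈ (Finset.univ : Finset (Fin 3)).erase k, ENNReal.ofReal η) =
      2 * ENNReal.ofReal η := by
    rw [Finset.sum_const, Finset.card_erase_of_mem (Finset.mem_univ k), Finset.card_univ,
      Fintype.card_fin, nsmul_eq_mul]
    norm_num
  rw [← h2]
  unfold faceE faceL
  rw [← Finset.sum_add_distrib, Finset.mul_sum]
  refine Finset.sum_le_sum fun j hj => ?_
  have hm : AEMeasurable (fun x =>
      ENNReal.ofReal (‖lineDeriv ℝ h (Function.update x k (a k)) (ev j)‖ ^ p))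
      (volume.restrict (cube a σ)) := by
    have h3 : Measurable fun x : V => ENNReal.ofReal
        (‖Ω.indicator (fun x => lineDeriv ℝ h x (ev j)) (Function.update x k (a k))‖ ^ p) := by
      have h4 := (H880.measurable_lineDeriv_on hΩ hh (ev j)).comp
        (SQ.measurable_upd k (a k))
      exact (h4.norm.pow_const p).ennreal_ofReal
    refine h3.aemeasurable.congr ?_
    filter_upwards [ae_restrict_mem (SQ.isClosed_cube a σ).measurableSet] with x hx
    rw [indicator_of_mem (hsub (mem_update_cube hσ k hx))]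
  calc ∫⁻ x in cube a σ, dE p G j (Function.update x k (a k))
      ≤ ∫⁻ x in cube a σ, 2 ^ (p - 1) *
          (ENNReal.ofReal (‖lineDeriv ℝ h (Function.update x k (a k)) (ev j)‖ ^ p) +
          ENNReal.ofReal (‖fderiv ℝ G (Function.update x k (a k)) (ev j) -
            lineDeriv ℝ h (Function.update x k (a k)) (ev j)‖ ^ p)) := by
        refine lintegral_mono fun x => ?_
        have := H880.add_rpow_le hp (lineDeriv ℝ h (Function.update x k (a k)) (ev j))
          (fderiv ℝ G (Function.update x k (a k)) (ev j) -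
            lineDeriv ℝ h (Function.update x k (a k)) (ev j))
        rwa [add_sub_cancel] at this
    _ = 2 ^ (p - 1) * ((∫⁻ x in cube a σ,
          ENNReal.ofReal (‖lineDeriv ℝ h (Function.update x k (a k)) (ev j)‖ ^ p)) +
          ∫⁻ x in cube a σ, ENNReal.ofReal (‖fderiv ℝ G (Function.update x k (a k)) (ev j) -
            lineDeriv ℝ h (Function.update x k (a k)) (ev j)‖ ^ p)) := by
        rw [lintegral_const_mul' _ _ H880.two_rpow_ne_top, lintegral_add_left' hm]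
    _ ≤ _ := by
        gcongr
        exact hη j (Finset.ne_of_mem_erase hj)

/-- a positive real number with `c * t ≤ e` -/
theorem exists_small {c e : ℝ≥0∞} (hc : c ≠ ⊤) (he : e ≠ 0) :
    ∃ t : ℝ, 0 < t ∧ c * ENNReal.ofReal t ≤ e := by
  rcases eq_or_ne e ⊤ with rfl | het
  · exact ⟨1, one_pos, le_top⟩
  have hc0 : 0 ≤ c.toReal := ENNReal.toReal_nonneg
  have he0 : 0 < e.toReal := ENNReal.toReal_pos he het
  refine ⟨e.toReal / (c.toReal + 1), by positivity, ?_⟩
  rw [← ENNReal.ofReal_toReal hc, ← ENNReal.ofReal_toReal het,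
    ← ENNReal.ofReal_mul hc0, ENNReal.toReal_ofReal he0.le, ENNReal.toReal_ofReal hc0]
  apply ENNReal.ofReal_le_ofReal
  rw [mul_div_assoc', div_le_iff₀ (by positivity)]
  nlinarith

theorem goodFace_of_conFace {f : V → V} {F : V → Mat} (hp : 1 ≤ p)
    (hΩ : St.IsBoundedDomain Ω) (hΛ : St.IsBoundedDomain Λ)
    (H : ∀ ε > 0, ConFace p ε Ω Λ f F) {ε : ℝ} (hε : 0 < ε) : GoodFace p ε Ω Λ f F := by
  have hp0 : 0 < p := by linarith
  have h2p : (1 : ℝ) ≤ 2 ^ (p - 1) := Real.one_le_rpow (by norm_num) (by linarith)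
  have h2pos : (0 : ℝ) < 2 ^ (p - 1) := by positivity
  have h2E : (2 : ℝ≥0∞) ^ (p - 1) = ENNReal.ofReal (2 ^ (p - 1)) := by
    rw [← ENNReal.ofReal_rpow_of_pos (by norm_num)]
    simp
  set ε₁ : ℝ := ε / 2 ^ (p - 1) / 2 with hε₁
  have hε₁0 : 0 < ε₁ := by positivity
  have hε₁ε : ε₁ ≤ ε / 2 := by
    rw [hε₁]
    have : ε / 2 ^ (p - 1) ≤ ε := div_le_self hε.le h2p
    linarith
  obtain ⟨R, W, h, hctrl, hRm, hRΩ, h1, h2, h3, K, hKΩ, hKm, hKv, hKR, hKi⟩ := H ε₁ hε₁0
  have := W.cnt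
  obtain ⟨ε', hε'0, hε'⟩ := ENNReal.exists_pos_sum_of_countable'
    (ε := ENNReal.ofReal ε₁) (by simpa using hε₁0) W.ι
  -- the tolerance on the faces of the cube `i`
  have hex : ∀ i, ∃ t : ℝ, 0 < t ∧ (((W.bd i).card : ℝ≥0∞) * 2) * ENNReal.ofReal t ≤ ε' i :=
    fun i => exists_small (ENNReal.mul_ne_top (ENNReal.natCast_ne_top _) (by norm_num))
      (hε'0 i).ne'
  choose t ht0 ht using hex
  have hfin : ∀ A ⊆ Ω, IsCompact A → {i | (cube (W.c i) (W.ρ i) ∩ A).Nonempty}.Finite := by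
    intro A hA hAc
    have hex : ∀ x ∈ A, ∃ N ∈ 𝓝 x, {i | (cube (W.c i) (W.ρ i) ∩ N).Nonempty}.Finite :=
      fun x hx => W.fin x (hA hx)
    choose! N hN hNf using hex
    obtain ⟨T, hTA, hTc⟩ := hAc.elim_nhds_subcover N hN
    refine (T.finite_toSet.biUnion fun x hx => hNf x (hTA x hx)).subset ?_
    rintro i ⟨y, hy, hyA⟩
    obtain ⟨x, hx, hyx⟩ := mem_iUnion₂.1 (hTc hyA)
    exact mem_iUnion₂.2 ⟨x, hx, ⟨y, hy, hyx⟩⟩
  have hqi : ∀ i, ∀ q ∈ W.bd i, ∀ x ∈ cube (W.a q) (W.σ q),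
      Function.update x (W.k q) (W.a q (W.k q)) ∈ cube (W.c i) (W.ρ i) := by
    intro i q hq x hx l
    obtain ⟨h4, h5⟩ := W.bd_sub i q hq
    by_cases hl : l = W.k q
    · subst hl
      rw [Function.update_self, h4]
    · rw [Function.update_of_ne hl]
      have h6 := abs_sub_le (x l) (W.a q l) (W.c i l)
      linarith [hx l, h5 l hl]
  obtain ⟨G, hG, hGs, hclose, -, hface, hint⟩ := _root_.P073.SMF.specSmooth
    _root_.P073.SM.specSM p Ω Λ h (fun _ => ε / 2) (ε₁ / 3) hp hΩ hΛ continuousOn_const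
    (fun _ _ => by positivity) (by positivity)
    Empty inferInstance (fun i => i.elim) (fun i => i.elim) (fun i => i.elim) (fun i => i.elim)
    (fun i => i.elim) (fun K _ _ => Set.toFinite _) (fun i => i.elim)
    (Σ i : W.ι, {q // q ∈ W.bd i}) inferInstance (fun q => W.k q.2.1)
    (fun q => W.a q.2.1 (W.k q.2.1)) (fun q => cube (W.a q.2.1) (W.σ q.2.1))
    (fun q => t q.1 * (W.σ q.2.1 / W.ρ q.1))
    (fun q => isCompact_cube _ _)
    (fun q x hx => W.sub q.1 (hqi q.1 q.2.1 q.2.2 x hx))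
    (fun A hA hAc => by
      refine Set.Finite.subset ((hfin A hA hAc).biUnion fun i _ =>
        Set.finite_range (Sigma.mk (β := fun i => {q // q ∈ W.bd i}) i)) ?_
      rintro ⟨i, q⟩ ⟨x, hx, hxA⟩
      exact mem_iUnion₂.2 ⟨i, ⟨_, hqi i q.1 q.2 x hx, hxA⟩, q, rfl⟩)
    (fun q => mul_pos (ht0 _) (div_pos (W.σpos _) (W.ρpos _)))
  have hsplit : ∀ a b : ℝ, 0 < a → 0 < b → 2 ^ (p - 1) * (a + b) ≤ ε →
      (2 : ℝ≥0∞) ^ (p - 1) * (ENNReal.ofReal a + ENNReal.ofReal b) ≤ ENNReal.ofReal ε := by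
    intro a b ha hb hab
    rw [h2E, ← ENNReal.ofReal_add ha.le hb.le, ← ENNReal.ofReal_mul h2pos.le]
    exact ENNReal.ofReal_le_ofReal hab
  have hsum : 2 ^ (p - 1) * (ε₁ + ε₁) ≤ ε := by
    rw [hε₁]
    field_simp
    norm_num
  refine ⟨R, W, G, hctrl, hRm, hRΩ, hG, ?_, ?_, ?_, K, hKΩ, hKm, ?_, ?_, ?_⟩
  · -- the protected set
    have e1 : ∀ j, ∫⁻ x in R, ENNReal.ofReal (‖fderiv ℝ G x (ev j) - cl (F x) (ev j)‖ ^ p) ≤
        2 ^ (p - 1) * (ENNReal.ofReal (ε₁ / 3) +
          ∫⁻ x in R, ENNReal.ofReal (‖fderiv ℝ h.toFun x (ev j) - cl (F x) (ev j)‖ ^ p)) := by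
      intro j
      have hm : Measurable fun x => ENNReal.ofReal
          (‖fderiv ℝ G x (ev j) - fderiv ℝ h.toFun x (ev j)‖ ^ p) :=
        (((measurable_fderiv_apply_const ℝ G (ev j)).sub
          (measurable_fderiv_apply_const ℝ h.toFun (ev j))).norm.pow_const p).ennreal_ofReal
      calc ∫⁻ x in R, ENNReal.ofReal (‖fderiv ℝ G x (ev j) - cl (F x) (ev j)‖ ^ p)
          ≤ ∫⁻ x in R, 2 ^ (p - 1) * (ENNReal.ofReal
              (‖fderiv ℝ G x (ev j) - fderiv ℝ h.toFun x (ev j)‖ ^ p) +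
              ENNReal.ofReal (‖fderiv ℝ h.toFun x (ev j) - cl (F x) (ev j)‖ ^ p)) := by
            refine lintegral_mono fun x => ?_
            have := H880.add_rpow_le hp (fderiv ℝ G x (ev j) - fderiv ℝ h.toFun x (ev j))
              (fderiv ℝ h.toFun x (ev j) - cl (F x) (ev j))
            rwa [sub_add_sub_cancel] at this
        _ = 2 ^ (p - 1) * ((∫⁻ x in R, ENNReal.ofReal
              (‖fderiv ℝ G x (ev j) - fderiv ℝ h.toFun x (ev j)‖ ^ p)) +
              ∫⁻ x in R, ENNReal.ofReal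
                (‖fderiv ℝ h.toFun x (ev j) - cl (F x) (ev j)‖ ^ p)) := by
            rw [lintegral_const_mul' _ _ H880.two_rpow_ne_top, lintegral_add_left hm]
        _ ≤ _ := by
            gcongr
            exact (lintegral_mono_set hRΩ).trans (hint j)
    calc ∑ j, ∫⁻ x in R, ENNReal.ofReal (‖fderiv ℝ G x (ev j) - cl (F x) (ev j)‖ ^ p)
        ≤ ∑ j, 2 ^ (p - 1) * (ENNReal.ofReal (ε₁ / 3) +
          ∫⁻ x in R, ENNReal.ofReal
            (‖fderiv ℝ h.toFun x (ev j) - cl (F x) (ev j)‖ ^ p)) :=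
          Finset.sum_le_sum fun j _ => e1 j
      _ = 2 ^ (p - 1) * ((3 * ENNReal.ofReal (ε₁ / 3)) +
          ∑ j, ∫⁻ x in R, ENNReal.ofReal
            (‖fderiv ℝ h.toFun x (ev j) - cl (F x) (ev j)‖ ^ p)) := by
          rw [← Finset.mul_sum, Finset.sum_add_distrib, Finset.sum_const, Finset.card_univ,
            Fintype.card_fin, nsmul_eq_mul]
          norm_num
      _ ≤ 2 ^ (p - 1) * (ENNReal.ofReal ε₁ + ENNReal.ofReal ε₁) := by
          gcongr
          rw [show (3 : ℝ≥0∞) = ENNReal.ofReal 3 by simp, ← ENNReal.ofReal_mul (by norm_num)]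
          exact ENNReal.ofReal_le_ofReal (by linarith)
      _ ≤ _ := hsplit _ _ hε₁0 hε₁0 hsum
  · -- the faces
    have e1 : ∀ i, W.en p G i ≤ 2 ^ (p - 1) * (enL W p h.toFun i + ε' i) := by
      intro i
      have e2 : ∀ q ∈ W.bd i, faceE p G (W.a q) (W.k q) (W.σ q) ≤
          2 ^ (p - 1) * (faceL p h.toFun (W.a q) (W.k q) (W.σ q) +
            2 * ENNReal.ofReal (t i * (W.σ q / W.ρ i))) := by
        intro q hq
        exact faceE_le hp hΩ.1 h.cont (W.σpos q) (W.subκ q) fun j hj => hface ⟨i, q, hq⟩ j hj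
      calc W.en p G i = ∑ q ∈ W.bd i, ENNReal.ofReal (W.ρ i / W.σ q) *
            faceE p G (W.a q) (W.k q) (W.σ q) := by
            unfold SQ.Cells.en
            refine Finset.sum_congr rfl fun q _ => ?_
            rw [if_pos (hctrl q)]
        _ ≤ ∑ q ∈ W.bd i, ENNReal.ofReal (W.ρ i / W.σ q) * (2 ^ (p - 1) *
            (faceL p h.toFun (W.a q) (W.k q) (W.σ q) +
              2 * ENNReal.ofReal (t i * (W.σ q / W.ρ i)))) :=
            Finset.sum_le_sum fun q hq => mul_le_mul' le_rfl (e2 q hq)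
        _ = 2 ^ (p - 1) * (enL W p h.toFun i +
            ∑ q ∈ W.bd i, ENNReal.ofReal (W.ρ i / W.σ q) *
              (2 * ENNReal.ofReal (t i * (W.σ q / W.ρ i)))) := by
            unfold enL
            rw [← Finset.sum_add_distrib, Finset.mul_sum]
            refine Finset.sum_congr rfl fun q _ => ?_
            ring
        _ ≤ 2 ^ (p - 1) * (enL W p h.toFun i + ε' i) := by
            gcongr
            refine le_trans (le_of_eq ?_) (ht i)
            have e3 : ∀ q ∈ W.bd i, ENNReal.ofReal (W.ρ i / W.σ q) *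
                (2 * ENNReal.ofReal (t i * (W.σ q / W.ρ i))) = 2 * ENNReal.ofReal (t i) := by
              intro q _
              have h5 := W.σpos q
              have h6 := W.ρpos i
              rw [mul_left_comm, ← ENNReal.ofReal_mul (by positivity)]
              congr 2
              field_simp
            rw [Finset.sum_congr rfl e3, Finset.sum_const, nsmul_eq_mul, mul_assoc]
    calc ∑' i, W.en p G i ≤ ∑' i, 2 ^ (p - 1) * (enL W p h.toFun i + ε' i) :=
          ENNReal.tsum_le_tsum e1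
      _ = 2 ^ (p - 1) * (∑' i, enL W p h.toFun i + ∑' i, ε' i) := by
          rw [ENNReal.tsum_mul_left, ENNReal.tsum_add]
      _ ≤ 2 ^ (p - 1) * (ENNReal.ofReal ε₁ + ENNReal.ofReal ε₁) := by
          gcongr
      _ ≤ _ := hsplit _ _ hε₁0 hε₁0 hsum
  · exact h3.trans (ENNReal.ofReal_le_ofReal (by linarith))
  · exact hKv.trans (ENNReal.ofReal_le_ofReal (by linarith))
  · intro x hx
    have e1 := hKR x hx
    have e2 := hclose x (hKΩ hx.1)
    have e3 := norm_sub_le_norm_sub_add_norm_sub (G x) (h.toFun x) (f x)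
    linarith
  · intro i x hx y hy
    have e1 := hKi i x hx y hy
    have e2 := hclose y (W.sub i (net_sub_cube W i hy))
    have e3 := norm_sub_le_norm_sub_add_norm_sub (G y) (h.toFun y) (f x)
    linarith

/-- **the last step for `1 ≤ p < 3`** (conical homeomorphisms) -/
theorem approx_of_conFace {f : V → V} {F : V → Mat} (hp : 1 ≤ p) (hp3 : p < 3)
    (hΩ : St.IsBoundedDomain Ω) (hΛ : St.IsBoundedDomain Λ) (hf : St.IsHomeo Ω Λ f)
    (hF : St.IsSobolev p Ω f F) (H : ∀ ε > 0, ConFace p ε Ω Λ f F) :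
    St.DiffeoApproximable p Ω Λ f F :=
  approx_of_goodFace hp hp3 hΩ hΛ hf hF fun _ hε => goodFace_of_conFace hp hΩ hΛ H hε

end Vale.Agent.P073.H73
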