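import Vale.Agent.P073.H471.Weight
import Vale.Agent.P073.H73.Final3C

/-!
# P073, block A00: the interface of the face theorem (branch A)

`V = Fin 3 → ℝ` with the sup norm.  The domain carries a polyhedral mesh, the target a tiling by
dyadic cubes (`IsTile ρ w`).

* `Mesh`, `Adapted`, `Aligned`: the input;
* `Out`: the output, a map `g` which is close to `h`, with controlled Lipschitz constant and energy
  on the faces;
* `K2A`: the theorem with prescribed centres in the tiles (the faces miss the centres, and are small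
  compared with the distance to them), with weighted lengths, and without sharp faces.

The core theorem `K2C` and the sharp version `K2AS` are in `H73/K2S.lean`.

`P` is a set of protected cells: their images are boxes which are unions of tiles, `h` is affine on
their boundaries, and `g` preserves all tiles there.
-/

open Set Metric Topology
open scoped ENNReal

namespace Vale.Agent.P073.H73

open Vale.Agent.P073
open Vale.Agent.P073.St (V)
open _root_.P073 (ConHomeo)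
open _root_.P073.Net (len dyc dyo IsTile SizeFn)

/-- a convex polytope with interior points -/
structure Poly (Q : Set V) : Prop where
  cpt : IsCompact Q
  int : (interior Q).Nonempty
  half : ∃ (n : ℕ) (ν : Fin n → V →L[ℝ] ℝ) (t : Fin n → ℝ), Q = {x | ∀ i, ν i x ≤ t i}

/-- the unit square -/
def usq : Set (ℝ × ℝ) := Icc 0 1 ×ˢ Icc 0 1

/-- a convex polygon of size `r`, with shape constant `c` -/
structure Fat (c r : ℝ) (F : Set V) : Prop where
  half : ∃ (n : ℕ) (ν : Fin n → V →L[ℝ] ℝ) (t : Fin n → ℝ), F = {x | ∀ i, ν i x ≤ t i}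
  plane : ∃ (ν : V →L[ℝ] ℝ) (t : ℝ), ν ≠ 0 ∧ ∀ x ∈ F, ν x = t
  chart : ∃ φ : ConHomeo usq F,
    (∀ x ∈ usq, ∀ y ∈ usq, ‖φ.toFun x - φ.toFun y‖ ≤ c * r * ‖x - y‖) ∧
    ∀ x ∈ usq, ∀ y ∈ usq, r * ‖x - y‖ ≤ c * ‖φ.toFun x - φ.toFun y‖

/-- A polyhedral mesh of the open set `Ω`: cells `Q i` which are convex polytopes, faces `F k`
which are convex polygons. The cells may be large, there may be hanging edges, and the common
boundary of two cells may consist of many faces. -/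
structure Mesh (Ω : Set V) where
  /-- index set of the cells -/
  ι : Type
  /-- index set of the faces -/
  κ : Type
  /-- cells -/
  Q : ι → Set V
  /-- faces -/
  F : κ → Set V
  /-- shape constants of the faces -/
  c : κ → ℝ
  /-- sizes of the faces -/
  r : κ → ℝ
  poly : ∀ i, Poly (Q i)
  sub : ∀ i, Q i ⊆ Ω
  cover : ∀ x ∈ Ω, ∃ i, x ∈ Q i
  disj : ∀ i j, i ≠ j → Disjoint (interior (Q i)) (Q j)
  fin : ∀ K ⊆ Ω, IsCompact K → {i | (Q i ∩ K).Nonempty}.Finite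
  rpos : ∀ k, 0 < r k
  fat : ∀ k, Fat (c k) (r k) (F k)
  two : ∀ k, ∃ i j, i ≠ j ∧ F k ⊆ Q i ∩ Q j
  bd : ∀ i, ∀ x ∈ frontier (Q i), ∃ k, x ∈ F k ∧ F k ⊆ Q i
  fdisj : ∀ k l, k ≠ l → Disjoint (intrinsicInterior ℝ (F k)) (F l)
  ffin : ∀ K ⊆ Ω, IsCompact K → {k | (F k ∩ K).Nonempty}.Finite

/-- the centre of the dyadic cube -/
noncomputable def ctr (w : V) (m : ℕ) (z : Fin 3 → ℤ) : V := fun k => w k + (z k + 1 / 2) / 2 ^ m

/-- the curve `h` on the segment `e` -/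
noncomputable def onSeg (h : V → V) (e : V × V) : ℝ → V := fun t => h (e.1 + t • (e.2 - e.1))

/-- The segments `E` lie in the face `k`, cover its relative boundary, and are contained in
edges of the mesh: a face which meets the open segment contains the whole segment. -/
structure Adapted {Ω : Set V} (M : Mesh Ω) (k : M.κ) (E : Finset (V × V)) : Prop where
  ne : ∀ e ∈ E, e.1 ≠ e.2
  sub : ∀ e ∈ E, segment ℝ e.1 e.2 ⊆ M.F k
  cover : intrinsicFrontier ℝ (M.F k) ⊆ ⋃ e ∈ E, segment ℝ e.1 e.2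
  edge : ∀ e ∈ E, ∀ l, (M.F l ∩ openSegment ℝ e.1 e.2).Nonempty → segment ℝ e.1 e.2 ⊆ M.F l

/-- the square with centre `a`, normal `l`, half side `σ` -/
def sqr (a : V) (l : Fin 3) (σ : ℝ) : Set V := {x | x l = a l ∧ ∀ j, |x j - a j| ≤ σ}

/-- `P`: protected cells -/
structure Aligned {Ω : Set V} (w : V) (ρ : V → ℝ) (M : Mesh Ω) (h : V → V) (P : Set M.ι) :
    Prop where
  /-- the image is a box -/
  box : ∀ i ∈ P, ∃ lo hi : V, (∀ k, lo k < hi k) ∧ h '' M.Q i = Icc lo hi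
  /-- which is a union of tiles -/
  tile : ∀ i ∈ P, ∀ m z, IsTile ρ w m z →
    dyc w m z ⊆ h '' M.Q i ∨ Disjoint (dyo w m z) (h '' M.Q i)
  /-- the tiles which touch its boundary have the same size -/
  gen : ∀ i ∈ P, ∃ m₀, ∀ m z, IsTile ρ w m z → (dyc w m z ∩ frontier (h '' M.Q i)).Nonempty →
    m = m₀
  /-- `h` is affine on the boundary -/
  aff : ∀ i ∈ P, ∃ A : V →ᴬ[ℝ] V, EqOn h A (frontier (M.Q i))
  /-- the image of a face is contained in one square -/
  one : ∀ i ∈ P, ∀ k, M.F k ⊆ M.Q i → ∀ m z, IsTile ρ w m z →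
    (h '' intrinsicInterior ℝ (M.F k) ∩ dyc w m z).Nonempty → h '' M.F k ⊆ dyc w m z

/-- The output. `Len e ℓ` means that `ℓ` is an upper bound for the (weighted) length of `h` on the
segment `e`. `S` is the set of the faces for which the constants `D`, `C` are claimed.

* `g` is close to `h`;
* `lip`: `g` is Lipschitz on each face in `S`, with constant `C * K`, if `(ℓ e + ε) / |e| ≤ K` on
  the edges of the face;
* `energy`: on the square faces in `S`, `∫_F |D g| ^ p ≤ D σ ∑ |e| ^ (1 - p) (ℓ e + ε |e| / σ) ^ p`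
  (`faceL` contains a factor `2 σ`), without any comparability of the edges;
* `g` preserves the tiles on the boundaries of the protected cells. -/
structure Out {Ω Λ : Set V} (p D : ℝ) (C : ℝ → ℝ) (w : V) (ρ : V → ℝ) (M : Mesh Ω)
    (h : V → V) (P : Set M.ι) (S : Set M.κ) (ε : M.κ → ℝ) (g : ConHomeo Ω Λ)
    (Len : V × V → ℝ≥0∞ → Prop) : Prop where
  close : ∀ k, ∀ x ∈ M.F k, ∀ m z, IsTile ρ w m z → h x ∈ dyc w m z →
    ‖g.toFun x - h x‖ ≤ D / 2 ^ m
  lip : ∀ k ∈ S, ∀ (E : Finset (V × V)) (ℓ : V × V → ℝ≥0∞) (K : ℝ), Adapted M k E →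
    (∀ e ∈ E, Len e (ℓ e) ∧ ℓ e + ENNReal.ofReal (ε k) ≤ ENNReal.ofReal (K * ‖e.2 - e.1‖)) →
    ∀ x ∈ M.F k, ∀ y ∈ M.F k, ‖g.toFun x - g.toFun y‖ ≤ C (M.c k) * K * ‖x - y‖
  energy : ∀ k ∈ S, ∀ (E : Finset (V × V)) (ℓ : V × V → ℝ≥0∞) (a : V) (l : Fin 3) (σ : ℝ),
    0 < σ → M.F k = sqr a l σ → Adapted M k E → (∀ e ∈ E, Len e (ℓ e)) →
    faceL p g.toFun a l σ ≤ ENNReal.ofReal (D * σ ^ 2) *
      ∑ e ∈ E, ENNReal.ofReal (‖e.2 - e.1‖ ^ (1 - p)) *
        (ℓ e + ENNReal.ofReal (ε k * ‖e.2 - e.1‖ / σ)) ^ p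
  image : ∀ i ∈ P, g.toFun '' M.Q i = h '' M.Q i
  tile : ∀ i ∈ P, ∀ x ∈ frontier (M.Q i), ∀ m z, IsTile ρ w m z → h x ∈ dyc w m z →
    g.toFun x ∈ dyc w m z

/-- the weight of the segment `e` is at most `W` -/
def WLe (w : V) (ρ : V → ℝ) (c : ℕ → (Fin 3 → ℤ) → V) (h : V → V) (e : V × V) (W : ℝ) : Prop :=
  1 ≤ W ∧ ∀ y ∈ segment ℝ e.1 e.2, ∀ m z, IsTile ρ w m z → h y ∈ dyc w m z →
    1 / 2 ^ m ≤ W * ‖h y - c m z‖

/-- **[K2A]**, with centres, without sharp faces. -/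
def K2A (p : ℝ) : Prop :=
  ∃ (D : ℝ) (C : ℝ → ℝ), ∃ δ > 0,
    ∀ (Ω Λ : Set V), St.IsBoundedDomain Ω → St.IsBoundedDomain Λ →
    ∀ (w : V) (ρ : V → ℝ), SizeFn Λ ρ →
    ∀ (M : Mesh Ω) (h : ConHomeo Ω Λ) (P : Set M.ι) (c : ℕ → (Fin 3 → ℤ) → V),
    (∀ m z, IsTile ρ w m z → ‖c m z - ctr w m z‖ ≤ 1 / 4 / 2 ^ m) →
    -- the faces miss the centres, and are small compared with the distance to the centres
    (∀ k, ∀ x ∈ M.F k, ∀ m z, IsTile ρ w m z → h.toFun x ∈ dyc w m z →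
      h.toFun x ≠ c m z ∧ ∀ y ∈ M.F k, ‖h.toFun x - h.toFun y‖ ≤ δ * ‖h.toFun x - c m z‖) →
    Aligned w ρ M h.toFun P →
    ∀ ε : M.κ → ℝ, (∀ k, 0 < ε k) →
    ∃ g : ConHomeo Ω Λ, Out p D C w ρ M h.toFun P univ ε g
      fun e ℓ => ∃ W, WLe w ρ c h.toFun e W ∧
        ENNReal.ofReal W * len (onSeg h.toFun e) (Icc 0 1) ≤ ℓ

end Vale.Agent.P073.H73
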