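import Vale.Agent.P073.H73.PostSpec
import Vale.Agent.P073.AB.Sum293e
import Vale.Agent.P073.AB.Sum308d
import Vale.Agent.P073.Net.Len

/-!
# P073, block A15, SpecPost: general lemmas
-/

namespace Vale.Agent.P073.H73

open MeasureTheory Set Filter Topology Metric Vale.Agent.P073.St Vale.Agent.P073.AB
open Vale.Agent.P073.SQ (ev cube Cells)
open Vale.Agent.P073.AB.P86 (sc rel cen)
open _root_.P073 (ConHomeo)
open _root_.P073.Net (len dyc dyo IsTile SizeFn)
open scoped ENNReal

/-! ### Lipschitz maps and finite closed covers -/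

/-- a map which is Lipschitz on each of finitely many closed sets which cover an interval -/
theorem lip_of_cover_icc {ι : Type*} [DecidableEq ι] {u : ℝ → V} {L : ℝ} (C : ι → Set ℝ) :
    ∀ (n : ℕ) (T : Finset ι), T.card ≤ n → ∀ (a b : ℝ), a ≤ b →
    (∀ i ∈ T, IsClosed (C i)) → Icc a b ⊆ ⋃ i ∈ T, C i →
    (∀ i ∈ T, ∀ s ∈ C i ∩ Icc a b, ∀ t ∈ C i ∩ Icc a b, ‖u s - u t‖ ≤ L * |s - t|) →
    ‖u b - u a‖ ≤ L * (b - a) := by
  intro n
  induction n with
  | zero =>
    intro T hT a b hab hc hcov hL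
    have hT0 : T = ∅ := Finset.card_eq_zero.1 (Nat.le_zero.1 hT)
    have := hcov (left_mem_Icc.2 hab)
    simp [hT0] at this
  | succ n ih =>
    intro T hT a b hab hc hcov hL
    obtain ⟨i, hi, hai⟩ := mem_iUnion₂.1 (hcov (left_mem_Icc.2 hab))
    have hcomp : IsCompact (C i ∩ Icc a b) := isCompact_Icc.inter_left (hc i hi)
    have hne : (C i ∩ Icc a b).Nonempty := ⟨a, hai, left_mem_Icc.2 hab⟩
    set t := sSup (C i ∩ Icc a b) with ht
    have htm : t ∈ C i ∩ Icc a b := hcomp.sSup_mem hne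
    have h1 : ‖u t - u a‖ ≤ L * (t - a) := by
      have := hL i hi t htm a ⟨hai, left_mem_Icc.2 hab⟩
      rwa [abs_of_nonneg (by linarith [htm.2.1])] at this
    rcases eq_or_lt_of_le htm.2.2 with h | h
    · rw [← h]; exact h1
    · have hcov' : Icc t b ⊆ ⋃ j ∈ T.erase i, C j := by
        have hcl : IsClosed (⋃ j ∈ T.erase i, C j) :=
          (T.erase i).finite_toSet.isClosed_biUnion fun j hj => hc j (Finset.mem_of_mem_erase hj)
        have h2 : Ioc t b ⊆ ⋃ j ∈ T.erase i, C j := by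
          intro s hs
          have hsI : s ∈ Icc a b := ⟨htm.2.1.trans hs.1.le, hs.2⟩
          obtain ⟨j, hj, hsj⟩ := mem_iUnion₂.1 (hcov hsI)
          have hji : j ≠ i := by
            rintro rfl
            have := le_csSup hcomp.bddAbove (⟨hsj, hsI⟩ : s ∈ C j ∩ Icc a b)
            exact absurd this (not_le.2 hs.1)
          exact mem_iUnion₂.2 ⟨j, Finset.mem_erase.2 ⟨hji, hj⟩, hsj⟩
        rw [← closure_Ioc h.ne]
        exact hcl.closure_subset_iff.2 h2
      have h3 := ih (T.erase i) (by rw [Finset.card_erase_of_mem hi]; omega) t b h.le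
        (fun j hj => hc j (Finset.mem_of_mem_erase hj)) hcov'
        (fun j hj s hs r hr => hL j (Finset.mem_of_mem_erase hj) s
          ⟨hs.1, htm.2.1.trans hs.2.1, hs.2.2⟩ r ⟨hr.1, htm.2.1.trans hr.2.1, hr.2.2⟩)
      have h4 := norm_sub_le_norm_sub_add_norm_sub (u b) (u t) (u a)
      nlinarith

/-- a map which is Lipschitz on each of finitely many closed sets which cover a segment -/
theorem lip_of_cover {ι : Type*} {g : V → V} {L : ℝ} {T : Set ι} (hT : T.Finite)
    {C : ι → Set V} {x y : V} (hC : ∀ i ∈ T, IsClosed (C i)) (hcov : segment ℝ x y ⊆ ⋃ i ∈ T, C i)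
    (hL : ∀ i ∈ T, ∀ s ∈ C i ∩ segment ℝ x y, ∀ t ∈ C i ∩ segment ℝ x y,
      ‖g s - g t‖ ≤ L * ‖s - t‖) : ‖g x - g y‖ ≤ L * ‖x - y‖ := by
  classical
  set γ : ℝ → V := fun t => x + t • (y - x) with hγ
  have hγc : Continuous γ := by fun_prop
  have hseg : ∀ t ∈ Icc (0:ℝ) 1, γ t ∈ segment ℝ x y := by
    intro t ht
    rw [segment_eq_image']
    exact ⟨t, ht, rfl⟩
  have h := lip_of_cover_icc (u := g ∘ γ) (L := L * ‖x - y‖) (fun i => γ ⁻¹' C i)
    hT.toFinset.card hT.toFinset le_rfl 0 1 zero_le_one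
    (fun i hi => (hC i (hT.mem_toFinset.1 hi)).preimage hγc)
    (fun t ht => by
      obtain ⟨i, hi, hx⟩ := mem_iUnion₂.1 (hcov (hseg t ht))
      exact mem_iUnion₂.2 ⟨i, hT.mem_toFinset.2 hi, hx⟩)
    (fun i hi s hs t ht => by
      have h1 := hL i (hT.mem_toFinset.1 hi) (γ s) ⟨hs.1, hseg s hs.2⟩ (γ t) ⟨ht.1, hseg t ht.2⟩
      have h2 : ‖γ s - γ t‖ = |s - t| * ‖x - y‖ := by
        have : γ s - γ t = (s - t) • (y - x) := by simp only [hγ]; module
        rw [this, norm_smul, Real.norm_eq_abs, norm_sub_rev]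
      rw [h2] at h1
      simp only [Function.comp]
      linarith)
  simp only [Function.comp, hγ, one_smul, zero_smul, add_zero, add_sub_cancel, sub_zero,
    mul_one] at h
  rwa [norm_sub_rev] at h

/-! ### Energies of Lipschitz maps on squares -/

theorem faceL_le_of_lip {p : ℝ} (hp : 0 ≤ p) {g : V → V} {a : V} {k : Fin 3} {σ K : ℝ}
    (hσ : 0 < σ) (hK : 0 ≤ K)
    (hL : ∀ x y : V, x k = a k → (∀ l, |x l - a l| ≤ σ) → y k = a k → (∀ l, |y l - a l| ≤ σ) →
      ‖g x - g y‖ ≤ K * ‖x - y‖) :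
    faceL p g a k σ ≤ 2 * ENNReal.ofReal (K ^ p) * volume (cube a σ) := by
  have hcube : cube a σ = closedBall a σ := by
    ext x
    rw [mem_closedBall, dist_pi_le_iff hσ.le]
    exact forall_congr' fun l => by rw [Real.dist_eq]
  have hae : ∀ᵐ x ∂(volume.restrict (cube a σ)), ∀ l, |x l - a l| < σ := by
    have h0 : volume (sphere a σ) = 0 := Measure.addHaar_sphere_of_ne_zero _ _ hσ.ne'
    filter_upwards [ae_restrict_mem (SQ.isClosed_cube a σ).measurableSet,
      ae_restrict_of_ae (measure_eq_zero_iff_ae_notMem.1 h0)] with x hx hx'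
    rw [hcube, mem_closedBall] at hx
    have h1 : dist x a < σ := lt_of_le_of_ne hx fun h => hx' (mem_sphere.2 h)
    intro l
    rw [dist_pi_lt_iff hσ] at h1
    simpa [Real.dist_eq] using h1 l
  have key : ∀ j ∈ Finset.univ.erase k, ∫⁻ x in cube a σ,
      ENNReal.ofReal (‖lineDeriv ℝ g (Function.update x k (a k)) (ev j)‖ ^ p) ≤
      ENNReal.ofReal (K ^ p) * volume (cube a σ) := by
    intro j hj
    have hjk : j ≠ k := Finset.ne_of_mem_erase hj
    rw [← setLIntegral_const]
    refine lintegral_mono_ae ?_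
    filter_upwards [hae] with x hx
    refine ENNReal.ofReal_le_ofReal (Real.rpow_le_rpow (norm_nonneg _) ?_ hp)
    set y := Function.update x k (a k) with hy
    have hyk : y k = a k := by rw [hy, Function.update_self]
    have hyl : ∀ l, l ≠ k → y l = x l := fun l hl => by rw [hy, Function.update_of_ne hl]
    have hyσ : ∀ l, |y l - a l| < σ := by
      intro l
      by_cases hl : l = k
      · rw [hl, hyk, sub_self, abs_zero]; exact hσ
      · rw [hyl l hl]; exact hx l
    refine norm_deriv_le_of_lip' hK ?_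
    have hev : ∀ᶠ t : ℝ in 𝓝 0, |y j + t - a j| < σ := by
      have hc : Continuous fun t : ℝ => |y j + t - a j| := by fun_prop
      exact hc.continuousAt.eventually_lt continuousAt_const (by simpa using hyσ j)
    filter_upwards [hev] with t ht
    have e1 : ∀ r : ℝ, ∀ l, (y + r • ev j) l = y l + (if l = j then r else 0) := by
      intro r l
      by_cases hl : l = j
      · subst hl; simp [ev]
      · simp [ev, hl]
    have h1 := hL (y + t • ev j) (y + (0:ℝ) • ev j) (by rw [e1, if_neg hjk.symm, add_zero, hyk])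
      (fun l => by
        rw [e1]
        by_cases hl : l = j
        · subst hl; rw [if_pos rfl]; exact ht.le
        · rw [if_neg hl, add_zero]; exact (hyσ l).le)
      (by rw [e1, if_neg hjk.symm, add_zero, hyk])
      (fun l => by rw [e1]; simpa using (hyσ l).le)
    refine h1.trans (mul_le_mul_of_nonneg_left ?_ hK)
    rw [zero_smul, add_zero, add_sub_cancel_left, norm_smul, S293.ev_norm, mul_one, sub_zero]
  calc faceL p g a k σ ≤ ∑ _j ∈ Finset.univ.erase k, ENNReal.ofReal (K ^ p) * volume (cube a σ) :=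
        Finset.sum_le_sum key
    _ = 2 * ENNReal.ofReal (K ^ p) * volume (cube a σ) := by
        rw [Finset.sum_const, Finset.card_erase_of_mem (Finset.mem_univ k), Finset.card_univ,
          Fintype.card_fin, nsmul_eq_mul]
        norm_num
        ring

/-- `faceL` depends only on the map near the square -/
theorem faceL_congr {p : ℝ} {g g' : V → V} {a : V} {k : Fin 3} {σ : ℝ}
    (h : ∀ x : V, x k = a k → (∀ l, |x l - a l| ≤ σ) → g =ᶠ[𝓝 x] g') (hσ : 0 ≤ σ) :
    faceL p g a k σ = faceL p g' a k σ := by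
  unfold faceL
  refine Finset.sum_congr rfl fun j _ => ?_
  refine setLIntegral_congr_fun (SQ.isClosed_cube a σ).measurableSet fun x hx => ?_
  have h1 : g =ᶠ[𝓝 (Function.update x k (a k))] g' := by
    refine h _ (Function.update_self _ _ _) fun l => ?_
    by_cases hl : l = k
    · subst hl; rw [Function.update_self, sub_self, abs_zero]; exact hσ
    · rw [Function.update_of_ne hl]; exact hx l
  simp only [h1.lineDeriv_eq]

/-! ### Lengths -/

theorem len_affine_le {h : V → V} {L : V →L[ℝ] V} {A : V → V} (hA : ∀ x y, A y - A x = L (y - x))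
    {e : V × V} (he : EqOn h A (segment ℝ e.1 e.2)) {T : ℝ} (hT : ∀ w, ‖L w‖ ≤ T * ‖w‖)
    (hT0 : 0 ≤ T) :
    len (onSeg h e) (Icc 0 1) ≤ ENNReal.ofReal (2 * T * ‖e.2 - e.1‖) := by
  have h1 : EqOn (onSeg h e) (onSeg A e) (Icc 0 1) := by
    intro t ht
    refine he ?_
    rw [segment_eq_image']
    exact ⟨t, ht, rfl⟩
  rw [_root_.P073.Net.len_congr h1]
  have h2 : ∀ s t : ℝ, onSeg A e s - onSeg A e t = (s - t) • L (e.2 - e.1) := by
    intro s t
    simp only [onSeg]
    rw [hA, ← map_smul]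
    congr 1
    module
  unfold len
  have h3 : LipschitzOnWith (Real.toNNReal (2 * T * ‖e.2 - e.1‖))
      (fun t => (WithLp.toLp 2 (onSeg A e t) : EuclideanSpace ℝ (Fin 3))) (Icc 0 1) := by
    refine LipschitzOnWith.of_dist_le_mul fun s _ t _ => ?_
    rw [Real.coe_toNNReal _ (by positivity), dist_eq_norm, ← WithLp.toLp_sub, h2,
      ← _root_.P073.Net.euc_eq, Real.dist_eq]
    calc euc ((s - t) • L (e.2 - e.1)) ≤ 2 * ‖(s - t) • L (e.2 - e.1)‖ :=
          _root_.P073.Net.euc_le _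
      _ = 2 * (|s - t| * ‖L (e.2 - e.1)‖) := by rw [norm_smul, Real.norm_eq_abs]
      _ ≤ 2 * (|s - t| * (T * ‖e.2 - e.1‖)) := by gcongr; exact hT _
      _ = 2 * T * ‖e.2 - e.1‖ * |s - t| := by ring
  have h4 := h3.comp_eVariationOn_le (g := id) (s := Icc 0 1) (mapsTo_id _)
  have h5 : eVariationOn (id : ℝ → ℝ) (Icc 0 1) ≤ ENNReal.ofReal (1 - 0) := by
    have := (monotone_id.monotoneOn (Icc (0:ℝ) 1)).eVariationOn_eq (left_mem_Icc.2 zero_le_one)
      (right_mem_Icc.2 zero_le_one)
    rw [inter_self] at this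
    exact this.le
  refine h4.trans ?_
  calc _ ≤ (Real.toNNReal (2 * T * ‖e.2 - e.1‖) : ℝ≥0∞) * ENNReal.ofReal (1 - 0) := by gcongr
    _ = _ := by rw [sub_zero, ENNReal.ofReal_one, mul_one]; rfl

/-! ### Dyadic edges as pairs -/

theorem segP_sub (v : V) (e : Idx × Fin 3) : (segP v e).2 - (segP v e).1 =
    (1 / 2 ^ e.1.1 : ℝ) • ev e.2 := by simp [segP]

theorem norm_segP (v : V) (e : Idx × Fin 3) : ‖(segP v e).2 - (segP v e).1‖ = 1 / 2 ^ e.1.1 := by
  rw [segP_sub, norm_smul, S293.ev_norm, mul_one, Real.norm_eq_abs, abs_of_nonneg (by positivity)]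

theorem segP_injective (v : V) : Function.Injective (segP v) := by
  rintro ⟨⟨m, z⟩, j⟩ ⟨⟨m', z'⟩, j'⟩ h
  have h1 := norm_segP v ⟨⟨m, z⟩, j⟩
  rw [h, norm_segP] at h1
  have hm : m' = m := by
    have h2 : (2:ℝ) ^ m' = 2 ^ m := by
      have := congrArg (fun t : ℝ => 1 / t) h1
      simpa using this
    exact Nat.pow_right_injective (le_refl 2) (by exact_mod_cast h2)
  subst hm
  have h2 := segP_sub v ⟨⟨m', z⟩, j⟩
  rw [h, segP_sub] at h2
  have hj : j' = j := by
    by_contra hne
    have h3 := congrFun h2 j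
    simp only [ev, Pi.smul_apply, smul_eq_mul, Pi.single_eq_same, Pi.single_eq_of_ne (Ne.symm hne),
      mul_zero, mul_one] at h3
    have : (0:ℝ) < 1 / 2 ^ m' := by positivity
    linarith
  subst hj
  have h3 : pt v m' z = pt v m' z' := congrArg Prod.fst h
  have hz : z = z' := by
    funext k
    have h4 := congrFun h3 k
    simp only [pt, add_right_inj] at h4
    have h5 : (0:ℝ) < 2 ^ m' := by positivity
    rw [div_left_inj' h5.ne'] at h4
    exact_mod_cast h4
  rw [hz]

theorem segP_segment (v : V) (e : Idx × Fin 3) :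
    segment ℝ (segP v e).1 (segP v e).2 = edge v e := rfl

/-! ### Volumes -/

theorem tsum_volume_le {Ω : Set V} {v : V} {I : Set Idx} (hI : Part Ω v I) {Z : Set V}
    {S : Set Idx} (hS : S ⊆ I) (hZ : ∀ q ∈ S, dyc v q.1 q.2 ⊆ Z) :
    ∑' q : S, volume (dyc v q.1.1 q.1.2) ≤ volume Z := by
  have h1 : ∀ q : S, volume (dyc v q.1.1 q.1.2) = volume (dyo v q.1.1 q.1.2) := fun q => by
    rw [S308.volume_dyc, S308.volume_dyo]
  have h2 : ∑' q : S, volume (dyo v q.1.1 q.1.2) = volume (⋃ q : S, dyo v q.1.1 q.1.2) := by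
    rw [measure_iUnion]
    · intro q q' hne
      have : (q : Idx) ≠ q' := fun h => hne (Subtype.ext h)
      exact (hI.disj _ (hS q.2) _ (hS q'.2) this).mono_right P86.dyo_sub_dyc
    · intro q
      rw [S308.dyo_eq_obox]
      exact (S308.isOpen_obox _ _ _ _).measurableSet
  rw [tsum_congr h1, h2]
  exact measure_mono (iUnion_subset fun q => P86.dyo_sub_dyc.trans (hZ _ q.2))

end Vale.Agent.P073.H73
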