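import Vale.Agent.P073.H239.Sharp

/-!
# P073, block A00: the core theorem `K2C` and the sharp face theorem `K2AS` (branch A)

`Y` is a set of sharp faces (see `H239.SharpOut`).  The constants `D`, `C` are claimed for the faces
which are disjoint from all faces in `Y`, the constants `D'`, `C'` (which depend on `μ`) for all
faces.

Order of the constants: `D`, `C`, then `μ`, `D'`, `C'`, `r`, then the scale `η₀` of the sharp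
clauses, then the shell `η` and `δ`.
-/

open Set Metric Topology
open scoped ENNReal

namespace Vale.Agent.P073.H73

open Vale.Agent.P073
open Vale.Agent.P073.St (V)
open Vale.Agent.P073.H304 (IsEdge)
open _root_.P073 (ConHomeo)
open _root_.P073.Net (len dyc dyo IsTile SizeFn)

/-- the faces which are disjoint from all faces in `Y` -/
def offY {Ω : Set V} (M : Mesh Ω) (Y : Set M.κ) : Set M.κ :=
  {k | ∀ k' ∈ Y, Disjoint (M.F k') (M.F k)}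

/-- speed on the edges of the faces in `S` -/
def ELip {Ω Λ : Set V} (D : ℝ) (M : Mesh Ω) (S : Set M.κ) (ε : M.κ → ℝ) (g : ConHomeo Ω Λ)
    (Len : V × V → ℝ≥0∞ → Prop) : Prop :=
  ∀ k ∈ S, ∀ e, IsEdge M e → segment ℝ e.1 e.2 ⊆ M.F k → ∀ ℓ : ℝ, 0 ≤ ℓ →
    Len e (ENNReal.ofReal ℓ) → ∀ x ∈ segment ℝ e.1 e.2, ∀ y ∈ segment ℝ e.1 e.2,
      ‖g.toFun x - g.toFun y‖ ≤ D * ((ℓ + ε k) / ‖e.2 - e.1‖) * ‖x - y‖

/-- The conclusion of `K2C` and `K2AS`. -/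
structure OutS {Ω Λ : Set V} (p D : ℝ) (C : ℝ → ℝ) (μ D' : ℝ) (C' : ℝ → ℝ) (r η₀ δ : ℝ) (w : V)
    (ρ : V → ℝ) (M : Mesh Ω) (h : V → V) (P : Set M.ι) (Y : Set M.κ) (ε : M.κ → ℝ)
    (g : ConHomeo Ω Λ) (Len : V × V → ℝ≥0∞ → Prop) : Prop where
  out : Out p D C w ρ M h P (offY M Y) ε g Len
  out' : Out p D' C' w ρ M h P univ ε g Len
  elip : ELip D M (offY M Y) ε g Len
  elip' : ELip D' M univ ε g Len
  sharp : H239.SharpOut p η₀ δ μ r w ρ M h univ Y ε g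

/-- **[K2C]**, the core. -/
def K2C (p : ℝ) : Prop :=
  ∃ (D : ℝ) (C : ℝ → ℝ), ∀ μ > 0, ∃ (D' : ℝ) (C' : ℝ → ℝ), ∃ r > 0,
    ∀ η₀ > 0, η₀ < 1 / 4 → ∃ η > 0, η ≤ η₀ ∧ ∃ δ > 0,
    ∀ (Ω Λ : Set V), St.IsBoundedDomain Ω → St.IsBoundedDomain Λ →
    ∀ (w : V) (ρ : V → ℝ), SizeFn Λ ρ →
    ∀ (M : Mesh Ω) (h : ConHomeo Ω Λ) (P : Set M.ι),
    -- the faces are mapped outside of the middle cubes
    (∀ k, ∀ x ∈ M.F k, ∀ m z, IsTile ρ w m z →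
      h.toFun x ∉ closedBall (ctr w m z) ((1 - η) / 2 / 2 ^ m)) →
    -- the images of the faces are small
    (∀ k, ∀ x ∈ M.F k, ∀ y ∈ M.F k, ∀ m z, IsTile ρ w m z → h.toFun x ∈ dyc w m z →
      ‖h.toFun x - h.toFun y‖ ≤ δ / 2 ^ m) →
    Aligned w ρ M h.toFun P →
    ∀ (Y : Set M.κ) (ε : M.κ → ℝ), (∀ k, 0 < ε k) →
    ∃ g : ConHomeo Ω Λ, OutS p D C μ D' C' r η₀ δ w ρ M h.toFun P Y ε g
      fun e ℓ => len (onSeg h.toFun e) (Icc 0 1) ≤ ℓ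

/-- **[K2AS]**, with centres and sharp faces. -/
def K2AS (p : ℝ) : Prop :=
  ∃ (D : ℝ) (C : ℝ → ℝ), ∀ μ > 0, ∃ (D' : ℝ) (C' : ℝ → ℝ), ∃ r > 0,
    ∀ η₀ > 0, η₀ < 1 / 4 → ∃ δ > 0,
    ∀ (Ω Λ : Set V), St.IsBoundedDomain Ω → St.IsBoundedDomain Λ →
    ∀ (w : V) (ρ : V → ℝ), SizeFn Λ ρ →
    ∀ (M : Mesh Ω) (h : ConHomeo Ω Λ) (P : Set M.ι) (c : ℕ → (Fin 3 → ℤ) → V),
    (∀ m z, IsTile ρ w m z → ‖c m z - ctr w m z‖ ≤ 1 / 4 / 2 ^ m) →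
    -- the faces miss the centres, and are small compared with the distance to the centres
    (∀ k, ∀ x ∈ M.F k, ∀ m z, IsTile ρ w m z → h.toFun x ∈ dyc w m z →
      h.toFun x ≠ c m z ∧ ∀ y ∈ M.F k, ‖h.toFun x - h.toFun y‖ ≤ δ * ‖h.toFun x - c m z‖) →
    Aligned w ρ M h.toFun P →
    ∀ (Y : Set M.κ) (ε : M.κ → ℝ), (∀ k, 0 < ε k) →
    ∃ g : ConHomeo Ω Λ, OutS p D C μ D' C' r η₀ δ w ρ M h.toFun P Y ε g
      fun e ℓ => ∃ W, WLe w ρ c h.toFun e W ∧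
        ENNReal.ofReal W * len (onSeg h.toFun e) (Icc 0 1) ≤ ℓ

theorem offY_empty {Ω : Set V} (M : Mesh Ω) : offY M ∅ = univ :=
  eq_univ_of_forall fun _ k' hk' => absurd hk' (notMem_empty k')

/-- without sharp faces -/
theorem k2a_of_k2as {p : ℝ} (H : K2AS p) : K2A p := by
  obtain ⟨D, C, H⟩ := H
  obtain ⟨D', C', r, -, H⟩ := H 1 one_pos
  obtain ⟨δ, hδ, H⟩ := H (1 / 8) (by norm_num) (by norm_num)
  refine ⟨D, C, δ, hδ, fun Ω Λ hΩ hΛ w ρ hρ M h P c hc h1 hal ε hε => ?_⟩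
  obtain ⟨g, hg⟩ := H Ω Λ hΩ hΛ w ρ hρ M h P c hc h1 hal ∅ ε hε
  have := hg.out
  rw [offY_empty] at this
  exact ⟨g, this⟩

end Vale.Agent.P073.H73
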