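import Vale.Agent.P073.H73.PreSpec

/-!
# P073, block A15: the cut mesh (statement)

`Geo` is the geometric part of `Pre`.  `CutMesh` is the mesh which is fed to the face theorem:
cells are

* the cubes of `I` which are disjoint from the protected cells,
* the pieces `q ∩ A⁻¹ (dyadic cube of generation nr + N)` with interior points, where `q ∈ I` meets
  a protected cell and is not contained in it, and the dyadic cube is not contained in the box,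
* the protected cells;

faces are the two-dimensional intersections of two cells.
-/

namespace Vale.Agent.P073.H73

open MeasureTheory Set Filter Topology Metric Vale.Agent.P073.St Vale.Agent.P073.AB
open Vale.Agent.P073.SQ (ev)
open _root_.P073 (ConHomeo)
open _root_.P073.Net (len dyc dyo IsTile SizeFn)
open scoped ENNReal

/-- The geometric data. -/
structure Geo (Ω Λ : Set V) where
  /-- origin of the domain grid -/
  v : V
  /-- good cells -/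
  J : Finset (Fin 3 → ℤ)
  /-- affine maps -/
  A : (Fin 3 → ℤ) → V → V
  /-- their linear parts -/
  L : (Fin 3 → ℤ) → V →L[ℝ] V
  aff : ∀ z x y, A z y - A z x = L z (y - x)
  inj : ∀ z ∈ J, Function.Injective (L z)
  /-- the affine maps are dyadic-rational -/
  N : ℕ
  ratL : ∀ z ∈ J, ∀ i j, ∃ a : ℤ, L z (ev j) i = a / 2 ^ N
  ratA : ∀ z ∈ J, ∀ i, ∃ a : ℤ, A z v i = a / 2 ^ N
  /-- size of the tiles -/
  ρ : V → ℝ
  size : SizeFn Λ ρ
  /-- boxes -/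
  B : Finset Bix
  bJ : ∀ b ∈ B, b.1 ∈ J
  blt : ∀ b ∈ B, ∀ k, b.2.1 k < b.2.2 k
  btile : ∀ b ∈ B, ∀ m z, IsTile ρ 0 m z → dyc 0 m z ⊆ b.box ∨ Disjoint (dyo 0 m z) b.box
  /-- domain partition -/
  I : Set Idx
  part : Part Ω v I
  /-- generation near the protected cells -/
  nr : ℕ
  /-- generation of the tiles which touch the boundaries of the boxes -/
  mt : ℕ
  mle : mt ≤ nr
  bmt : ∀ b ∈ B, ∀ m z, IsTile ρ 0 m z → (dyc 0 m z ∩ frontier b.box).Nonempty → m = mt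
  blo : ∀ b ∈ B, ∀ k, ∃ a : ℤ, b.2.1 k = a / 2 ^ mt
  bhi : ∀ b ∈ B, ∀ k, ∃ a : ℤ, b.2.2 k = a / 2 ^ mt
  unif : ∀ b ∈ B, ∀ q ∈ I, (∃ x ∈ dyc v q.1 q.2, ∃ y ∈ b.cell A, ‖x - y‖ ≤ 4 / 2 ^ nr) →
    q.1 = nr
  sep : ∀ b ∈ B, ∀ b' ∈ B, b ≠ b' → ∀ x ∈ b.cell A, ∀ y ∈ b'.cell A, 16 / 2 ^ nr < ‖x - y‖
  /-- the conical homeomorphism -/
  h : ConHomeo Ω Λ
  hA : ∀ b ∈ B, ∀ x, (∃ y ∈ b.cell A, ‖x - y‖ ≤ 8 / 2 ^ nr) → x ∈ Ω ∧ h.toFun x = A b.1 x

/-- the geometric part of the data -/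
def Pre.geo {p ε δ W₀ : ℝ} {Φ : ℕ → Finset (Fin 3 → ℤ) → ((Fin 3 → ℤ) → V → V) → ℝ}
    {Ω Λ : Set V} {f : V → V} {F : V → Mat} (P : Pre p ε δ W₀ Φ Ω Λ f F) : Geo Ω Λ :=
  { P with }

/-- The cut mesh. `CT`: shape constant of the cut faces. -/
structure CutMesh {Ω Λ : Set V} (G : Geo Ω Λ) (CT : ℝ) where
  /-- the mesh -/
  M : Mesh Ω
  /-- the protected cells are cells -/
  cell : {b // b ∈ G.B} → M.ι
  Qcell : ∀ b, M.Q (cell b) = b.1.cell G.A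
  shape : ∀ k, M.c k = 1 ∨ M.c k = CT
  /-- every face is a minimal square of `I` outside of the protected cells, or it is contained in
  a cube which meets the boundary of a protected cell -/
  face : ∀ k, ∃ q ∈ G.I, M.F k ⊆ dyc G.v q.1 q.2 ∧
    ((∃ s, MinSq G.v G.I s ∧ M.F k = squ G.v s ∧ ∀ b ∈ G.B, ¬ squ G.v s ⊆ b.cell G.A) ∨
      ∃ b ∈ G.B, (dyc G.v q.1 q.2 ∩ frontier (b.cell G.A)).Nonempty)
  aligned : Aligned 0 G.ρ M G.h.toFun (range cell)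
  /-- the squares are covered by faces and open protected cells -/
  cov : ∀ s, MinSq G.v G.I s → ∀ x ∈ squ G.v s, (∀ b ∈ G.B, x ∉ interior (b.cell G.A)) →
    ∃ k, x ∈ M.F k
  /-- far from the protected cells, the minimal squares are faces, and their minimal edges are
  adapted -/
  far : ∀ i ∈ G.I, (∀ b ∈ G.B, ∀ x ∈ dyc G.v i.1 i.2, ∀ y ∈ b.cell G.A, 1 / 2 ^ G.nr < ‖x - y‖) →
    ∀ s, MinSq G.v G.I s → squ G.v s ⊆ dyc G.v i.1 i.2 →
    ∃ k, M.F k = squ G.v s ∧ ∃ E : Finset (Idx × Fin 3),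
      (∀ e, e ∈ E ↔ MinEdge G.v G.I e ∧ edge G.v e ⊆ squ G.v s) ∧
      Adapted M k (E.image (segP G.v))

/-- **[CUT]** existence of the cut mesh, with a shape constant which depends only on the affine
maps. -/
def SpecCut : Prop :=
  ∀ (N : ℕ) (J : Finset (Fin 3 → ℤ)) (A : (Fin 3 → ℤ) → V → V), ∃ CT : ℝ,
    ∀ (Ω Λ : Set V) (G : Geo Ω Λ), St.IsBoundedDomain Ω → St.IsBoundedDomain Λ →
      G.N = N → G.J = J → G.A = A → Nonempty (CutMesh G CT)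

/-- **[ADE]** every face has an adapted family of edges (the minimal edges of the mesh) -/
def SpecAde : Prop :=
  ∀ (Ω : Set V) (M : Mesh Ω), IsOpen Ω → ∀ k, ∃ E : Finset (V × V), E.Nonempty ∧ Adapted M k E

/-- **[LAY]** the cone layers: `g` is replaced inside of the protected cells. -/
def SpecLay : Prop :=
  ∃ C : ℝ, ∀ (Ω Λ : Set V) (G : Geo Ω Λ) (g : ConHomeo Ω Λ) (K : ℝ),
    St.IsBoundedDomain Ω → St.IsBoundedDomain Λ → 1 ≤ K →
    (∀ b ∈ G.B, g.toFun '' b.cell G.A = b.box) →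
    (∀ b ∈ G.B, ∀ x ∈ frontier (b.cell G.A), ∀ m z, IsTile G.ρ 0 m z →
      G.A b.1 x ∈ dyc 0 m z → g.toFun x ∈ dyc 0 m z) →
    -- Lipschitz on each side
    (∀ b ∈ G.B, ∀ x ∈ b.cell G.A, ∀ y ∈ b.cell G.A,
      (∃ k, G.A b.1 x k = b.2.1 k ∧ G.A b.1 y k = b.2.1 k ∨
        G.A b.1 x k = b.2.2 k ∧ G.A b.1 y k = b.2.2 k) →
      ‖g.toFun x - g.toFun y‖ ≤ K * ‖G.A b.1 x - G.A b.1 y‖) →
    ∃ g' : ConHomeo Ω Λ, (∀ x ∈ Ω, (∀ b ∈ G.B, x ∉ interior (b.cell G.A)) →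
        g'.toFun x = g.toFun x) ∧
      ∀ b ∈ G.B, ∀ x ∈ b.cell G.A, ‖g'.toFun x - G.A b.1 x‖ ≤ 1 / 2 ^ G.mt ∧
        ((∀ k, b.2.1 k + 1 / 2 ^ G.mt ≤ G.A b.1 x k ∧ G.A b.1 x k ≤ b.2.2 k - 1 / 2 ^ G.mt) →
          g'.toFun x = G.A b.1 x) ∧
        ∀ y ∈ b.cell G.A, ‖g'.toFun x - g'.toFun y‖ ≤ C * K * ‖G.A b.1 x - G.A b.1 y‖

end Vale.Agent.P073.H73
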