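import Vale.Agent.P073.H73.K2A
import Vale.Agent.P073.H235.Red3

/-!
# P073, block A15: the data which are fed to the face theorem (finite distortion, `2 < p < 3`)

`Pre` collects everything that comes from the analysis (choice of the good cells, target grid,
centres, mesh, conical homeomorphism).  The geometry (cut mesh near the protected boxes, face
theorem, cone layer, sums) turns it into `ConFace`.

The origin of the target grid is `0`.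
-/

namespace Vale.Agent.P073.H73

open MeasureTheory Set Filter Topology Metric Vale.Agent.P073.St Vale.Agent.P073.AB
open Vale.Agent.P073.SQ (ev)
open _root_.P073 (ConHomeo)
open _root_.P073.Net (len dyc dyo IsTile SizeFn)
open scoped ENNReal

/-- `e` is a minimal edge of the partition `I` -/
def MinEdge (v : V) (I : Set Idx) (e : Idx × Fin 3) : Prop :=
  (∃ q ∈ I, EdgeOf e q) ∧
    ∀ e' : Idx × Fin 3, (∃ q ∈ I, EdgeOf e' q) → e.1.1 < e'.1.1 → ¬ edge v e' ⊆ edge v e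

/-- the dyadic edge as a pair of points -/
noncomputable def segP (v : V) (e : Idx × Fin 3) : V × V :=
  (pt v e.1.1 e.1.2, pt v e.1.1 e.1.2 + (1 / 2 ^ e.1.1 : ℝ) • ev e.2)

/-- a protected box of the target: the index of its good cell, lower and upper corner -/
abbrev Bix : Type := (Fin 3 → ℤ) × V × V

/-- the box -/
def Bix.box (b : Bix) : Set V := Icc b.2.1 b.2.2

/-- the protected cell of the domain -/
def Bix.cell (A : (Fin 3 → ℤ) → V → V) (b : Bix) : Set V := A b.1 ⁻¹' b.box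

/-- **The data.** `ε`: all errors; `δ`: from `K2A`; `W₀`: bound for the weights near the protected
cells; `Φ`: factor in front of the volume of the cut zone and of the first layer (it may depend on
the affine maps). -/
structure Pre (p ε δ W₀ : ℝ) (Φ : ℕ → Finset (Fin 3 → ℤ) → ((Fin 3 → ℤ) → V → V) → ℝ)
    (Ω Λ : Set V) (f : V → V) (F : V → Mat) where
  /-- origin of the domain grid -/
  v : V
  /-- good cells -/
  J : Finset (Fin 3 → ℤ)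
  /-- affine maps -/
  A : (Fin 3 → ℤ) → V → V
  /-- their linear parts -/
  L : (Fin 3 → ℤ) → V →L[ℝ] V
  aff : ∀ z x y, A z y - A z x = L z (y - x)
  inj : ∀ z ∈ J, Function.Injective (L z)
  /-- the affine maps are dyadic-rational -/
  N : ℕ
  ratL : ∀ z ∈ J, ∀ i j, ∃ a : ℤ, L z (ev j) i = a / 2 ^ N
  ratA : ∀ z ∈ J, ∀ i, ∃ a : ℤ, A z v i = a / 2 ^ N
  -- the target grid
  /-- size of the tiles -/
  ρ : V → ℝ
  size : SizeFn Λ ρ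
  tsmall : ∀ y, ρ y ≤ ε
  /-- centres -/
  c : ℕ → (Fin 3 → ℤ) → V
  cmem : ∀ m z, IsTile ρ 0 m z → ‖c m z - ctr 0 m z‖ ≤ 1 / 4 / 2 ^ m
  -- the protected boxes
  /-- boxes -/
  B : Finset Bix
  bJ : ∀ b ∈ B, b.1 ∈ J
  blt : ∀ b ∈ B, ∀ k, b.2.1 k < b.2.2 k
  btile : ∀ b ∈ B, ∀ m z, IsTile ρ 0 m z → dyc 0 m z ⊆ b.box ∨ Disjoint (dyo 0 m z) b.box
  -- the partition
  /-- domain partition -/
  I : Set Idx
  part : Part Ω v I
  /-- generation near the protected cells -/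
  nr : ℕ
  /-- generation of the tiles which touch the boundaries of the boxes -/
  mt : ℕ
  mle : mt ≤ nr
  bmt : ∀ b ∈ B, ∀ m z, IsTile ρ 0 m z → (dyc 0 m z ∩ frontier b.box).Nonempty → m = mt
  blo : ∀ b ∈ B, ∀ k, ∃ a : ℤ, b.2.1 k = a / 2 ^ mt
  bhi : ∀ b ∈ B, ∀ k, ∃ a : ℤ, b.2.2 k = a / 2 ^ mt
  unif : ∀ b ∈ B, ∀ q ∈ I, (∃ x ∈ dyc v q.1 q.2, ∃ y ∈ b.cell A, ‖x - y‖ ≤ 4 / 2 ^ nr) →
    q.1 = nr
  sep : ∀ b ∈ B, ∀ b' ∈ B, b ≠ b' → ∀ x ∈ b.cell A, ∀ y ∈ b'.cell A, 16 / 2 ^ nr < ‖x - y‖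
  -- the homeomorphism
  /-- the conical homeomorphism -/
  h : ConHomeo Ω Λ
  near : ∀ x ∈ Ω, ‖h.toFun x - f x‖ ≤ ε
  hA : ∀ b ∈ B, ∀ x, (∃ y ∈ b.cell A, ‖x - y‖ ≤ 8 / 2 ^ nr) → x ∈ Ω ∧ h.toFun x = A b.1 x
  /-- near the boundaries of the protected cells -/
  zone : ∀ b ∈ B, ∀ x, (∃ y ∈ frontier (b.cell A), ‖x - y‖ ≤ 4 / 2 ^ nr) →
    ∀ m z, IsTile ρ 0 m z → h.toFun x ∈ dyc 0 m z → h.toFun x ≠ c m z ∧
      1 / 2 ^ m ≤ W₀ * ‖h.toFun x - c m z‖ ∧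
      ∀ y, ‖x - y‖ ≤ 2 / 2 ^ nr → ‖h.toFun x - h.toFun y‖ ≤ δ * ‖h.toFun x - c m z‖
  /-- on the minimal squares outside of the protected cells -/
  cond : ∀ s, MinSq v I s → (∀ b ∈ B, ¬ squ v s ⊆ b.cell A) →
    ∀ x ∈ squ v s, ∀ m z, IsTile ρ 0 m z → h.toFun x ∈ dyc 0 m z → h.toFun x ≠ c m z ∧
      ∀ y ∈ squ v s, ‖h.toFun x - h.toFun y‖ ≤ δ * ‖h.toFun x - c m z‖
  /-- weighted lengths of the minimal edges -/
  ℓ : Idx × Fin 3 → ℝ≥0∞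
  len : ∀ e, MinEdge v I e → (∀ b ∈ B, ¬ edge v e ⊆ b.cell A) →
    ∃ W, WLe 0 ρ c h.toFun (segP v e) W ∧
      ENNReal.ofReal W * len (onSeg h.toFun (segP v e)) (Icc 0 1) ≤ ℓ e
  /-- the sum over the cells off the cut zone -/
  sum : ∑' i : {i : Idx // i ∈ I ∧ ∀ b ∈ B, ∀ x ∈ dyc v i.1 i.2, ∀ y ∈ b.cell A,
        1 / 2 ^ nr < ‖x - y‖},
      ∑' s : {s : Idx × Fin 3 // MinSq v I s ∧ squ v s ⊆ dyc v i.1.1 i.1.2},
        ∑' e : {e : Idx × Fin 3 // MinEdge v I e ∧ edge v e ⊆ squ v s.1},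
          ENNReal.ofReal (1 / 2 ^ i.1.1 * (1 / 2 ^ s.1.1.1)) *
            (ENNReal.ofReal ((1 / 2 ^ e.1.1.1) ^ (1 - p)) * ℓ e.1 ^ p) ≤ ENNReal.ofReal ε
  /-- the cut zone and the first layer of tiles are small -/
  cut : ENNReal.ofReal (Φ N J A) * volume {x | ∃ b ∈ B, ∃ y ∈ b.cell A, ‖x - y‖ ≤ 4 / 2 ^ nr ∧
      ∃ k, A b.1 y k ≤ b.2.1 k + 1 / 2 ^ mt ∨ b.2.2 k - 1 / 2 ^ mt ≤ A b.1 y k} ≤
    ENNReal.ofReal ε
  -- energies
  s1 : ∑ b ∈ B, ∑ j, ∫⁻ x in b.cell A,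
    ENNReal.ofReal (‖cl (F x) (ev j) - L b.1 (ev j)‖ ^ p) ≤ ENNReal.ofReal ε
  s2 : ∑ j, ∫⁻ x in Ω \ ⋃ b ∈ B, b.cell A, ENNReal.ofReal (‖cl (F x) (ev j)‖ ^ p) ≤
    ENNReal.ofReal ε
  -- zero order
  /-- large compact set -/
  K : Set V
  Ksub : K ⊆ Ω
  Kmeas : MeasurableSet K
  Kvol : volume (Ω \ K) ≤ ENNReal.ofReal ε
  osc : ∀ x ∈ K, ∀ q ∈ I, x ∈ dyc v q.1 q.2 → ∀ y ∈ dyc v q.1 q.2, ‖f y - f x‖ ≤ ε

/-- **[PRE]** the data exist. -/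
def SpecPre (p : ℝ) : Prop :=
  ∀ (Ω Λ : Set V) (f : V → V) (F : V → Mat), St.IsBoundedDomain Ω → St.IsBoundedDomain Λ →
    St.IsHomeo Ω Λ f → St.IsSobolev p Ω f F → FinDist Ω F →
    ∀ (ε δ : ℝ) (Φ : ℕ → Finset (Fin 3 → ℤ) → ((Fin 3 → ℤ) → V → V) → ℝ), 0 < ε → 0 < δ →
    Nonempty (Pre p ε δ 16 Φ Ω Λ f F)

/-- **[POST]** the geometry. -/
def SpecPost (p : ℝ) : Prop :=
  K2A p → ∃ δ > 0, ∃ Φ : ℕ → Finset (Fin 3 → ℤ) → ((Fin 3 → ℤ) → V → V) → ℝ,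
    ∀ ε > 0, ∃ ε' > 0, ∀ (Ω Λ : Set V) (f : V → V) (F : V → Mat), St.IsBoundedDomain Ω →
    St.IsBoundedDomain Λ → St.IsHomeo Ω Λ f → St.IsSobolev p Ω f F →
    Pre p ε' δ 16 Φ Ω Λ f F → ConFace p ε Ω Λ f F

theorem fdFace_of {p : ℝ} (hK : K2A p) (h1 : SpecPre p) (h2 : SpecPost p) :
    H235.FDFace p := by
  obtain ⟨δ, hδ, Φ, H⟩ := h2 hK
  intro Ω Λ f F hΩ hΛ hf hF hD ε hε
  obtain ⟨ε', hε', H'⟩ := H ε hε
  obtain ⟨P⟩ := h1 Ω Λ f F hΩ hΛ hf hF hD ε' δ Φ hε' hδ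
  exact H' Ω Λ f F hΩ hΛ hf hF P

end Vale.Agent.P073.H73
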