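import Vale.Agent.P073.H73.CA9
import Vale.Agent.P073.H732.RedV
import Vale.Agent.P073.H309.BelowThree

/-!
# P073, branch A with closeness, `2 < q < 3`, all homeomorphisms
-/

namespace Vale.Agent.P073.H73

open Vale.Agent.P073 Vale.Agent.P073.St Vale.Agent.P073.H235 Vale.Agent.P073.LOC
open Vale.Agent.P073.H608 Vale.Agent.P073.AB
open scoped ENNReal

theorem closeFD' {q : ℝ} (hq : 2 < q) (hq3 : q < 3) : H732.CloseFD q := by
  intro Ω Λ f F hΩ hΛ hf hF huc hD ε hε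
  obtain ⟨φ, h1, h2, h3⟩ := closeFD hq hq3 Ω Λ f F hΩ hΛ hf hF hD huc ε hε
  exact ⟨φ, h1, h3, h2.le, h2.lim⟩

/-- **branch A with closeness** (732's form) -/
theorem closeA' {q : ℝ} (hq : 2 < q) (hq3 : q < 3) : H732.CloseA q := by
  have h1 : (1:ℝ) ≤ q := by linarith
  have H : OpenLt q := (H309.open23 hq.le hq3).openLt hq.le (H333.specPre hq hq3)
  have hK : H73.K2AS q := H471.k2as_of_k2c (by linarith) H.k2c
  exact H732.red_close h1 (closeFD' hq hq3) (rk1_lt h1 hq3 H.conBeam)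
    (rk2_lt h1 hq3 (specConFlat_of hK H.preFlat H.postFlat))

/-- **branch A with closeness** -/
theorem closeA {q : ℝ} (hq : 2 < q) (hq3 : q < 3) : CloseA q := by
  intro Ω Λ f F hΩ hΛ hf hF huc ε hε
  obtain ⟨φ, h1, h2, h3, h4⟩ := closeA' hq hq3 Ω Λ f F hΩ hΛ hf hF huc ε hε
  exact ⟨φ, h1, ⟨h3, h4⟩, h2⟩

end Vale.Agent.P073.H73
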