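import Vale.Agent.P073.H73.PostC2
import Vale.Agent.P073.H193.Edg
import Vale.Agent.P073.H669.Lay
import Vale.Agent.P073.H989.CutAsm

/-!
# P073, block A15: `SpecPost`
-/

namespace Vale.Agent.P073.H73

open Set Metric Topology Vale.Agent.P073.St

/-- **[ADE]** -/
theorem specAde : SpecAde := by
  intro Ω M _ k
  obtain ⟨E⟩ := H193.exists_edges M
  have hP := H193.pgn_of_fat (M.fat k)
  refine ⟨E.ofFace k, ?_, ?_⟩
  · obtain ⟨φ, -⟩ := (M.fat k).chart
    have hne : (M.F k).Nonempty :=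
      ⟨_, φ.mapsTo (show ((0 : ℝ), (0 : ℝ)) ∈ usq by constructor <;> simp)⟩
    obtain ⟨x, hx⟩ := hP.cpt.extremePoints_nonempty hne
    have h1 := hP.ext_sub hx
    have h2 := (E.covers k).2 h1
    obtain ⟨e, he, -⟩ := mem_iUnion₂.1 h2
    exact ⟨e, he⟩
  · have hmem : ∀ e ∈ E.ofFace k, ∃ e', (E.a e', E.b e') = e := by
      intro e he
      obtain ⟨e', -, h⟩ := Finset.mem_image.1 he
      exact ⟨e', h⟩
    refine ⟨fun e he => ?_, (E.covers k).1, (E.covers k).2, fun e he l hl => ?_⟩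
    · obtain ⟨e', rfl⟩ := hmem e he
      exact E.ne e'
    · obtain ⟨e', rfl⟩ := hmem e he
      obtain ⟨x, hx1, hx2⟩ := hl
      exact E.sub_of_mem hx2 hx1

/-- **[POST]** -/
theorem specPost {p : ℝ} (hp : 1 ≤ p) : SpecPost p :=
  specPost_of hp H989.specCut specAde P073.H669.specLay

/-- **the face theorem for finite distortion**, from the face theorem for meshes and the data -/
theorem fdFace_of_pre {p : ℝ} (hp : 1 ≤ p) (hK : K2A p) (h : SpecPre p) : H235.FDFace p :=
  fdFace_of hK h (specPost hp)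

end Vale.Agent.P073.H73
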