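import Vale.Agent.P073.H687.Dict
import Vale.Agent.P073.H193.Class
import Vale.Agent.P073.H73.K2S
import Vale.Agent.P073.H73.PostA

/-!
# P073, blocks A16: the mesh of a dyadic partition, minimal edges

The minimal edges in a minimal square are adapted to the mesh of the partition, and they are edges
of the mesh (`IsEdge`).
-/

namespace Vale.Agent.P073.H73

open MeasureTheory Set Filter Topology Metric Vale.Agent.P073.St Vale.Agent.P073.AB
open Vale.Agent.P073.AB.P86
open Vale.Agent.P073.SQ (ev cube Cells)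
open Vale.Agent.P073.H304 (IsEdge)
open Vale.Agent.P073.H194 (partMesh)
open Vale.Agent.P073.H687 (edges mem_edges exists_minEdge inner_of_openSegment edge_sub_of_inner
  inter_eq intrinsicFrontier_squ segP_ne sum_edges)
open _root_.P073 (ConHomeo)
open _root_.P073.Net (len dyc dyo IsTile SizeFn)
open scoped ENNReal

variable {Ω : Set V} {v : V} {I : Set Idx}

/-- a minimal square which contains an inner point of a minimal edge contains the edge -/
theorem edge_sub_squ (hΩ : IsOpen Ω) (hI : Part Ω v I) {e : Idx × Fin 3} (he : MinEdge v I e)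
    {s : Idx × Fin 3} (hs : MinSq v I s) {x : V}
    (hx : x ∈ openSegment ℝ (segP v e).1 (segP v e).2) (hxs : x ∈ squ v s) :
    edge v e ⊆ squ v s := by
  obtain ⟨qp, qm, h⟩ := two_of_minSq hΩ hI hs
  obtain ⟨g1, g2, g3⟩ := inner_of_openSegment hx
  rw [← inter_eq hI hs h] at hxs ⊢
  exact subset_inter (edge_sub_of_inner he h.memp g1 g2 g3 hxs.1)
    (edge_sub_of_inner he h.memm g1 g2 g3 hxs.2)

/-- **[ADP]** -/
theorem adapted_part (hΩ : IsOpen Ω) (hI : Part Ω v I) (k : (partMesh hΩ hI).κ) :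
    Adapted (partMesh hΩ hI) k (edges hI k.2) where
  ne := by
    intro e he
    obtain ⟨e', -, rfl⟩ := (mem_edges hI k.2).1 he
    exact segP_ne v e'
  sub := by
    intro e he
    obtain ⟨e', ⟨-, h2⟩, rfl⟩ := (mem_edges hI k.2).1 he
    exact h2
  cover := by
    show intrinsicFrontier ℝ (squ v k.1) ⊆ _
    rw [intrinsicFrontier_squ]
    rintro x ⟨hx, hxr⟩
    obtain ⟨e, h1, h2, h3⟩ := exists_minEdge hΩ hI k.2 hx hxr
    exact mem_iUnion₂.2 ⟨segP v e, (mem_edges hI k.2).2 ⟨e, ⟨h1, h2⟩, rfl⟩, h3⟩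
  edge := by
    intro e he l hl
    obtain ⟨e', ⟨h1, -⟩, rfl⟩ := (mem_edges hI k.2).1 he
    obtain ⟨x, hxl, hxe⟩ := hl
    exact edge_sub_squ hΩ hI h1 l.2 hxe hxl

/-- a boundary point of a cube of the partition is in a minimal square parallel to the face -/
theorem bd_cover' (hΩ : IsOpen Ω) (hI : Part Ω v I) {q : Idx} (hq : q ∈ I) {x : V}
    (hx : x ∈ dyc v q.1 q.2) {l : Fin 3}
    (hl : x l = v l + q.2 l / 2 ^ q.1 ∨ x l = v l + (q.2 l + 1) / 2 ^ q.1) :
    ∃ s, MinSq v I s ∧ x ∈ squ v s ∧ squ v s ⊆ dyc v q.1 q.2 ∧ s.2 = l := by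
  rcases hl with hl | hl
  · obtain ⟨s, h1, h2, h3⟩ := cover_hi hΩ hI (s := (q, l)) (x := x) ⟨hl, fun k _ => hx k⟩ hq
    exact ⟨s, h1, h2, h3.trans squ_sub_hi, H193.normal_of_sub h3⟩
  · set s0 : Idx × Fin 3 := ((q.1, Function.update q.2 l (q.2 l + 1)), l) with hs0
    have hlo : lo s0 = q.2 := by
      funext j
      by_cases hj : j = l
      · subst hj; simp [lo, hs0]
      · simp [lo, hs0, hj]
    have hxs : x ∈ squ v s0 := by
      refine ⟨?_, fun k hk => ?_⟩
      · show x l = v l + ((Function.update q.2 l (q.2 l + 1) l : ℤ) : ℝ) / 2 ^ q.1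
        rw [Function.update_self, hl]; push_cast; rfl
      · have hk' : k ≠ l := hk
        have : s0.1.2 k = q.2 k := by simp [hs0, hk']
        rw [this]; exact hx k
    obtain ⟨s, h1, h2, h3⟩ := cover_lo hΩ hI hxs (by show (q.1, lo s0) ∈ I; rw [hlo]; exact hq)
    refine ⟨s, h1, h2, h3.trans ?_, H193.normal_of_sub h3⟩
    have := squ_sub_lo (v := v) (s := s0)
    rw [hlo] at this
    exact this

/-- the points of an edge of a cube -/
theorem edgeOf_mem {e : Idx × Fin 3} {q : Idx} (h : EdgeOf e q) : edge v e ⊆ dyc v q.1 q.2 := by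
  intro x hx
  rw [Gr.mem_edge] at hx
  obtain ⟨h1, h2, h3⟩ := h
  have hp : (0:ℝ) < 1 / 2 ^ q.1 := by positivity
  intro j
  by_cases hj : j = e.2
  · subst hj
    have := hx.2
    rw [h1, h2] at this
    exact this
  · rw [hx.1 j hj, h1, div_add_one]
    rcases h3 j hj with h | h
    · rw [h]; constructor <;> linarith
    · rw [h]; push_cast; rw [div_add_one]; constructor <;> linarith

/-- the coordinate of an edge in the other directions -/
theorem edgeOf_coord {e : Idx × Fin 3} {q : Idx} (h : EdgeOf e q) {j : Fin 3} (hj : j ≠ e.2)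
    {x : V} (hx : x ∈ edge v e) :
    x j = v j + q.2 j / 2 ^ q.1 ∨ x j = v j + (q.2 j + 1) / 2 ^ q.1 := by
  rw [Gr.mem_edge] at hx
  rw [hx.1 j hj, h.1]
  rcases h.2.2 j hj with h' | h'
  · left; rw [h']
  · right; rw [h']; push_cast; rfl

theorem segP_coord (v : V) (e : Idx × Fin 3) (t : ℝ) :
    ((segP v e).1 + t • ((segP v e).2 - (segP v e).1)) e.2 =
      v e.2 + e.1.2 e.2 / 2 ^ e.1.1 + t * (1 / 2 ^ e.1.1) := by
  simp [segP, pt, ev]

/-- **minimal edges are edges of the mesh** -/
theorem isEdge_segP (hΩ : IsOpen Ω) (hI : Part Ω v I) {e : Idx × Fin 3} (he : MinEdge v I e) :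
    IsEdge (partMesh hΩ hI) (segP v e) where
  ne := segP_ne v e
  sub := by
    obtain ⟨q, hq, hqe⟩ := he.1
    obtain ⟨k, hk⟩ : ∃ k : Fin 3, k ≠ e.2 := exists_ne e.2
    obtain ⟨j, hj1, hj2⟩ := H687.fin3_third k e.2 hk
    -- the middle point of the edge
    set x : V := (segP v e).1 + (1 / 2 : ℝ) • ((segP v e).2 - (segP v e).1) with hx
    have hxo : x ∈ openSegment ℝ (segP v e).1 (segP v e).2 := by
      rw [openSegment_eq_image']
      exact ⟨1 / 2, by constructor <;> norm_num, rfl⟩
    have hxe : x ∈ edge v e := openSegment_subset_segment ℝ _ _ hxo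
    obtain ⟨s, hs, hxs, hsq, hsk⟩ := bd_cover' hΩ hI hq (edgeOf_mem hqe hxe)
      (edgeOf_coord hqe hk hxe)
    have hsub := edge_sub_squ hΩ hI he hs hxo hxs
    refine ⟨⟨s, hs⟩, ?_⟩
    show segment ℝ (segP v e).1 (segP v e).2 ⊆ intrinsicFrontier ℝ (squ v s)
    rw [intrinsicFrontier_squ]
    intro y hy
    refine ⟨hsub hy, fun hyr => ?_⟩
    have hjs : j ≠ s.2 := by rw [hsk]; exact hj2
    have h1 := hyr.2 j hjs
    have h2 := (H193.squ_dyc_ineq hsq).2 j hjs
    rcases edgeOf_coord hqe hj1 hy with h | h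
    · rw [h] at h1; linarith [h1.1, h2.1]
    · rw [h] at h1; linarith [h1.2, h2.2]
  edge := by
    rintro l ⟨x, hxl, hxe⟩
    exact edge_sub_squ hΩ hI he l.2 hxe hxl
  max := by
    intro e' hsub hedge
    obtain ⟨q, hq, hqe⟩ := he.1
    set l := e.2 with hl
    -- points of the longer segment
    have key : ∀ y ∈ segment ℝ (segP v e).1 (segP v e).2,
        (y l = v l + q.2 l / 2 ^ q.1 ∨ y l = v l + (q.2 l + 1) / 2 ^ q.1) →
        y ∉ openSegment ℝ e'.1 e'.2 := by
      intro y hy hyl hyo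
      obtain ⟨s, hs, hys, -, hsl⟩ := bd_cover' hΩ hI hq (edgeOf_mem hqe hy) hyl
      have h1 := hedge ⟨s, hs⟩ ⟨y, hys, hyo⟩
      have h2 : (segP v e).1 l = v l + s.1.2 l / 2 ^ s.1.1 := by
        have := (h1 (hsub (left_mem_segment ℝ _ _))).1
        rwa [hsl] at this
      have h3 : (segP v e).2 l = v l + s.1.2 l / 2 ^ s.1.1 := by
        have := (h1 (hsub (right_mem_segment ℝ _ _))).1
        rwa [hsl] at this
      have h4 := congrFun (segP_sub v e) l
      rw [Pi.sub_apply, h2, h3, sub_self] at h4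
      have h5 : (0:ℝ) < 1 / 2 ^ e.1.1 := by positivity
      simp only [ev, hl, Pi.smul_apply, Pi.single_eq_same, smul_eq_mul, mul_one] at h4
      linarith
    have hlo : (segP v e).1 l = v l + q.2 l / 2 ^ q.1 := by
      have := segP_coord v e 0
      rw [zero_smul, add_zero, zero_mul, add_zero, hqe.2.1, hqe.1] at this
      exact this
    have hhi : (segP v e).2 l = v l + (q.2 l + 1) / 2 ^ q.1 := by
      have := segP_coord v e 1
      rw [one_smul, add_sub_cancel, one_mul, hqe.2.1, hqe.1] at this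
      rw [P86.div_add_one, ← add_assoc]
      exact this
    have k1 := key _ (left_mem_segment ℝ _ _) (Or.inl hlo)
    have k2 := key _ (right_mem_segment ℝ _ _) (Or.inr hhi)
    have m1 := hsub (left_mem_segment ℝ _ _)
    have m2 := hsub (right_mem_segment ℝ _ _)
    have hne := segP_ne v e
    -- the end points of the edge are the end points of the longer segment
    have hend : ∀ y ∈ segment ℝ e'.1 e'.2, y ∉ openSegment ℝ e'.1 e'.2 → y = e'.1 ∨ y = e'.2 := by
      intro y hy hyo
      rw [← insert_endpoints_openSegment] at hy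
      rcases hy with hy | hy | hy
      · exact Or.inl hy
      · exact Or.inr hy
      · exact absurd hy hyo
    rcases hend _ m1 k1 with h1 | h1 <;> rcases hend _ m2 k2 with h2 | h2
    · exact absurd (h1.trans h2.symm) hne
    · rw [h1, h2]
    · rw [h1, h2, segment_symm]
    · exact absurd (h1.trans h2.symm) hne

end Vale.Agent.P073.H73
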