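import Vale.Agent.P073.H73.PostB3

/-!
# P073, block A15, SpecPost: the sum over the squares
-/

namespace Vale.Agent.P073.H73

open MeasureTheory Set Filter Topology Metric Vale.Agent.P073.St Vale.Agent.P073.AB
open Vale.Agent.P073.SQ (ev cube Cells)
open Vale.Agent.P073.AB.P86 (sc rel cen cells)
open _root_.P073 (ConHomeo)
open _root_.P073.Net (dyc dyo IsTile SizeFn)
open scoped ENNReal

/-! ### Two sums -/

theorem tsum_subset_le {α : Type*} (Q : α → Prop) (H : α → ℝ≥0∞) :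
    ∑' i : {i // Q i}, H i ≤ ∑' i, H i :=
  ENNReal.tsum_comp_le_tsum_of_injective Subtype.val_injective H

theorem tsum_subset_le' {α : Type*} {Q Q' : α → Prop} (h : ∀ i, Q i → Q' i) (H : α → ℝ≥0∞) :
    ∑' i : {i // Q i}, H i ≤ ∑' i : {i // Q' i}, H i :=
  ENNReal.tsum_comp_le_tsum_of_injective (f := fun i : {i // Q i} => (⟨i.1, h _ i.2⟩ : {i // Q' i}))
    (fun _ _ hab => Subtype.ext (congrArg (fun a => a.1) hab)) (fun i : {i // Q' i} => H i.1)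

open Classical in
/-- splitting of a sum -/
theorem tsum_split_le {α : Type*} (Q R : α → Prop) {E H₁ H₂ : α → ℝ≥0∞}
    (h₁ : ∀ i, Q i → R i → E i ≤ H₁ i) (h₂ : ∀ i, Q i → ¬ R i → E i ≤ H₂ i) :
    ∑' i : {i // Q i}, E i ≤ ∑' i : {i // Q i ∧ R i}, H₁ i + ∑' i : {i // Q i ∧ ¬ R i}, H₂ i := by
  have e1 : ∀ (Q : α → Prop) (H : α → ℝ≥0∞), ∑' i : {i // Q i}, H i =
      ∑' i, if Q i then H i else 0 := by
    intro Q H
    have := tsum_subtype {i | Q i} H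
    refine this.trans (tsum_congr fun i => ?_)
    simp [Set.indicator]
  rw [e1, e1, e1, ← ENNReal.tsum_add]
  refine ENNReal.tsum_le_tsum fun i => ?_
  by_cases hQ : Q i
  · by_cases hR : R i
    · simpa [hQ, hR] using h₁ i hQ hR
    · simpa [hQ, hR] using h₂ i hQ hR
  · simp [hQ]

/-! ### The cells -/

section

variable {Ω : Set V} {v : V} {I S : Set Idx}

theorem mem_bd (hΩ : IsOpen Ω) (hI : Part Ω v I) (hS : S ⊆ I) (i : (cells hΩ hI hS).ι)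
    (t : (cells hΩ hI hS).κ) :
    t ∈ (cells hΩ hI hS).bd i ↔ squ v t.1 ⊆ dyc v i.1.1 i.1.2 :=
  Set.Finite.mem_toFinset _

/-- sums over the squares of a cube -/
theorem sum_bd (hΩ : IsOpen Ω) (hI : Part Ω v I) (hS : S ⊆ I) (i : (cells hΩ hI hS).ι)
    (H : Idx × Fin 3 → ℝ≥0∞) :
    ∑ t ∈ (cells hΩ hI hS).bd i, H t.1 =
      ∑' s : {s : Idx × Fin 3 // MinSq v I s ∧ squ v s ⊆ dyc v i.1.1 i.1.2}, H s.1 := by
  classical
  set B : Finset (P86.Kap v I S) := (cells hΩ hI hS).bd i with hB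
  rw [tsum_of_mem_iff (B.image Subtype.val) _ (fun s => ?_) H]
  · exact (Finset.sum_image (f := H) (s := B) (g := Subtype.val)
      fun a _ b _ hab => Subtype.ext hab).symm
  · constructor
    · intro h
      obtain ⟨t, ht, rfl⟩ := Finset.mem_image.1 h
      exact ⟨t.2.1, (mem_bd hΩ hI hS i t).1 ht⟩
    · rintro ⟨h1, h2⟩
      exact Finset.mem_image.2 ⟨⟨s, h1, i.1, i.2, h2⟩, (mem_bd hΩ hI hS i _).2 h2, rfl⟩

/-- a cube has six faces -/
theorem card_faces (q : Idx) (E : Finset (Idx × Fin 3)) (hE : ∀ s ∈ E, FaceOf s q) :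
    E.card ≤ 6 := by
  classical
  set φ : Fin 3 × Bool → Idx × Fin 3 := fun a =>
    ((q.1, if a.2 then q.2 else Function.update q.2 a.1 (q.2 a.1 + 1)), a.1) with hφ
  have h1 : E ⊆ Finset.univ.image φ := by
    intro s hs
    obtain ⟨h1, h2, h3⟩ := hE s hs
    rcases h2 with h2 | h2
    · refine Finset.mem_image.2 ⟨(s.2, true), Finset.mem_univ _, ?_⟩
      refine Prod.ext (Prod.ext h1.symm ?_) rfl
      funext j
      by_cases hj : j = s.2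
      · rw [hj]; simp [hφ, h2]
      · simp [hφ, h3 j hj]
    · refine Finset.mem_image.2 ⟨(s.2, false), Finset.mem_univ _, ?_⟩
      refine Prod.ext (Prod.ext h1.symm ?_) rfl
      funext j
      by_cases hj : j = s.2
      · rw [hj]; simp [hφ, h2]
      · simp [hφ, h3 j hj, hj]
  calc E.card ≤ (Finset.univ.image φ).card := Finset.card_le_card h1
    _ ≤ (Finset.univ : Finset (Fin 3 × Bool)).card := Finset.card_image_le
    _ = 6 := by decide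

theorem volume_cube_eq (a : V) {m : ℕ} : volume (cube a (1 / 2 / 2 ^ m)) =
    ENNReal.ofReal (1 / 8 ^ m) := by
  have hσ : (0:ℝ) ≤ 1 / 2 / 2 ^ m := by positivity
  have hcube : cube a (1 / 2 / 2 ^ m) = closedBall a (1 / 2 / 2 ^ m) := by
    ext x
    rw [mem_closedBall, dist_pi_le_iff hσ]
    exact forall_congr' fun l => by rw [Real.dist_eq]
  rw [hcube, Real.volume_pi_closedBall a hσ]
  congr 1
  rw [Fintype.card_fin, show (8:ℝ) ^ m = (2 ^ m) ^ 3 by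
    rw [← pow_mul, mul_comm, pow_mul]; norm_num]
  field_simp

end

section

variable {p ε δ : ℝ} {Φ : ℕ → Finset (Fin 3 → ℤ) → ((Fin 3 → ℤ) → V → V) → ℝ}
  {Ω Λ : Set V} {f : V → V} {F : V → Mat} (P : Pre p ε δ 16 Φ Ω Λ f F)

/-- deep points -/
def Pre.Deep (b : Bix) (x : V) : Prop := x ∈ b.cell P.A ∧
  ∀ k, b.2.1 k + 1 / 2 ^ P.mt ≤ P.A b.1 x k ∧ P.A b.1 x k ≤ b.2.2 k - 1 / 2 ^ P.mt

/-- the cubes which are kept -/
def Pre.keep : Set Idx := {q | q ∈ P.I ∧ ∃ b ∈ P.B, ∀ x ∈ dyc P.v q.1 q.2, P.Deep b x}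

/-- the bad zone -/
def Pre.zoneZ : Set V := {x | ∃ b ∈ P.B, ∃ y ∈ b.cell P.A, ‖x - y‖ ≤ 4 / 2 ^ P.nr ∧
  ∃ k, P.A b.1 y k ≤ b.2.1 k + 1 / 2 ^ P.mt ∨ b.2.2 k - 1 / 2 ^ P.mt ≤ P.A b.1 y k}

theorem Pre.keep_sub : P.keep ⊆ P.I := fun _ hq => hq.1

/-- a cube near the cells which is not kept lies in the bad zone -/
theorem Pre.sub_zoneZ {q : Idx} (hq : q ∈ P.I) (hk : q ∉ P.keep) (hn : ¬ P.geo.Far q) :
    dyc P.v q.1 q.2 ⊆ P.zoneZ := by
  intro x hx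
  obtain ⟨b, hb, x1, hx1, y1, hy1, hxy1⟩ := Geo.near_of_not_far hn
  have hqn : q.1 = P.nr := Geo.gen_of_not_far (G := P.geo) hq hn
  have hd : ∀ u ∈ dyc P.v q.1 q.2, ∀ w ∈ dyc P.v q.1 q.2, ‖u - w‖ ≤ 1 / 2 ^ P.nr := by
    intro u hu w hw
    have := S293.dist_dyc hu hw
    rwa [hqn] at this
  have hp : (0:ℝ) < 1 / 2 ^ P.nr := by positivity
  have hnr : P.geo.nr = P.nr := rfl
  rw [hnr] at hxy1
  have h4 : (4:ℝ) / 2 ^ P.nr = 4 * (1 / 2 ^ P.nr) := by ring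
  obtain ⟨x0, hx0, hx0D⟩ : ∃ x0 ∈ dyc P.v q.1 q.2, ¬ P.Deep b x0 := by
    by_contra hcon
    push Not at hcon
    exact hk ⟨hq, b, hb, hcon⟩
  by_cases hx0b : x0 ∈ b.cell P.A
  · refine ⟨b, hb, x0, hx0b, (hd x hx x0 hx0).trans ?_, ?_⟩
    · rw [h4]; linarith
    · by_contra hcon
      push Not at hcon
      exact hx0D ⟨hx0b, fun k => ⟨(hcon k).1.le, (hcon k).2.le⟩⟩
  · have hy1' : y1 ∈ b.cell P.A := hy1
    have hx0i : x0 ∉ interior (b.cell P.A) := fun h => hx0b (interior_subset h)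
    obtain ⟨z, hz, -, hxz⟩ := exists_frontier hx0i hy1'
    have hzc : z ∈ b.cell P.A := frontier_sub_cell (G := P.geo) hz
    have e1 := hd x hx x0 hx0
    have e2 := hd x0 hx0 x1 hx1
    have e3 := norm_sub_le_norm_sub_add_norm_sub x0 x1 y1
    have e4 := norm_sub_le_norm_sub_add_norm_sub x x0 z
    refine ⟨b, hb, z, hzc, ?_, ?_⟩
    · rw [h4]; linarith
    · have hfc : frontier (b.cell P.A) = P.A b.1 ⁻¹' frontier b.box :=
        Geo.frontier_cell (G := P.geo) hb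
      rw [hfc] at hz
      obtain ⟨-, k, hk⟩ := mem_frontier_Icc.1 hz
      have hmt : (0:ℝ) < 1 / 2 ^ P.mt := by positivity
      refine ⟨k, ?_⟩
      rcases hk with hk | hk
      · left; rw [hk]; linarith
      · right; rw [hk]; linarith

/-- squares of a cube near the cells -/
theorem Pre.gen_squ {q : Idx} (hq : q ∈ P.I) (hn : ¬ P.geo.Far q)
    {s : Idx × Fin 3} (hs : MinSq P.v P.I s) (hsub : squ P.v s ⊆ dyc P.v q.1 q.2) :
    s.1.1 = P.nr := by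
  obtain ⟨b, hb, x1, hx1, y1, hy1, hxy1⟩ := Geo.near_of_not_far hn
  have hqn : q.1 = P.nr := Geo.gen_of_not_far (G := P.geo) hq hn
  obtain ⟨⟨q', hq', hf⟩, -⟩ := hs
  have h1 : sc P.v s ∈ squ P.v s := P86.rel_sub P86.sc_mem
  have h2 := S308.squ_sub_of_face hf h1
  have hp : (0:ℝ) < 1 / 2 ^ P.nr := by positivity
  have hnr : P.geo.nr = P.nr := rfl
  rw [hnr] at hxy1
  have h4 : (4:ℝ) / 2 ^ P.nr = 4 * (1 / 2 ^ P.nr) := by ring
  have e1 : ‖sc P.v s - x1‖ ≤ 1 / 2 ^ P.nr := by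
    have := S293.dist_dyc (hsub h1) hx1
    rwa [hqn] at this
  have e2 := norm_sub_le_norm_sub_add_norm_sub (sc P.v s) x1 y1
  have h5 : q'.1 = P.nr := P.unif b hb q' hq' ⟨_, h2, y1, hy1, by rw [h4]; linarith⟩
  rw [← h5]
  exact hf.1

/-- **The sum over the squares** -/
theorem Pre.sum_enL (hp : 1 ≤ p) (hΩ : IsOpen Ω) (g : V → V) {D K : ℝ} (hK : 0 ≤ K)
    {τ : Idx × (Idx × Fin 3) → ℝ≥0∞}
    (hfar : ∀ i ∈ P.I, P.geo.Far i → ∀ s, MinSq P.v P.I s → squ P.v s ⊆ dyc P.v i.1 i.2 →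
        faceL p g (sc P.v s) s.2 (1 / 2 / 2 ^ s.1.1) ≤
          ENNReal.ofReal (D * (1 / 2 / 2 ^ s.1.1) ^ 2) * 2 ^ (p - 1) *
            ∑' e : {e : Idx × Fin 3 // MinEdge P.v P.I e ∧ edge P.v e ⊆ squ P.v s},
              (ENNReal.ofReal ((1 / 2 ^ e.1.1.1) ^ (1 - p)) * P.ℓ e.1 ^ p) +
          ENNReal.ofReal (1 / 2 / 2 ^ s.1.1 / (1 / 2 / 2 ^ i.1)) * τ (i, s))
    (hnear : ∀ i ∈ P.I, ¬ P.geo.Far i → ∀ s, MinSq P.v P.I s → squ P.v s ⊆ dyc P.v i.1 i.2 →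
        ∀ x ∈ squ P.v s, ∀ y ∈ squ P.v s, ‖g x - g y‖ ≤ K * ‖x - y‖)
    (W : Cells Ω (⋃ q ∈ P.keep, dyc P.v q.1 q.2))
    (hW : W = { cells hΩ P.part P.keep_sub with
      ctrl := univ
      unc := fun q h => absurd (mem_univ q) h }) :
    ∑' i, enL W p g i ≤ ENNReal.ofReal |D| * 2 ^ (p - 1) * ENNReal.ofReal ε + ∑' a, τ a +
      12 * ENNReal.ofReal (K ^ p) * volume P.zoneZ := by
  have hp0 : 0 ≤ p := by linarith
  subst hW
  set W₀ := cells hΩ P.part P.keep_sub with hW₀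
  set H₁ : Idx → ℝ≥0∞ := fun i => ENNReal.ofReal |D| * 2 ^ (p - 1) *
      (∑' s : {s : Idx × Fin 3 // MinSq P.v P.I s ∧ squ P.v s ⊆ dyc P.v i.1 i.2},
        ∑' e : {e : Idx × Fin 3 // MinEdge P.v P.I e ∧ edge P.v e ⊆ squ P.v s.1},
          ENNReal.ofReal (1 / 2 ^ i.1 * (1 / 2 ^ s.1.1.1)) *
            (ENNReal.ofReal ((1 / 2 ^ e.1.1.1) ^ (1 - p)) * P.ℓ e.1 ^ p)) +
      ∑' s : Idx × Fin 3, τ (i, s) with hH₁
  set H₂ : Idx → ℝ≥0∞ := fun i => 12 * ENNReal.ofReal (K ^ p) * volume (dyc P.v i.1 i.2) with hH₂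
  set E : Idx → ℝ≥0∞ := fun i =>
    ∑' s : {s : Idx × Fin 3 // MinSq P.v P.I s ∧ squ P.v s ⊆ dyc P.v i.1 i.2},
      ENNReal.ofReal (1 / 2 / 2 ^ i.1 / (1 / 2 / 2 ^ s.1.1.1)) *
        faceL p g (sc P.v s.1) s.1.2 (1 / 2 / 2 ^ s.1.1.1) with hE
  have hEi : ∀ i : {q : Idx // q ∈ P.I \ P.keep}, ∑ t ∈ W₀.bd i, ENNReal.ofReal
      (1 / 2 / 2 ^ i.1.1 / (1 / 2 / 2 ^ t.1.1.1)) *
        faceL p g (sc P.v t.1) t.1.2 (1 / 2 / 2 ^ t.1.1.1) = E i.1 := by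
    intro i
    exact sum_bd hΩ P.part P.keep_sub i (fun s => ENNReal.ofReal
      (1 / 2 / 2 ^ i.1.1 / (1 / 2 / 2 ^ s.1.1)) * faceL p g (sc P.v s) s.2 (1 / 2 / 2 ^ s.1.1))
  have hstart : ∑' i : {q : Idx // q ∈ P.I \ P.keep}, E i.1 ≤
      ∑' i : {i // i ∈ P.I \ P.keep ∧ P.geo.Far i}, H₁ i +
        ∑' i : {i // i ∈ P.I \ P.keep ∧ ¬ P.geo.Far i}, H₂ i := by
    refine tsum_split_le (fun q => q ∈ P.I \ P.keep) (fun q => P.geo.Far q) ?_ ?_
    · -- far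
      intro i hi hf
      rw [hH₁, hE]
      simp only
      rw [← ENNReal.tsum_mul_left]
      have e0 : ∑' s : {s : Idx × Fin 3 // MinSq P.v P.I s ∧ squ P.v s ⊆ dyc P.v i.1 i.2},
          τ (i, s.1) ≤ ∑' s : Idx × Fin 3, τ (i, s) := tsum_subset_le _ fun s => τ (i, s)
      refine le_trans ?_ (add_le_add le_rfl e0)
      rw [← ENNReal.tsum_add]
      refine ENNReal.tsum_le_tsum fun s => ?_
      have h1 := hfar i hi.1 hf s.1 s.2.1 s.2.2
      set m := s.1.1.1 with hm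
      have hρσ : ENNReal.ofReal (1 / 2 / 2 ^ i.1 / (1 / 2 / 2 ^ m)) *
          ENNReal.ofReal (1 / 2 / 2 ^ m / (1 / 2 / 2 ^ i.1)) = 1 := by
        rw [← ENNReal.ofReal_mul (by positivity), ← ENNReal.ofReal_one]
        congr 1
        field_simp
      have hD : ENNReal.ofReal (1 / 2 / 2 ^ i.1 / (1 / 2 / 2 ^ m)) *
          ENNReal.ofReal (D * (1 / 2 / 2 ^ m) ^ 2) ≤
          ENNReal.ofReal |D| * ENNReal.ofReal (1 / 2 ^ i.1 * (1 / 2 ^ m)) := by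
        rw [← ENNReal.ofReal_mul (by positivity), ← ENNReal.ofReal_mul (abs_nonneg _)]
        apply ENNReal.ofReal_le_ofReal
        have e1 : (1:ℝ) / 2 / 2 ^ i.1 / (1 / 2 / 2 ^ m) * (D * (1 / 2 / 2 ^ m) ^ 2) =
            D * (1 / 4 * (1 / 2 ^ i.1 * (1 / 2 ^ m))) := by
          field_simp
          ring
        rw [e1]
        have e2 : (0:ℝ) < 1 / 2 ^ i.1 * (1 / 2 ^ m) := by positivity
        calc D * (1 / 4 * (1 / 2 ^ i.1 * (1 / 2 ^ m))) ≤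
              |D| * (1 / 4 * (1 / 2 ^ i.1 * (1 / 2 ^ m))) := by gcongr; exact le_abs_self _
          _ ≤ |D| * (1 / 2 ^ i.1 * (1 / 2 ^ m)) :=
              mul_le_mul_of_nonneg_left (by linarith) (abs_nonneg _)
      have hsum : ∑' e : {e : Idx × Fin 3 // MinEdge P.v P.I e ∧ edge P.v e ⊆ squ P.v s.1},
          ENNReal.ofReal (1 / 2 ^ i.1 * (1 / 2 ^ m)) *
            (ENNReal.ofReal ((1 / 2 ^ e.1.1.1) ^ (1 - p)) * P.ℓ e.1 ^ p) =
          ENNReal.ofReal (1 / 2 ^ i.1 * (1 / 2 ^ m)) *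
          ∑' e : {e : Idx × Fin 3 // MinEdge P.v P.I e ∧ edge P.v e ⊆ squ P.v s.1},
            (ENNReal.ofReal ((1 / 2 ^ e.1.1.1) ^ (1 - p)) * P.ℓ e.1 ^ p) := ENNReal.tsum_mul_left
      rw [hsum]
      set Se := ∑' e : {e : Idx × Fin 3 // MinEdge P.v P.I e ∧ edge P.v e ⊆ squ P.v s.1},
            (ENNReal.ofReal ((1 / 2 ^ e.1.1.1) ^ (1 - p)) * P.ℓ e.1 ^ p) with hSe
      calc ENNReal.ofReal (1 / 2 / 2 ^ i.1 / (1 / 2 / 2 ^ m)) *
            faceL p g (sc P.v s.1) s.1.2 (1 / 2 / 2 ^ m)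
          ≤ ENNReal.ofReal (1 / 2 / 2 ^ i.1 / (1 / 2 / 2 ^ m)) *
            (ENNReal.ofReal (D * (1 / 2 / 2 ^ m) ^ 2) * 2 ^ (p - 1) * Se +
              ENNReal.ofReal (1 / 2 / 2 ^ m / (1 / 2 / 2 ^ i.1)) * τ (i, s.1)) := by
            exact mul_le_mul_right h1 _
        _ = (ENNReal.ofReal (1 / 2 / 2 ^ i.1 / (1 / 2 / 2 ^ m)) *
            ENNReal.ofReal (D * (1 / 2 / 2 ^ m) ^ 2)) * 2 ^ (p - 1) * Se +
            (ENNReal.ofReal (1 / 2 / 2 ^ i.1 / (1 / 2 / 2 ^ m)) *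
              ENNReal.ofReal (1 / 2 / 2 ^ m / (1 / 2 / 2 ^ i.1))) * τ (i, s.1) := by ring
        _ ≤ (ENNReal.ofReal |D| * ENNReal.ofReal (1 / 2 ^ i.1 * (1 / 2 ^ m))) * 2 ^ (p - 1) * Se +
            τ (i, s.1) := by
            rw [hρσ, one_mul]
            gcongr
        _ = _ := by ring
    · -- near
      intro i hi hn
      rw [hH₂, hE]
      simp only
      have hin : i.1 = P.nr := Geo.gen_of_not_far (G := P.geo) hi.1 hn
      have h1 := sum_bd hΩ P.part P.keep_sub ⟨i, hi⟩ (fun s => ENNReal.ofReal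
        (1 / 2 / 2 ^ i.1 / (1 / 2 / 2 ^ s.1.1)) * faceL p g (sc P.v s) s.2 (1 / 2 / 2 ^ s.1.1))
      rw [← h1]
      have hbd : ∀ t ∈ (cells hΩ P.part P.keep_sub).bd ⟨i, hi⟩,
          ENNReal.ofReal (1 / 2 / 2 ^ i.1 / (1 / 2 / 2 ^ t.1.1.1)) *
            faceL p g (sc P.v t.1) t.1.2 (1 / 2 / 2 ^ t.1.1.1) ≤
          2 * ENNReal.ofReal (K ^ p) * volume (dyc P.v i.1 i.2) := by
        intro t ht
        have hsub := (mem_bd hΩ P.part P.keep_sub ⟨i, hi⟩ t).1 ht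
        have hgen : t.1.1.1 = P.nr := P.gen_squ hi.1 hn t.2.1 hsub
        have h2 := faceL_le_of_lip (p := p) hp0 (g := g) (a := sc P.v t.1) (k := t.1.2)
          (σ := 1 / 2 / 2 ^ t.1.1.1) (K := K) (by positivity) hK (fun x y hx1 hx2 hy1 hy2 =>
            hnear i hi.1 hn t.1 t.2.1 hsub x ((P86.mem_squ_iff _ _ _).1 ⟨hx1, hx2⟩) y
              ((P86.mem_squ_iff _ _ _).1 ⟨hy1, hy2⟩))
        have h3 : (1:ℝ) / 2 / 2 ^ i.1 / (1 / 2 / 2 ^ t.1.1.1) = 1 := by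
          rw [hin, hgen]; field_simp
        rw [h3, ENNReal.ofReal_one, one_mul]
        refine h2.trans (le_of_eq ?_)
        rw [volume_cube_eq, S308.volume_dyc, hgen, hin]
      have hcard : ((cells hΩ P.part P.keep_sub).bd ⟨i, hi⟩).card ≤ 6 := by
        classical
        have hB : ∀ B : Finset (P86.Kap P.v P.I P.keep), B.card = (B.image Subtype.val).card :=
          fun B => (Finset.card_image_of_injective _ Subtype.val_injective).symm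
        refine le_trans (le_of_eq (hB _)) ?_
        refine card_faces i _ fun s hs => ?_
        obtain ⟨t, ht, rfl⟩ := Finset.mem_image.1 hs
        have hsub := (mem_bd hΩ P.part P.keep_sub ⟨i, hi⟩ t).1 ht
        exact S308.face_of_sub ((P.gen_squ hi.1 hn t.2.1 hsub).trans hin.symm) hsub
      refine (Finset.sum_le_sum hbd).trans ?_
      rw [Finset.sum_const, nsmul_eq_mul]
      calc (((cells hΩ P.part P.keep_sub).bd ⟨i, hi⟩).card : ℝ≥0∞) *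
            (2 * ENNReal.ofReal (K ^ p) * volume (dyc P.v i.1 i.2))
          ≤ 6 * (2 * ENNReal.ofReal (K ^ p) * volume (dyc P.v i.1 i.2)) := by
            gcongr
            exact_mod_cast hcard
        _ = 12 * ENNReal.ofReal (K ^ p) * volume (dyc P.v i.1 i.2) := by ring
  have hEsum : ∑' i : {q : Idx // q ∈ P.I \ P.keep}, E i.1 = ∑' i : {q : Idx // q ∈ P.I \ P.keep},
      ∑ t ∈ W₀.bd i, ENNReal.ofReal (1 / 2 / 2 ^ i.1.1 / (1 / 2 / 2 ^ t.1.1.1)) *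
        faceL p g (sc P.v t.1) t.1.2 (1 / 2 / 2 ^ t.1.1.1) := tsum_congr fun i => (hEi i).symm
  rw [hEsum] at hstart
  refine le_trans (le_of_eq rfl) (hstart.trans ?_)
  have hF : ∑' i : {i // i ∈ P.I \ P.keep ∧ P.geo.Far i}, H₁ i ≤
      ENNReal.ofReal |D| * 2 ^ (p - 1) * ENNReal.ofReal ε + ∑' a, τ a := by
    have h1 : ∑' i : {i // i ∈ P.I \ P.keep ∧ P.geo.Far i}, H₁ i ≤
        ∑' i : {i // i ∈ P.I ∧ P.geo.Far i}, H₁ i :=
      tsum_subset_le' (fun i hi => ⟨hi.1.1, hi.2⟩) H₁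
    refine h1.trans ?_
    rw [hH₁]
    simp only
    rw [ENNReal.tsum_add, ENNReal.tsum_mul_left]
    refine add_le_add ?_ ?_
    · exact mul_le_mul_right P.sum _
    · refine (tsum_subset_le (fun i => i ∈ P.I ∧ P.geo.Far i)
        (fun i => ∑' s : Idx × Fin 3, τ (i, s))).trans ?_
      rw [← ENNReal.tsum_prod (f := fun i s => τ (i, s))]
  have hN : ∑' i : {i // i ∈ P.I \ P.keep ∧ ¬ P.geo.Far i}, H₂ i ≤
      12 * ENNReal.ofReal (K ^ p) * volume P.zoneZ := by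
    rw [hH₂]
    simp only
    rw [ENNReal.tsum_mul_left]
    refine mul_le_mul_right ?_ _
    exact tsum_volume_le P.part (S := {i | i ∈ P.I \ P.keep ∧ ¬ P.geo.Far i})
      (fun i hi => hi.1.1) (fun i hi => P.sub_zoneZ hi.1.1 hi.1.2 hi.2)
  exact add_le_add hF hN

end

end Vale.Agent.P073.H73
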