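import Vale.Agent.P073.H73.FlatC
import Vale.Agent.P073.H73.PostC1

/-!
# P073, block A16, [BOX-SUM]: the cubes of a partition as cells, and the energies of the cells
-/

namespace Vale.Agent.P073.H73

open MeasureTheory Set Filter Topology Metric Vale.Agent.P073.St Vale.Agent.P073.AB
open Vale.Agent.P073.AB.P86
open Vale.Agent.P073.SQ (ev cube Cells)
open Vale.Agent.P073.LOC (BdClose)
open Vale.Agent.P073.H687 (finite_minEdge)
open Vale.Agent.P073.H235 (BoxData BoxOut SpecBoxSum meetY eSum enS Dec Bx)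
open _root_.P073 (ConHomeo)
open _root_.P073.Net (dyc dyo IsTile SizeFn)
open scoped ENNReal

variable {Ω Λ : Set V} {v : V} {I : Set Idx}

/-- energy of the faces of the cube `i` -/
noncomputable def cellE (p : ℝ) (v : V) (I : Set Idx) (g : V → V) (i : Idx) : ℝ≥0∞ :=
  ∑' s : {s : Idx × Fin 3 // MinSq v I s ∧ squ v s ⊆ dyc v i.1 i.2},
    ENNReal.ofReal (1 / 2 / 2 ^ i.1 / (1 / 2 / 2 ^ s.1.1.1)) *
      faceL p g (sc v s.1) s.1.2 (1 / 2 / 2 ^ s.1.1.1)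

/-- the cubes of a partition, as cells -/
theorem exists_cells (hΩ : IsOpen Ω) (hI : Part Ω v I) {R : Set V}
    (hR : (⋃ q ∈ (∅ : Set Idx), dyc v q.1 q.2) = R) :
    ∃ W : Cells Ω R, (∀ q, q ∈ W.ctrl) ∧
      (∃ φ : W.ι → Idx, Function.Injective φ ∧
        ∀ i, φ i ∈ I ∧ W.ρ i = 1 / 2 / 2 ^ (φ i).1 ∧ W.c i = cen v (φ i).1 (φ i).2) ∧
      ∀ (p : ℝ) (g : V → V) (S : Set V),
        ∑' i : {i : W.ι // (cube (W.c i) (W.ρ i) ∩ S).Nonempty}, enL W p g i ≤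
          ∑' i : {i : Idx // i ∈ I ∧ (dyc v i.1 i.2 ∩ S).Nonempty}, cellE p v I g i.1 := by
  subst hR
  refine ⟨{ cells hΩ hI (empty_subset I) with
      ctrl := univ
      unc := fun q h => absurd (mem_univ q) h }, fun q => mem_univ q,
    ⟨fun i => i.1, Subtype.val_injective, fun i => ⟨i.2.1, rfl, rfl⟩⟩, fun p g S => ?_⟩
  have h1 : ∀ i : {q : Idx // q ∈ I \ ∅}, ∑ t ∈ (cells hΩ hI (empty_subset I)).bd i,
      ENNReal.ofReal (1 / 2 / 2 ^ i.1.1 / (1 / 2 / 2 ^ t.1.1.1)) *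
        faceL p g (sc v t.1) t.1.2 (1 / 2 / 2 ^ t.1.1.1) = cellE p v I g i.1 := fun i =>
    sum_bd hΩ hI (empty_subset I) i (fun s => ENNReal.ofReal
      (1 / 2 / 2 ^ i.1.1 / (1 / 2 / 2 ^ s.1.1)) * faceL p g (sc v s) s.2 (1 / 2 / 2 ^ s.1.1))
  have h2 : ∀ i : {q : Idx // q ∈ I \ ∅},
      cube (cen v i.1.1 i.1.2) (1 / 2 / 2 ^ i.1.1) = dyc v i.1.1 i.1.2 := fun i =>
    cube_eq v i.1.1 i.1.2
  calc ∑' i : {i : {q : Idx // q ∈ I \ ∅} //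
        (cube (cen v i.1.1 i.1.2) (1 / 2 / 2 ^ i.1.1) ∩ S).Nonempty},
        ∑ t ∈ (cells hΩ hI (empty_subset I)).bd i.1,
          ENNReal.ofReal (1 / 2 / 2 ^ i.1.1.1 / (1 / 2 / 2 ^ t.1.1.1)) *
            faceL p g (sc v t.1) t.1.2 (1 / 2 / 2 ^ t.1.1.1)
      = ∑' i : {i : {q : Idx // q ∈ I \ ∅} //
        (cube (cen v i.1.1 i.1.2) (1 / 2 / 2 ^ i.1.1) ∩ S).Nonempty}, cellE p v I g i.1.1 :=
        tsum_congr fun i => h1 i.1
    _ ≤ ∑' i : {i : Idx // i ∈ I ∧ (dyc v i.1 i.2 ∩ S).Nonempty}, cellE p v I g i.1 :=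
        ENNReal.tsum_comp_le_tsum_of_injective
          (f := fun i : {i : {q : Idx // q ∈ I \ ∅} //
            (cube (cen v i.1.1 i.1.2) (1 / 2 / 2 ^ i.1.1) ∩ S).Nonempty} =>
              (⟨i.1.1, i.1.2.1, by rw [← h2 i.1]; exact i.2⟩ :
                {i : Idx // i ∈ I ∧ (dyc v i.1 i.2 ∩ S).Nonempty}))
          (fun i j hij => Subtype.ext (Subtype.ext (congrArg (fun a => a.1) hij)))
          (fun i : {i : Idx // i ∈ I ∧ (dyc v i.1 i.2 ∩ S).Nonempty} => cellE p v I g i.1)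

/-- the summand of `eSum` -/
noncomputable def cellS (p : ℝ) (v : V) (I : Set Idx) (ℓ : Idx × Fin 3 → ℝ≥0∞) (i : Idx) : ℝ≥0∞ :=
  ∑' s : {s : Idx × Fin 3 // MinSq v I s ∧ squ v s ⊆ dyc v i.1 i.2},
    ∑' e : {e : Idx × Fin 3 // MinEdge v I e ∧ edge v e ⊆ squ v s.1},
      ENNReal.ofReal (1 / 2 ^ i.1 * (1 / 2 ^ s.1.1.1)) *
        (ENNReal.ofReal ((1 / 2 ^ e.1.1.1) ^ (1 - p)) * ℓ e.1 ^ p)

theorem eSum_eq (p : ℝ) (v : V) (I : Set Idx) (ℓ : Idx × Fin 3 → ℝ≥0∞) (S : Set V) :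
    eSum p v I ℓ S =
      ∑' i : {i : Idx // i ∈ I ∧ (dyc v i.1 i.2 ∩ S).Nonempty}, cellS p v I ℓ i.1 := rfl

/-- one cell -/
theorem cellE_le {p : ℝ} (hp : 1 ≤ p) {g : V → V} {ℓ : Idx × Fin 3 → ℝ≥0∞} {i : Idx}
    {D D' : ℝ} (hD : 1 ≤ D') (hDD : D ≤ D') {β β' : Idx × Fin 3 → ℝ}
    {τ : Idx × (Idx × Fin 3) → ℝ≥0∞}
    (hβ : ∀ s, β' s ≤ β s / D') (hβ0 : ∀ s, 0 < β s) (hβ1 : ∀ s, β s ≤ 1)
    (hβτ : ∀ s, MinSq v I s → squ v s ⊆ dyc v i.1 i.2 →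
      2 ^ (p - 1) * (ENNReal.ofReal (1 / 2 ^ i.1 * (1 / 2 ^ s.1.1)) *
        ∑' e : {e : Idx × Fin 3 // MinEdge v I e ∧ edge v e ⊆ squ v s},
          ENNReal.ofReal ((1 / 2 ^ e.1.1.1) ^ (1 - p))) * ENNReal.ofReal (β s) ≤ τ (i, s))
    (hE : ∀ s, MinSq v I s → squ v s ⊆ dyc v i.1 i.2 →
      ∃ D₂ ≤ D, 0 ≤ D₂ ∧ faceL p g (sc v s) s.2 (1 / 2 / 2 ^ s.1.1) ≤
        ENNReal.ofReal (D₂ * (1 / 2 ^ s.1.1) ^ 2) *
          ∑' e : {e : Idx × Fin 3 // MinEdge v I e ∧ edge v e ⊆ squ v s},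
            ENNReal.ofReal ((1 / 2 ^ e.1.1.1) ^ (1 - p)) *
              (ℓ e.1 + ENNReal.ofReal (β' s)) ^ p) :
    cellE p v I g i ≤ ENNReal.ofReal (2 ^ (p - 1) * D) * cellS p v I ℓ i +
      ∑' s : Idx × Fin 3, τ (i, s) := by
  have hp0 : 0 ≤ p := by linarith
  have h2E : (2 : ℝ≥0∞) ^ (p - 1) = ENNReal.ofReal (2 ^ (p - 1)) := by
    rw [← ENNReal.ofReal_rpow_of_pos (by norm_num)]
    simp
  unfold cellE cellS
  rw [← ENNReal.tsum_mul_left]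
  have e0 : ∑' s : {s : Idx × Fin 3 // MinSq v I s ∧ squ v s ⊆ dyc v i.1 i.2},
      τ (i, s.1) ≤ ∑' s : Idx × Fin 3, τ (i, s) := tsum_subset_le _ fun s => τ (i, s)
  refine le_trans ?_ (add_le_add le_rfl e0)
  rw [← ENNReal.tsum_add]
  refine ENNReal.tsum_le_tsum fun s => ?_
  obtain ⟨D₂, hD₂, hD₂0, hf⟩ := hE s.1 s.2.1 s.2.2
  have hD0 : 0 ≤ D := hD₂0.trans hD₂
  have hD'0 : 0 < D' := by linarith
  set m := s.1.1.1 with hm
  -- the error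
  have hb : ∀ e : Idx × Fin 3, ENNReal.ofReal D₂ * (ENNReal.ofReal ((1 / 2 ^ e.1.1) ^ (1 - p)) *
      (ℓ e + ENNReal.ofReal (β' s.1)) ^ p) ≤
      ENNReal.ofReal (2 ^ (p - 1) * D) * (ENNReal.ofReal ((1 / 2 ^ e.1.1) ^ (1 - p)) * ℓ e ^ p) +
        2 ^ (p - 1) * ENNReal.ofReal ((1 / 2 ^ e.1.1) ^ (1 - p)) * ENNReal.ofReal (β s.1) := by
    intro e
    have e1 : ENNReal.ofReal D₂ * ENNReal.ofReal (β' s.1) ^ p ≤ ENNReal.ofReal (β s.1) := by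
      have e2 : ENNReal.ofReal (β' s.1) ≤ ENNReal.ofReal (β s.1 / D') :=
        ENNReal.ofReal_le_ofReal (hβ _)
      calc ENNReal.ofReal D₂ * ENNReal.ofReal (β' s.1) ^ p
          ≤ ENNReal.ofReal D' * ENNReal.ofReal (β s.1 / D') ^ p := by
            gcongr
            exact hD₂.trans hDD
        _ ≤ ENNReal.ofReal D' * ENNReal.ofReal (β s.1 / D') ^ (1:ℝ) := by
            refine mul_le_mul' le_rfl (ENNReal.rpow_le_rpow_of_exponent_ge ?_ hp)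
            rw [← ENNReal.ofReal_one]
            apply ENNReal.ofReal_le_ofReal
            rw [div_le_one hD'0]
            exact (hβ1 _).trans hD
        _ = ENNReal.ofReal (β s.1) := by
            rw [ENNReal.rpow_one, ← ENNReal.ofReal_mul hD'0.le, mul_div_cancel₀ _ hD'0.ne']
    calc ENNReal.ofReal D₂ * (ENNReal.ofReal ((1 / 2 ^ e.1.1) ^ (1 - p)) *
          (ℓ e + ENNReal.ofReal (β' s.1)) ^ p)
        ≤ ENNReal.ofReal D₂ * (ENNReal.ofReal ((1 / 2 ^ e.1.1) ^ (1 - p)) *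
          (2 ^ (p - 1) * (ℓ e ^ p + ENNReal.ofReal (β' s.1) ^ p))) := by
          gcongr
          exact ENNReal.rpow_add_le_mul_rpow_add_rpow _ _ hp
      _ = 2 ^ (p - 1) * ENNReal.ofReal D₂ * (ENNReal.ofReal ((1 / 2 ^ e.1.1) ^ (1 - p)) * ℓ e ^ p) +
          2 ^ (p - 1) * ENNReal.ofReal ((1 / 2 ^ e.1.1) ^ (1 - p)) *
            (ENNReal.ofReal D₂ * ENNReal.ofReal (β' s.1) ^ p) := by ring
      _ ≤ 2 ^ (p - 1) * ENNReal.ofReal D * (ENNReal.ofReal ((1 / 2 ^ e.1.1) ^ (1 - p)) * ℓ e ^ p) +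
          2 ^ (p - 1) * ENNReal.ofReal ((1 / 2 ^ e.1.1) ^ (1 - p)) * ENNReal.ofReal (β s.1) := by
          gcongr
      _ = _ := by
          rw [h2E, ← ENNReal.ofReal_mul (by positivity)]
  have hR : ENNReal.ofReal (1 / 2 / 2 ^ i.1 / (1 / 2 / 2 ^ m)) *
      ENNReal.ofReal (D₂ * (1 / 2 ^ m) ^ 2) =
      ENNReal.ofReal (1 / 2 ^ i.1 * (1 / 2 ^ m)) * ENNReal.ofReal D₂ := by
    rw [← ENNReal.ofReal_mul (by positivity), ← ENNReal.ofReal_mul (by positivity)]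
    congr 1
    field_simp
  calc ENNReal.ofReal (1 / 2 / 2 ^ i.1 / (1 / 2 / 2 ^ m)) *
        faceL p g (sc v s.1) s.1.2 (1 / 2 / 2 ^ m)
      ≤ ENNReal.ofReal (1 / 2 / 2 ^ i.1 / (1 / 2 / 2 ^ m)) *
        (ENNReal.ofReal (D₂ * (1 / 2 ^ m) ^ 2) *
          ∑' e : {e : Idx × Fin 3 // MinEdge v I e ∧ edge v e ⊆ squ v s.1},
            ENNReal.ofReal ((1 / 2 ^ e.1.1.1) ^ (1 - p)) *
              (ℓ e.1 + ENNReal.ofReal (β' s.1)) ^ p) := mul_le_mul' le_rfl hf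
    _ = ENNReal.ofReal (1 / 2 ^ i.1 * (1 / 2 ^ m)) *
          ∑' e : {e : Idx × Fin 3 // MinEdge v I e ∧ edge v e ⊆ squ v s.1},
            ENNReal.ofReal D₂ * (ENNReal.ofReal ((1 / 2 ^ e.1.1.1) ^ (1 - p)) *
              (ℓ e.1 + ENNReal.ofReal (β' s.1)) ^ p) := by
        rw [← mul_assoc, hR, ENNReal.tsum_mul_left, mul_assoc]
    _ ≤ ENNReal.ofReal (1 / 2 ^ i.1 * (1 / 2 ^ m)) *
          ∑' e : {e : Idx × Fin 3 // MinEdge v I e ∧ edge v e ⊆ squ v s.1},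
            (ENNReal.ofReal (2 ^ (p - 1) * D) *
              (ENNReal.ofReal ((1 / 2 ^ e.1.1.1) ^ (1 - p)) * ℓ e.1 ^ p) +
            2 ^ (p - 1) * ENNReal.ofReal ((1 / 2 ^ e.1.1.1) ^ (1 - p)) *
              ENNReal.ofReal (β s.1)) :=
        mul_le_mul' le_rfl (ENNReal.tsum_le_tsum fun e => hb e.1)
    _ = ENNReal.ofReal (2 ^ (p - 1) * D) *
          (∑' e : {e : Idx × Fin 3 // MinEdge v I e ∧ edge v e ⊆ squ v s.1},
            ENNReal.ofReal (1 / 2 ^ i.1 * (1 / 2 ^ m)) *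
              (ENNReal.ofReal ((1 / 2 ^ e.1.1.1) ^ (1 - p)) * ℓ e.1 ^ p)) +
        2 ^ (p - 1) * (ENNReal.ofReal (1 / 2 ^ i.1 * (1 / 2 ^ m)) *
          ∑' e : {e : Idx × Fin 3 // MinEdge v I e ∧ edge v e ⊆ squ v s.1},
            ENNReal.ofReal ((1 / 2 ^ e.1.1.1) ^ (1 - p))) * ENNReal.ofReal (β s.1) := by
        rw [ENNReal.tsum_add, ENNReal.tsum_mul_left, ENNReal.tsum_mul_right,
          ENNReal.tsum_mul_left, ENNReal.tsum_mul_left]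
        ring
    _ ≤ _ := add_le_add le_rfl (hβτ s.1 s.2.1 s.2.2)

/-- **[BOX-SUM]** -/
theorem specBoxSum : SpecBoxSum := by
  intro p hp
  refine ⟨2 ^ (p - 1), by positivity, ?_⟩
  intro a Λ fc δ ha hΛ P
  have hopen : IsOpen (Bx a) := by
    have : Bx a = ⋂ i, {x : V | 0 < x i} ∩ {x : V | x i < a i} := by
      ext x; simp [Bx, Set.mem_iInter]
    rw [this]
    exact isOpen_iInter_of_finite fun i => (isOpen_lt continuous_const (continuous_apply i)).inter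
      (isOpen_lt (continuous_apply i) continuous_const)
  have hbdd : Bornology.IsBounded (Bx a) := by
    refine (isBounded_iff_forall_norm_le (s := Bx a)).2 ⟨‖a‖, fun x hx => ?_⟩
    rw [pi_norm_le_iff_of_nonneg (norm_nonneg _)]
    intro i
    rw [Real.norm_of_nonneg (hx i).1.le]
    exact (hx i).2.le.trans ((le_abs_self _).trans (norm_le_pi_norm a i))
  obtain ⟨W, hctrl, ⟨φ, hφ, hφI⟩, hsum⟩ := exists_cells hopen P.part (R := ∅) (by simp)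
  refine ⟨W, fun k x₀ hk => ⟨hctrl, fun δ' hδ' => ?_, fun i x hx hxi => ?_⟩, fun t ht => ?_⟩
  · -- small cells
    have h1 := finite_large hbdd P.part (δ := 2 * δ') (by positivity)
    refine Set.Finite.of_finite_image (f := φ) (h1.subset ?_) hφ.injOn
    rintro _ ⟨i, hi, rfl⟩
    refine ⟨(hφI i).1, ?_⟩
    have h2 := (hφI i).2.1
    have hi' : δ' ≤ W.ρ i := hi
    rw [h2] at hi'
    calc 2 * δ' ≤ 2 * (1 / 2 / 2 ^ (φ i).1) := by gcongr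
      _ = 1 / 2 ^ (φ i).1 := by ring
  · -- the plane
    obtain ⟨h1, h2, h3⟩ := hφI i
    rw [h2, h3] at hxi
    exact hk (φ i) h1 x hx ((mem_dyo_iff _ _ _ _).1 hxi)
  · -- the errors
    obtain ⟨τ, hτ0, hτ⟩ := ENNReal.exists_pos_sum_of_countable'
      (ε := ENNReal.ofReal t) (by simpa using ht) (Idx × (Idx × Fin 3))
    set cs : Idx → Idx × Fin 3 → ℝ≥0∞ := fun i s =>
      2 ^ (p - 1) * (ENNReal.ofReal (1 / 2 ^ i.1 * (1 / 2 ^ s.1.1)) *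
        ∑' e : {e : Idx × Fin 3 // MinEdge P.v P.I e ∧ edge P.v e ⊆ squ P.v s},
          ENNReal.ofReal ((1 / 2 ^ e.1.1.1) ^ (1 - p))) with hcs
    have hcst : ∀ i s, MinSq P.v P.I s → cs i s ≠ ⊤ := by
      intro i s hs
      have h1 := tsum_of_mem_iff (finite_minEdge P.part hs).toFinset
        (fun e => MinEdge P.v P.I e ∧ edge P.v e ⊆ squ P.v s)
        (fun e => by rw [Set.Finite.mem_toFinset]; rfl)
        (fun e => ENNReal.ofReal ((1 / 2 ^ e.1.1) ^ (1 - p)))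
      rw [hcs]
      simp only
      rw [h1]
      refine ENNReal.mul_ne_top H880.two_rpow_ne_top (ENNReal.mul_ne_top ENNReal.ofReal_ne_top ?_)
      exact (ENNReal.sum_lt_top.2 fun e _ => ENNReal.ofReal_lt_top).ne
    have hex : ∀ s : Idx × Fin 3, ∃ b : ℝ, 0 < b ∧ b ≤ 1 ∧ (MinSq P.v P.I s →
        ∀ i ∈ P.I, squ P.v s ⊆ dyc P.v i.1 i.2 → cs i s * ENNReal.ofReal b ≤ τ (i, s)) := by
      intro s
      by_cases hs : MinSq P.v P.I s
      · have hSf : {i | i ∈ P.I ∧ squ P.v s ⊆ dyc P.v i.1 i.2}.Finite := by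
          refine (P.part.fin (squ P.v s) (H687.squ_sub_Ω P.part hs)
            (H687.isCompact_squ P.v s)).subset ?_
          rintro i ⟨hi, hsub⟩
          have h2 : sc P.v s ∈ squ P.v s := P86.rel_sub P86.sc_mem
          exact ⟨hi, _, hsub h2, h2⟩
        obtain ⟨b, hb, hb1, h⟩ := exists_small_finite hSf (c := fun i => cs i s)
          (τ := fun i => τ (i, s)) (fun i _ => hcst i s hs) (fun i _ => (hτ0 _).ne')
        exact ⟨b, hb, hb1, fun _ i hi hsub => h i ⟨hi, hsub⟩⟩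
      · exact ⟨1, one_pos, le_rfl, fun h => absurd h hs⟩
    choose β hβ0 hβ1 hβτ using hex
    refine ⟨β, hβ0, fun D μ D' r c Y g β' hD hDD hβ hO S => ?_⟩
    have hD' : 1 ≤ D' := hD.trans hDD
    set T : Set V := ⋃ s ∈ Y, squ P.v s with hT
    have hstart : enS W p g.toFun S ≤
        ∑' i : {i : Idx // i ∈ P.I ∧ (dyc P.v i.1 i.2 ∩ S).Nonempty}, cellE p P.v P.I g.toFun i.1 :=
      hsum p g.toFun S
    -- cells which do not meet the sharp squares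
    have hfar : ∀ i, (i ∈ P.I ∧ (dyc P.v i.1 i.2 ∩ S).Nonempty) →
        ¬ (dyc P.v i.1 i.2 ∩ T).Nonempty → cellE p P.v P.I g.toFun i ≤
          ENNReal.ofReal (2 ^ (p - 1) * D) * cellS p P.v P.I P.ℓ i +
            ∑' s : Idx × Fin 3, τ (i, s) := by
      rintro i ⟨hi, -⟩ hiT
      refine cellE_le hp hD' hDD hβ hβ0 hβ1 (fun s hs hsub => hβτ s hs i hi hsub)
        fun s hs hsub => ⟨D, le_rfl, by linarith, ?_⟩
      have h1 := hO.energy s hs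
      have h2 : ¬ meetY P.v Y (squ P.v s) := by
        rintro ⟨s', hs', x, hx, hx'⟩
        exact hiT ⟨x, hsub hx, mem_iUnion₂.2 ⟨s', hs', hx'⟩⟩
      rwa [if_neg h2] at h1
    have hnear : ∀ i, (i ∈ P.I ∧ (dyc P.v i.1 i.2 ∩ S).Nonempty) →
        (dyc P.v i.1 i.2 ∩ T).Nonempty → cellE p P.v P.I g.toFun i ≤
          ENNReal.ofReal (2 ^ (p - 1) * D') * cellS p P.v P.I P.ℓ i +
            ∑' s : Idx × Fin 3, τ (i, s) := by
      rintro i ⟨hi, -⟩ hiT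
      refine cellE_le hp hD' le_rfl hβ hβ0 hβ1 (fun s hs hsub => hβτ s hs i hi hsub)
        fun s hs hsub => ?_
      have h1 := hO.energy s hs
      by_cases h2 : meetY P.v Y (squ P.v s)
      · rw [if_pos h2] at h1
        exact ⟨D', le_rfl, by linarith, h1⟩
      · rw [if_neg h2] at h1
        exact ⟨D, hDD, by linarith, h1⟩
    have hsplit := tsum_split_le (fun i => i ∈ P.I ∧ (dyc P.v i.1 i.2 ∩ S).Nonempty)
      (fun i => ¬ (dyc P.v i.1 i.2 ∩ T).Nonempty) (E := cellE p P.v P.I g.toFun)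
      (H₁ := fun i => ENNReal.ofReal (2 ^ (p - 1) * D) * cellS p P.v P.I P.ℓ i +
            ∑' s : Idx × Fin 3, τ (i, s))
      (H₂ := fun i => ENNReal.ofReal (2 ^ (p - 1) * D') * cellS p P.v P.I P.ℓ i +
            ∑' s : Idx × Fin 3, τ (i, s)) hfar (fun i hi hi' => hnear i hi (not_not.1 hi'))
    refine hstart.trans (hsplit.trans ?_)
    rw [ENNReal.tsum_add, ENNReal.tsum_add, ENNReal.tsum_mul_left, ENNReal.tsum_mul_left]
    have e1 : ∑' i : {i // (i ∈ P.I ∧ (dyc P.v i.1 i.2 ∩ S).Nonempty) ∧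
        ¬ (dyc P.v i.1 i.2 ∩ T).Nonempty}, cellS p P.v P.I P.ℓ i.1 ≤ eSum p P.v P.I P.ℓ S :=
      tsum_subset_le' (fun i hi => hi.1) (cellS p P.v P.I P.ℓ)
    have e2 : ∑' i : {i // (i ∈ P.I ∧ (dyc P.v i.1 i.2 ∩ S).Nonempty) ∧
        ¬ ¬ (dyc P.v i.1 i.2 ∩ T).Nonempty}, cellS p P.v P.I P.ℓ i.1 ≤
        eSum p P.v P.I P.ℓ T :=
      tsum_subset_le' (fun i hi => ⟨hi.1.1, not_not.1 hi.2⟩) (cellS p P.v P.I P.ℓ)
    -- the errors
    have e3 : ∑' i : {i // (i ∈ P.I ∧ (dyc P.v i.1 i.2 ∩ S).Nonempty) ∧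
          ¬ (dyc P.v i.1 i.2 ∩ T).Nonempty}, ∑' s : Idx × Fin 3, τ (i.1, s) +
        ∑' i : {i // (i ∈ P.I ∧ (dyc P.v i.1 i.2 ∩ S).Nonempty) ∧
          ¬ ¬ (dyc P.v i.1 i.2 ∩ T).Nonempty}, ∑' s : Idx × Fin 3, τ (i.1, s) ≤
        ENNReal.ofReal t := by
      refine le_trans ?_ hτ.le
      rw [ENNReal.tsum_prod (f := fun i s => τ (i, s))]
      set A : Set Idx := {i | (i ∈ P.I ∧ (dyc P.v i.1 i.2 ∩ S).Nonempty) ∧
        ¬ (dyc P.v i.1 i.2 ∩ T).Nonempty} with hA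
      have h1 := Summable.tsum_add_tsum_compl (s := A) (f := fun i => ∑' s : Idx × Fin 3, τ (i, s))
        ENNReal.summable ENNReal.summable
      rw [← h1]
      refine add_le_add le_rfl ?_
      exact tsum_subset_le' (Q' := fun i => i ∈ Aᶜ) (fun i hi hi' => hi.2 hi'.2)
        (fun i => ∑' s : Idx × Fin 3, τ (i, s))
    calc _ ≤ (ENNReal.ofReal (2 ^ (p - 1) * D) * eSum p P.v P.I P.ℓ S +
          ∑' i : {i // (i ∈ P.I ∧ (dyc P.v i.1 i.2 ∩ S).Nonempty) ∧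
            ¬ (dyc P.v i.1 i.2 ∩ T).Nonempty}, ∑' s : Idx × Fin 3, τ (i.1, s)) +
          (ENNReal.ofReal (2 ^ (p - 1) * D') * eSum p P.v P.I P.ℓ T +
          ∑' i : {i // (i ∈ P.I ∧ (dyc P.v i.1 i.2 ∩ S).Nonempty) ∧
            ¬ ¬ (dyc P.v i.1 i.2 ∩ T).Nonempty}, ∑' s : Idx × Fin 3, τ (i.1, s)) := by gcongr
      _ = ENNReal.ofReal (2 ^ (p - 1) * D) * eSum p P.v P.I P.ℓ S +
          ENNReal.ofReal (2 ^ (p - 1) * D') * eSum p P.v P.I P.ℓ T +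
          (∑' i : {i // (i ∈ P.I ∧ (dyc P.v i.1 i.2 ∩ S).Nonempty) ∧
            ¬ (dyc P.v i.1 i.2 ∩ T).Nonempty}, ∑' s : Idx × Fin 3, τ (i.1, s) +
          ∑' i : {i // (i ∈ P.I ∧ (dyc P.v i.1 i.2 ∩ S).Nonempty) ∧
            ¬ ¬ (dyc P.v i.1 i.2 ∩ T).Nonempty}, ∑' s : Idx × Fin 3, τ (i.1, s)) := by ring
      _ ≤ _ := by gcongr

end Vale.Agent.P073.H73
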