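import Vale.Agent.P073.H304.SpecB
import Vale.Agent.P073.H239.Sharp

/-!
# P073, block B10, [R2F-SHARP]: the clauses of the output of the core theorem which are used

`OutL` has the clauses `off`, `close`, `edge`, `elip`, `face` of `H304.Out` (see `Out.toL` in
`R2FL.lean`), so that the files `R2F1`-`R2F4` do not depend on the other clauses.
-/

open Set Metric Topology MeasureTheory
open scoped ENNReal

namespace Vale.Agent.P073.H73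

open Vale.Agent.P073
open Vale.Agent.P073.St (V)
open Vale.Agent.P073.H304 (IsEdge LipBd Nb Cst)
open _root_.P073 (ConHomeo)
open _root_.P073.Net (len)

/-- the clauses of `H304.Out` which are used in block B10 -/
structure OutL {Ω Λ : Set V} (p D D' η c₀ : ℝ) (w : V) (M : Mesh Ω) (h : V → V)
    (J₀ : Set (ℕ × (Fin 3 → ℤ))) (Z : Set M.ι) (Y : Set M.κ) (ε : M.κ → ℝ)
    (g : ConHomeo Ω Λ) : Prop where
  off : ∀ x ∈ Ω, h x ∉ Nb w J₀ c₀ → g.toFun x = h x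
  close : ∀ x ∈ Ω, ∀ t ∈ J₀, h x ∈ Nb w {t} c₀ → ‖g.toFun x - h x‖ ≤ D / 2 ^ t.1
  edge : ∀ k, ∀ e, IsEdge M e → segment ℝ e.1 e.2 ⊆ M.F k →
    len (onSeg g.toFun e) (Icc 0 1) ≤
      ENNReal.ofReal D * len (onSeg h e) (Icc 0 1) + ENNReal.ofReal (ε k)
  elip : ∀ k, ∀ e, IsEdge M e → segment ℝ e.1 e.2 ⊆ M.F k →
    h '' segment ℝ e.1 e.2 ⊆ Nb w J₀ η → ∀ C, Cst M Y D D' (segment ℝ e.1 e.2) C →
    ∀ ℓ : ℝ, len (onSeg h e) (Icc 0 1) ≤ ENNReal.ofReal ℓ →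
    ∀ x ∈ segment ℝ e.1 e.2, ∀ y ∈ segment ℝ e.1 e.2,
      ‖g.toFun x - g.toFun y‖ ≤ C * ((ℓ + ε k) / ‖e.2 - e.1‖) * ‖x - y‖
  face : ∀ k, (∃ i ∈ Z, M.F k ⊆ M.Q i) → ∀ C, Cst M Y D D' (M.F k) C →
    ∃ G : V → ℝ, LipBd g.toFun (M.F k) G ∧
    ∀ (E : Finset (V × V)) (ℓ : V × V → ℝ≥0∞) (a : V) (l : Fin 3) (σ : ℝ), 0 < σ →
      M.F k = sqr a l σ → Adapted M k E → (∀ e ∈ E, len (onSeg h e) (Icc 0 1) ≤ ℓ e) →
      ∫⁻ x in SQ.cube a σ, ENNReal.ofReal (G (Function.update x l (a l)) ^ p) ≤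
        ENNReal.ofReal (C * σ ^ 2) * ∑ e ∈ E, ENNReal.ofReal (‖e.2 - e.1‖ ^ (1 - p)) *
          (ℓ e + ENNReal.ofReal (ε k * ‖e.2 - e.1‖ / σ)) ^ p

end Vale.Agent.P073.H73
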