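import Vale.Agent.P073.H304.K3C
import Vale.Agent.P073.H73.R2F0

/-!
# P073, block B10, [R2F-SHARP]: `OutB.toL`, and the case without sharp faces
-/

namespace Vale.Agent.P073.H73

open Set Vale.Agent.P073.St
open _root_.P073 (ConHomeo)

variable {Ω Λ : Set V} {p D D' η c₀ m : ℝ} {w : V} {ρ : V → ℝ} {M : Mesh Ω} {h : V → V}
  {J₀ J : Set (ℕ × (Fin 3 → ℤ))} {P Z : Set M.ι} {Y : Set M.κ} {ε : M.κ → ℝ} {g : ConHomeo Ω Λ}

theorem OutB.toL (O : H304.OutB p D D' η c₀ m w ρ M h J₀ J P Z Y ε g) :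
    OutL p D D' η c₀ w M h J₀ Z Y ε g :=
  ⟨O.off, O.close, O.edge, O.elip, O.face⟩

end Vale.Agent.P073.H73
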