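import Vale.Agent.P073.H73.FlatD
import Vale.Agent.P073.H235.R2Parts
import Vale.Agent.P073.H761.SmTools

/-!
# P073, block A16, [POST-MID]: choice of the constants and assembly of `SpecPostFlat`
-/

namespace Vale.Agent.P073.H73

open MeasureTheory Set Filter Topology Metric Vale.Agent.P073.St Vale.Agent.P073.AB
open Vale.Agent.P073.AB.P86
open Vale.Agent.P073.SQ (ev cube Cells)
open Vale.Agent.P073.LOC (BdClose Q1)
open Vale.Agent.P073.H235
open _root_.P073 (ConHomeo)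
open _root_.P073.Net (dyc dyo IsTile SizeFn)
open scoped ENNReal

theorem eSum_mono {p : ℝ} {v : V} {I : Set Idx} {ℓ : Idx × Fin 3 → ℝ≥0∞} {S T : Set V}
    (h : S ⊆ T) : eSum p v I ℓ S ≤ eSum p v I ℓ T := by
  rw [eSum_eq, eSum_eq]
  exact tsum_subset_le' (fun i hi => ⟨hi.1, hi.2.mono (inter_subset_inter_right _ h)⟩)
    (cellS p v I ℓ)

/-- the compressed map is continuous up to the boundary -/
theorem continuousOn_cmp {a : V} (ha : ∀ i, 0 < a i) {f : V → V}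
    (hf : ContinuousOn f (closure Q1)) : ContinuousOn (cmp a f) (closure (Bx a)) := by
  have hc : Continuous fun x : V => (fun i => x i / a i : V) := by fun_prop
  refine hf.comp hc.continuousOn ?_
  refine MapsTo.closure (s := Bx a) (t := Q1) (fun x hx i => ?_) hc
  have := hx i
  exact ⟨div_pos this.1 (ha i), (div_lt_one (ha i)).2 this.2⟩

/-- the squares of the core of the middle plane -/
def sharpY (nS : ℕ) (a b : Fin 3 → ℤ) : Set (Idx × Fin 3) :=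
  {s | ∃ k ∈ rect a b, s = ((nS, k), 2)}

/-- [ROWDATA] (helper 247) -/
def SpecRowData (p : ℝ) : Prop :=
  ∀ (C θ ν τ ε δ : ℝ) (Λ : Set V) (f : V → V) (P : PreFlat p C θ ν τ ε δ Λ f)
    (D μ D' r c ε₀ : ℝ) (β : Idx × Fin 3 → ℝ) (g : ConHomeo (Bx (fl θ)) Λ),
    BoxOut P.toBoxData p D μ D' r c (sharpY P.nS P.a P.b) β g → 1 ≤ D → D ≤ D' → 0 < c →
    δ ≤ c → ε ≤ ε₀ → (∀ s, 0 < β s ∧ β s ≤ ε₀ / 2 ^ s.1.1) →
    RowData p C D' c ε₀ P.v P.nS P.mt P.a P.b P.G P.h g P.ℓ P.X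

/-- [MID] (helper 407) -/
def SpecMid (p : ℝ) : Prop :=
  ∃ Kf : ℝ → ℝ → ℝ, ∀ (C θ ν τ ε δ : ℝ) (Λ : Set V) (f : V → V)
    (P : PreFlat p C θ ν τ ε δ Λ f)
    (D μ D' r c t ε₁ : ℝ) (β : Idx × Fin 3 → ℝ) (g : ConHomeo (Bx (fl θ)) Λ),
    BoxOut P.toBoxData p D μ D' r c (sharpY P.nS P.a P.b) β g → 1 ≤ D → D ≤ D' → 0 < c →
    c < 1 / 4 → δ ≤ c → 0 < C → 0 < θ → θ ≤ 1 / 2 → 0 < μ → 0 < t → t ≤ 1 → 0 < ε₁ → 0 < ε →
    (∀ s, 0 < β s ∧ β s ≤ t * (1 / 2 ^ s.1.1)) →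
    ∀ B : Finset (Fin 3 → ℤ), (B.card : ℝ) / 4 ^ P.nS ≤ ε₁ →
    (∀ k ∈ rect P.a P.b, k ∉ B → k ∈ P.G ∧ Free c P.v P.nS P.mt P.h.toFun k ∧
      NearMon r P.v P.nS g.toFun k ∧ ShortH r P.v P.nS P.h.toFun k) →
    ∑ j ∈ Finset.univ.erase (2 : Fin 3), ∫⁻ x in Bx 1 ∩ Co 1 (ν / 2) {0, 1},
      ENNReal.ofReal (‖lineDeriv ℝ g.toFun (Function.update x 2 (P.v 2 + P.a 2 / 2 ^ P.nS))
        (ev j) - P2 (ev j)‖ ^ p) ≤ ENNReal.ofReal (μ + Kf C D' * (t + ε₁ + ε))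

theorem fl_pos {θ : ℝ} (hθ : 0 < θ) : ∀ i, 0 < fl θ i := by
  intro i
  fin_cases i
  · simp [fl]
  · simp [fl]
  · simpa [fl] using hθ

/-- **[POST-FLAT]** -/
theorem specPostFlat_of {p : ℝ} (hp : 1 ≤ p) (hR : SpecRows) (hRow : SpecRowData p)
    (hMid : SpecMid p) : SpecPostFlat p := by
  intro hK
  obtain ⟨D, hD, hBP⟩ := specBoxPost (by linarith : 0 ≤ p) hK
  obtain ⟨K, hK0, hBS⟩ := specBoxSum p hp
  obtain ⟨Kf, hMid⟩ := hMid
  refine ⟨K * D + 1, by positivity, fun C θ ν hC hθ hθ2 hν hν4 ε hε => ?_⟩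
  -- the constants
  obtain ⟨D', hDD, r, hr, hr1, hBP⟩ := hBP (ε / 2) (by positivity)
  have hD'0 : 0 < D' := by linarith
  set κ : ℝ := |Kf C D'| with hκ
  have hκ0 : 0 ≤ κ := abs_nonneg _
  set e₀ : ℝ := ε / (6 * (κ + 1)) with he₀
  have he₀0 : 0 < e₀ := by positivity
  obtain ⟨c₁, hc₁, hR⟩ := hR p C D' r e₀ hp hC hD'0 hr he₀0
  set c : ℝ := min c₁ (1 / 8) with hc
  have hc0 : 0 < c := lt_min hc₁ (by norm_num)
  have hc4 : c < 1 / 4 := lt_of_le_of_lt (min_le_right _ _) (by norm_num)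
  obtain ⟨εR, hεR, hR⟩ := hR c hc0 (min_le_left _ _)
  obtain ⟨δ, hδ, hδc, hBP⟩ := hBP c hc0 hc4
  have hCν : 0 < C * ν * θ := by positivity
  set e₁ : ℝ := C * ν * θ / (2 * (K * D' + 1)) with he₁
  have he₁0 : 0 < e₁ := by positivity
  set ε' : ℝ := min (min εR e₀) e₁ with hε'
  have hε'0 : 0 < ε' := lt_min (lt_min hεR he₀0) he₁0
  refine ⟨δ, hδ, ε', hε'0, fun τ Λ f hΛ hf hτ P => ?_⟩
  set t : ℝ := min (min e₀ 1) (C * ν * θ / 2) with ht
  have ht0 : 0 < t := lt_min (lt_min he₀0 one_pos) (by positivity)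
  have ht1 : t ≤ 1 := (min_le_left _ _).trans (min_le_right _ _)
  have hte : t ≤ e₀ := (min_le_left _ _).trans (min_le_left _ _)
  obtain ⟨W, hDec, hW⟩ := hBS (fl θ) Λ (cmp (fl θ) f) δ (fl_pos hθ) hΛ P.toBoxData
  obtain ⟨β, hβ, hW⟩ := hW t ht0
  set β' : Idx × Fin 3 → ℝ := fun s => min (β s / D') (min (t * (1 / 2 ^ s.1.1)) (εR / 2 ^ s.1.1))
    with hβ'
  have hβ'0 : ∀ s, 0 < β' s := fun s =>
    lt_min (div_pos (hβ s) hD'0) (lt_min (by positivity) (by positivity))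
  obtain ⟨g, hO⟩ := hBP (Bx (fl θ)) Λ (cmp (fl θ) f) (H761.isBoundedDomain_Bx (fl_pos hθ)) hΛ
    (continuousOn_cmp (fl_pos hθ) hf) P.toBoxData (sharpY P.nS P.a P.b) β' hβ'0
  have hRD := hRow C θ ν τ ε' δ Λ f P D (ε / 2) D' r c εR β' g hO hD hDD hc0 hδc
    ((min_le_left _ _).trans (min_le_left _ _))
    (fun s => ⟨hβ'0 s, (min_le_right _ _).trans (min_le_right _ _)⟩)
  obtain ⟨B, hB, hBg⟩ := hR (Bx (fl θ)) Λ P.v P.nS P.mt P.a P.b P.G P.h g P.ℓ P.X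
    (H761.isBoundedDomain_Bx (fl_pos hθ)) hRD
  have hmid := hMid C θ ν τ ε' δ Λ f P D (ε / 2) D' r c t e₀ β' g hO hD hDD hc0 hc4 hδc hC hθ hθ2
    (by positivity) ht0 ht1 he₀0 hε'0
    (fun s => ⟨hβ'0 s, (min_le_right _ _).trans (min_le_left _ _)⟩) B hB hBg
  -- energies
  have hY : eSum p P.v P.I P.ℓ (⋃ s ∈ sharpY P.nS P.a P.b, squ P.v s) ≤ ENNReal.ofReal ε' := by
    refine le_trans (eSum_mono ?_) P.layer
    intro x hx
    obtain ⟨s, ⟨k, hk, rfl⟩, hxs⟩ := mem_iUnion₂.1 hx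
    have hk2 : k 2 = P.a 2 := by
      have := (Fintype.mem_piFinset.1 hk) 2
      simpa using this
    have h1 : x 2 = P.v 2 + (k 2 : ℝ) / 2 ^ P.nS := hxs.1
    rw [hk2] at h1
    exact h1
  have hsum : ∀ S : Set V, ∀ b : ℝ, 0 ≤ b → C * ν * θ ≤ b →
      eSum p P.v P.I P.ℓ S ≤ ENNReal.ofReal b →
      enS W p g.toFun S ≤ ENNReal.ofReal ((K * D + 1) * b) := by
    intro S b hb hbb hS
    refine (hW D (ε / 2) D' r c (sharpY P.nS P.a P.b) g β' hD hDD (fun s => min_le_left _ _) hO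
      S).trans ?_
    calc ENNReal.ofReal (K * D) * eSum p P.v P.I P.ℓ S +
          ENNReal.ofReal (K * D') * eSum p P.v P.I P.ℓ (⋃ s ∈ sharpY P.nS P.a P.b, squ P.v s) +
            ENNReal.ofReal t
        ≤ ENNReal.ofReal (K * D) * ENNReal.ofReal b +
          ENNReal.ofReal (K * D') * ENNReal.ofReal ε' + ENNReal.ofReal t := by gcongr
      _ = ENNReal.ofReal (K * D * b + K * D' * ε' + t) := by
          rw [← ENNReal.ofReal_mul (by positivity), ← ENNReal.ofReal_mul (by positivity),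
            ← ENNReal.ofReal_add (by positivity) (by positivity),
            ← ENNReal.ofReal_add (by positivity) (by positivity)]
      _ ≤ _ := by
          apply ENNReal.ofReal_le_ofReal
          have h1 : K * D' * ε' ≤ C * ν * θ / 2 := by
            calc K * D' * ε' ≤ (K * D' + 1) * e₁ := by
                  have : ε' ≤ e₁ := min_le_right _ _
                  gcongr
                  linarith
              _ = C * ν * θ / 2 := by rw [he₁]; field_simp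
          have h2 : t ≤ C * ν * θ / 2 := min_le_right _ _
          nlinarith
  refine ⟨P.v 2 + P.a 2 / 2 ^ P.nS, W, g, P.mid, hDec 2 _ P.plane, hO.bd, ?_, ?_, ?_⟩
  · have h1 : C * ν * θ ≤ C * θ := by nlinarith [mul_pos hC hθ]
    have := hsum univ (C * θ) (by positivity) h1 P.bulk
    rwa [← mul_assoc] at this
  · have := hsum (Fr (fl θ) (2 * ν) {0, 1}) (C * ν * θ) hCν.le le_rfl P.frame
    have e1 : (K * D + 1) * (C * ν * θ) = (K * D + 1) * C * ν * θ := by ring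
    rwa [e1] at this
  · refine hmid.trans (ENNReal.ofReal_le_ofReal ?_)
    have h1 : Kf C D' * (t + e₀ + ε') ≤ κ * (t + e₀ + ε') := by
      gcongr
      exact le_abs_self _
    have h2 : ε' ≤ e₀ := (min_le_left _ _).trans (min_le_right _ _)
    have h3 : κ * (t + e₀ + ε') ≤ (κ + 1) * (3 * e₀) := by
      have : t + e₀ + ε' ≤ 3 * e₀ := by linarith
      have h4 : 0 ≤ t + e₀ + ε' := by positivity
      nlinarith
    have h5 : (κ + 1) * (3 * e₀) = ε / 2 := by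
      rw [he₀]; field_simp; norm_num
    linarith

end Vale.Agent.P073.H73
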