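import Vale.Agent.P073.H73.R2F3
import Vale.Agent.P073.H239.FSpec1

/-!
# P073, block B10, [R2F-SHARP], rank one: the fields of `FOut1`
-/

namespace Vale.Agent.P073.H73

open MeasureTheory Set Filter Topology Metric Vale.Agent.P073.St Vale.Agent.P073.AB
open Vale.Agent.P073.AB.P86
open Vale.Agent.P073.SQ (ev cube Cells)
open Vale.Agent.P073.LOC (BdClose Q1)
open Vale.Agent.P073.H304 (IsEdge LipBd Nb)
open Vale.Agent.P073.H194 (partMesh)
open Vale.Agent.P073.H235 (Bx bm cmp cmpD)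
open Vale.Agent.P073.H239 (tv Deep BData ll)
open Vale.Agent.P073.H212 (SharpOut3)
open Vale.Agent.P073.H253 (rectN redgeN ledge)
open Vale.Agent.P073.H696
open Vale.Agent.P073.H851 (M3)
open _root_.P073 (ConHomeo)
open _root_.P073.Net (len dyc dyo IsTile SizeFn)
open scoped ENNReal

/-- `Deep` from the position of the image, with processed tiles, any set of directions -/
theorem deep_actA {c δ : ℝ} {ρ : V → ℝ} {J₀ : Set (ℕ × (Fin 3 → ℤ))} {A : Finset (Fin 3)} {m : ℕ}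
    {z : Fin 3 → ℤ} {S : Set V} (hδ : δ ≤ 1 / 64) (hc : 0 ≤ c) {y₀ : V} (hy₀ : y₀ ∈ S)
    (htile : ∀ z' : Fin 3 → ℤ, (∃ y ∈ dyc 0 m z', ‖y₀ - y‖ ≤ 4 / 2 ^ m) → IsTile ρ 0 m z')
    (hact : ∀ z' : Fin 3 → ℤ, (∃ y ∈ dyc 0 m z', ‖y₀ - y‖ ≤ 1 / 64 / 2 ^ m) → (m, z') ∈ J₀)
    (hnear : ∀ y ∈ S, ∀ j ∉ A, |y j - z j / 2 ^ m| ≤ δ / 2 ^ m)
    (hmid : ∀ y ∈ S, ∀ j ∈ A, (z j + c) / 2 ^ m ≤ y j ∧ y j ≤ (z j + 1 - c) / 2 ^ m) :
    Deep c δ 0 ρ J₀ A m z S where
  tile := by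
    intro z' hz'
    have hp : (0:ℝ) < 1 / 2 ^ m := by positivity
    refine htile z' ⟨fun j => z' j / 2 ^ m, fun j => ?_, ?_⟩
    · simp only [Pi.zero_apply, zero_add]
      refine ⟨le_rfl, ?_⟩
      rw [P86.div_add_one]
      linarith
    · rw [pi_norm_le_iff_of_nonneg (by positivity)]
      intro j
      rw [Pi.sub_apply, Real.norm_eq_abs]
      have h1 : |y₀ j - z j / 2 ^ m| ≤ 1 * (1 / 2 ^ m) := by
        by_cases hj : j ∈ A
        · obtain ⟨h2, h3⟩ := hmid y₀ hy₀ j hj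
          have e1 : ((z j : ℝ) + c) / 2 ^ m = z j / 2 ^ m + c * (1 / 2 ^ m) := by ring
          have e2 : ((z j : ℝ) + 1 - c) / 2 ^ m = z j / 2 ^ m + (1 - c) * (1 / 2 ^ m) := by ring
          rw [e1] at h2
          rw [e2] at h3
          have e3 : 0 ≤ c * (1 / 2 ^ m) := by positivity
          have e4 : (1 - c) * (1 / 2 ^ m) ≤ 1 * (1 / 2 ^ m) := by gcongr; linarith
          rw [abs_le]
          constructor <;> linarith
        · have h2 := hnear y₀ hy₀ j hj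
          have e1 : δ / 2 ^ m ≤ 1 * (1 / 2 ^ m) := by
            rw [div_eq_mul_one_div]
            gcongr
            linarith
          exact h2.trans e1
      obtain ⟨h2, h3⟩ := hz' j
      have h4 : |(z j : ℝ) / 2 ^ m - z' j / 2 ^ m| ≤ 2 * (1 / 2 ^ m) := by
        have e1 : (z j : ℝ) / 2 ^ m - z' j / 2 ^ m = (z j - z' j) * (1 / 2 ^ m) := by ring
        rw [e1, abs_mul, abs_of_pos hp]
        gcongr
        rw [abs_le]
        have h5 : ((z j : ℤ) : ℝ) - 2 ≤ z' j := by exact_mod_cast h2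
        have h6 : ((z' j : ℤ) : ℝ) ≤ z j + 1 := by exact_mod_cast h3
        constructor <;> linarith
      have h5 := abs_sub_le (y₀ j) (z j / 2 ^ m : ℝ) (z' j / 2 ^ m)
      have e4 : (4:ℝ) / 2 ^ m = 4 * (1 / 2 ^ m) := by ring
      rw [e4]
      linarith
  act := by
    classical
    intro z' h1 h2
    have hp : (0:ℝ) < 1 / 2 ^ m := by positivity
    refine hact z' ⟨fun j => if j ∈ A then y₀ j else z j / 2 ^ m, fun j => ?_, ?_⟩
    · simp only [Pi.zero_apply, zero_add]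
      by_cases hj : j ∈ A
      · rw [if_pos hj]
        obtain ⟨h3, h4⟩ := hmid y₀ hy₀ j hj
        rw [h1 j hj]
        have e1 : ((z j : ℝ) + c) / 2 ^ m = z j / 2 ^ m + c * (1 / 2 ^ m) := by ring
        have e2 : ((z j : ℝ) + 1 - c) / 2 ^ m = (z j + 1) / 2 ^ m - c * (1 / 2 ^ m) := by ring
        have e3 : 0 ≤ c * (1 / 2 ^ m) := by positivity
        rw [e1] at h3
        rw [e2] at h4
        constructor <;> linarith
      · rw [if_neg hj]
        rcases h2 j hj with h3 | h3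
        · rw [h3, P86.div_add_one]
          exact ⟨le_rfl, by linarith⟩
        · rw [h3]
          push_cast
          rw [sub_add_cancel]
          refine ⟨?_, le_rfl⟩
          gcongr
          linarith
    · rw [pi_norm_le_iff_of_nonneg (by positivity)]
      intro j
      rw [Pi.sub_apply, Real.norm_eq_abs]
      by_cases hj : j ∈ A
      · rw [if_pos hj, sub_self, abs_zero]
        positivity
      · rw [if_neg hj]
        refine (hnear y₀ hy₀ j hj).trans ?_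
        gcongr
  near := by
    intro y hy j hj
    simpa using hnear y hy j hj
  mid := by
    intro y hy j hj
    simpa using hmid y hy j hj

/-- every edge of the core is a side of a square of the core -/
theorem exists_sideN {l : Fin 3} {a b : Fin 3 → ℤ} {n : ℕ} (hab : ∀ i, i ≠ l → a i < b i)
    {i : Fin 3} (hi : i ≠ l) {k : Fin 3 → ℤ} (hk : k ∈ redgeN l a b i) :
    ∃ k' ∈ rectN l a b, EdgeOfSq ((n, k), i) ((n, k'), l) := by
  rw [redgeN, Fintype.mem_piFinset] at hk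
  obtain ⟨o, ho1, ho2⟩ := H687.fin3_third i l hi
  have hall := H687.fin3_all l i o hi ho1 ho2
  have hko := hk o
  rw [if_neg ho1, if_neg ho2, Finset.mem_Icc] at hko
  have hkl := hk l
  rw [if_pos rfl, Finset.mem_singleton] at hkl
  have hki := hk i
  rw [if_neg hi, if_pos rfl, Finset.mem_Ico] at hki
  have habo := hab o ho1
  refine ⟨Function.update k o (if k o = b o then k o - 1 else k o), ?_, rfl, hi, ?_, ?_, ?_⟩
  · rw [rectN, Fintype.mem_piFinset]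
    intro m
    rcases hall m with rfl | rfl | rfl
    · rw [if_pos rfl, Function.update_of_ne (Ne.symm ho1), Finset.mem_singleton]
      exact hkl
    · rw [if_neg hi, Function.update_of_ne (Ne.symm ho2), Finset.mem_Ico]
      exact hki
    · rw [if_neg ho1, Function.update_self, Finset.mem_Ico]
      split_ifs with h
      · omega
      · exact ⟨hko.1, lt_of_le_of_ne hko.2 h⟩
  · show k i = _
    simp only
    rw [Function.update_of_ne (Ne.symm ho2)]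
  · show k l = _
    simp only
    rw [Function.update_of_ne (Ne.symm ho1)]
  · intro m hm1 hm2
    rcases hall m with rfl | rfl | rfl
    · exact absurd rfl hm2
    · exact absurd rfl hm1
    · show k m = _ ∨ k m = _
      simp only
      rw [Function.update_self]
      split_ifs with h
      · right; omega
      · left; rfl

section R2

variable {p Cu : ℝ} {Lc : M3 → ℝ} {δ : ℝ} {j : ℕ} {ε : ℝ} {Ω Λ : Set V} {f : V → V} {F : V → Mat}
  {v : V} {X : R2 p Cu Lc δ j ε Ω Λ f F v} {ng : Idx → ℕ} {hΩ : IsOpen Ω}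
  {hI : Part Ω v (X.I₂ ng)} {D D' c₀ δK μ r : ℝ} {Y : Set (partMesh hΩ hI).κ}
  {εk : (partMesh hΩ hI).κ → ℝ} {g : ConHomeo Ω Λ}

/-- Lipschitz constant of the edges away from the solid cubes -/
theorem out_elip (O : OutL p D D' (1 / 2 ^ j) c₀ 0 (partMesh hΩ hI) X.hh.toFun X.J₀ X.Z Y εk g)
    (hG : X.Geo ng) (hD : 0 ≤ D') {s : Idx × Fin 3} (hs : MinSq v (X.I₂ ng) s)
    {e : Idx × Fin 3} (he : MinEdge v (X.I₂ ng) e) (hes : edge v e ⊆ squ v s) {q : Idx}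
    (hq : q ∈ X.I₁ \ X.S) (heq : edge v e ⊆ dyc v q.1 q.2)
    (hfin : len (onSeg X.h₁.toFun (segP v e)) (Icc 0 1) ≠ ⊤) {β : ℝ} (hβ : 0 ≤ β)
    (hεk : εk ⟨s, hs⟩ ≤ β) {x y : V} (hx : x ∈ edge v e) (hy : y ∈ edge v e) :
    ‖g.toFun x - g.toFun y‖ ≤ 2 * Cu * D' *
      (((len (onSeg X.h₁.toFun (segP v e)) (Icc 0 1)).toReal + β) * 2 ^ e.1.1) * ‖x - y‖ := by
  have hCu := X.hCu
  have h1 := O.elip ⟨s, hs⟩ (segP v e) (isEdge_segP hΩ hI he) hes (by
    rintro _ ⟨u, hu, rfl⟩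
    exact (hG.off q hq u (heq hu)).2) D' (Or.inl le_rfl)
    (2 * Cu * (len (onSeg X.h₁.toFun (segP v e)) (Icc 0 1)).toReal) (by
      refine (H582.R2.ell_le X (heq.trans (X.st.part.sub q hq.1))
        fun y hy => (hG.off q hq y (heq hy)).1).trans (le_of_eq ?_)
      have e1 : ENNReal.ofReal (2 * Cu * (len (onSeg X.h₁.toFun (segP v e)) (Icc 0 1)).toReal) =
          ENNReal.ofReal (2 * Cu) * len (onSeg X.h₁.toFun (segP v e)) (Icc 0 1) := by
        rw [ENNReal.ofReal_mul (p := 2 * Cu) (by positivity), ENNReal.ofReal_toReal hfin]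
      rw [e1]
      rfl) x hx y hy
  refine h1.trans ?_
  gcongr ?_ * _
  rw [norm_segP, div_div_eq_mul_div, div_one]
  set L := (len (onSeg X.h₁.toFun (segP v e)) (Icc 0 1)).toReal with hL
  have hL0 : 0 ≤ L := ENNReal.toReal_nonneg
  calc D' * ((2 * Cu * L + εk ⟨s, hs⟩) * 2 ^ e.1.1)
      ≤ D' * ((2 * Cu * (L + β)) * 2 ^ e.1.1) := by
        gcongr
        nlinarith
    _ = _ := by ring

end R2

section BData

variable {p Cu : ℝ} {Lc : M3 → ℝ} {δ : ℝ} {j : ℕ} {C θ₁ θ₂ ν₁ ν τ ε c : ℝ} {Λ : Set V}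
  {f : V → V} {F : V → Mat} {v : V} (X : BData p Cu Lc δ j C θ₁ θ₂ ν₁ ν τ ε c Λ f F v)

/-- the squares of the core -/
theorem bd_sq {k : Fin 3 → ℤ} (hk : k ∈ rectN 1 X.a X.b) :
    ∃ q ∈ X.I₁ \ X.S, squ v ((X.nS, k), 1) ⊆ dyc v q.1 q.2 := by
  obtain ⟨⟨q, hq, hf⟩, -⟩ := X.pl.minS k hk
  have hsub := S308.squ_sub_of_face (v := v) hf
  refine ⟨q, ⟨hq, fun h => ?_⟩, hsub⟩
  exact Set.disjoint_left.1 (X.pl.offS k hk q h) (hsub (pt_mem_squ v _)) (pt_mem_squ v _)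

theorem bd_minS {ng : Idx → ℕ} (hG : X.toR2.Geo ng) {k : Fin 3 → ℤ} (hk : k ∈ rectN 1 X.a X.b) :
    MinSq v (X.toR2.I₂ ng) ((X.nS, k), 1) :=
  minSq_ref (H582.R2.ref X.toR2 hG) (X.pl.minS k hk) (X.pl.offS k hk)

theorem bd_minE₁ {k : Fin 3 → ℤ} (hk : k ∈ rectN 1 X.a X.b)
    {e : Idx × Fin 3} (he : EdgeOfSq e ((X.nS, k), 1)) : MinEdge v X.I₁ e := by
  obtain ⟨⟨m, z⟩, i⟩ := e
  obtain ⟨h1, h2, h3⟩ := H193.side_mem hk he
  have h1' : m = X.nS := h1
  subst h1'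
  exact X.pl.minE i h2 z h3

theorem bd_minE {ng : Idx → ℕ} (hG : X.toR2.Geo ng) {k : Fin 3 → ℤ} (hk : k ∈ rectN 1 X.a X.b)
    {e : Idx × Fin 3} (he : EdgeOfSq e ((X.nS, k), 1)) : MinEdge v (X.toR2.I₂ ng) e :=
  minEdge_ref (H582.R2.ref X.toR2 hG) (bd_minE₁ X hk he) fun q hq =>
    (X.pl.offS k hk q hq).mono_right (S308.edge_sub_squ he)

/-- every edge of the line is a side of a square of the core -/
theorem bd_line {k : ℤ} (hk : k ∈ Finset.Ico (X.a 0) (X.b 0)) :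
    ∃ k' ∈ rectN 1 X.a X.b, EdgeOfSq (X.e k) ((X.nS, k'), 1) := by
  refine exists_sideN X.pl.alt (by decide) ?_
  rw [redgeN, Fintype.mem_piFinset]
  intro i
  fin_cases i
  · simpa using hk
  · simp
  · simpa using X.pl.m₂mem

/-- the good edges in the middle of the tiles are deep -/
theorem bd_deep {c₀ : ℝ} (hc : 0 ≤ c₀) (hδ : δ ≤ 1 / 64) {k : ℤ} (hk : k ∈ X.G)
    (hF : ∃ z : ℤ, ∀ x ∈ edge v (X.e k), (z + c₀) / 2 ^ X.mt ≤ X.toR2.hh.toFun x 0 ∧
      X.toR2.hh.toFun x 0 ≤ (z + 1 - c₀) / 2 ^ X.mt) :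
    ∃ z, Deep c₀ δ 0 X.ρ X.J₀ {0} X.mt z (X.toR2.hh.toFun '' edge v (X.e k)) := by
  have hkR := X.tp.Gsub hk
  obtain ⟨z, hz⟩ := hF
  obtain ⟨t, ht⟩ := X.tp.tube k hk
  have hpt : (segP v (X.e k)).1 ∈ edge v (X.e k) := left_mem_segment ℝ _ _
  refine ⟨Function.update t 0 z, deep_actA hδ hc (mem_image_of_mem _ hpt)
    (X.tp.tile k hkR _ hpt) (X.tp.act k hkR _ hpt) ?_ ?_⟩
  · rintro _ ⟨x, hx, rfl⟩ i hi
    have hi' : i ≠ 0 := by simpa using hi
    rw [Function.update_of_ne hi']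
    exact ht x hx i hi'
  · rintro _ ⟨x, hx, rfl⟩ i hi
    have hi' : i = 0 := by simpa using hi
    subst hi'
    rw [Function.update_self]
    exact hz x hx

variable {ng : Idx → ℕ} {hΩ : IsOpen (Bx (bm θ₁ θ₂))} {hI : Part (Bx (bm θ₁ θ₂)) v (X.toR2.I₂ ng)}
  {D c₀ δK μ rK K : ℝ} {Y : Set (partMesh hΩ hI).κ} {εk : (partMesh hΩ hI).κ → ℝ}
  {g : ConHomeo (Bx (bm θ₁ θ₂)) Λ}

/-- **The output of Round 2, rank one**: all fields of `FOut1`, from the energies (hypothesis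
`hen`) -/
theorem fOut1_of (hG : X.toR2.Geo ng)
    (O : OutL p D D (1 / 2 ^ j) c₀ 0 (partMesh hΩ hI) X.toR2.hh.toFun X.J₀ X.toR2.Z Y εk g)
    (Sh : SharpOut3 p D c₀ δK μ rK 0 X.ρ (partMesh hΩ hI) X.toR2.hh.toFun X.J₀ Y εk g)
    (hεk : ∀ s (hs : MinSq v (X.toR2.I₂ ng) s), 0 ≤ εk ⟨s, hs⟩ ∧
      2 * εk ⟨s, hs⟩ ≤ 2 * ε / 2 ^ s.1.1)
    (hp : 1 ≤ p) (hD : 0 ≤ D) (hc : 0 < c₀) (hc64 : c₀ ≤ 1 / 64) (hδ : δ ≤ δK)
    (hδc : δ ≤ c₀) (hK : (2 * Cu) ^ p ≤ K)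
    (hen : ∀ A : Set V, ∫⁻ x in Bx (bm θ₁ θ₂) ∩ A, ENNReal.ofReal (‖fderiv ℝ g.toFun x‖ ^ p) ≤
      ENNReal.ofReal (K * (2 * D)) * H239.enX X.toR2 A +
        ENNReal.ofReal (K * (2 * D) * (2 * ε))) :
    H239.FOut1 X K (2 * D) c₀ (2 * ε) g where
  bd := out_bd O hD hc64 X.tp.bdT
  en := hen
  close := by
    intro k hk x hx
    obtain ⟨k', hk', he⟩ := bd_line X hk
    obtain ⟨q, hq, hsq⟩ := bd_sq X hk'
    refine (out_close O hD hc64 (X.st.part.sub q hq.1 (hsq (S308.edge_sub_squ he hx)))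
      (X.tp.tile k hk x hx)).trans ?_
    gcongr
    linarith
  face := by
    intro k hk
    obtain ⟨q, hq, hsq⟩ := bd_sq X hk
    have hs := bd_minS X hG hk
    have hε := X.hε.1
    have hCu := X.hCu
    have h1 := out_face O hG (by linarith) hD hs (fun e he => bd_minE X hG hk he) hq hsq
      (β := 2 * ε / 2 ^ X.nS) (by positivity) (hεk _ hs)
    refine h1.trans ?_
    have hK0 : 0 ≤ K := le_trans (Real.rpow_nonneg (by linarith) p) hK
    have e1 : (2 * Cu) ^ p * D * (1 / 2 ^ X.nS) ^ 2 ≤ K * (2 * D) * (1 / 2 ^ X.nS) ^ 2 := by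
      calc (2 * Cu) ^ p * D * (1 / 2 ^ X.nS) ^ 2 ≤ K * D * (1 / 2 ^ X.nS) ^ 2 := by gcongr
        _ ≤ K * (2 * D) * (1 / 2 ^ X.nS) ^ 2 := by gcongr; linarith
    refine mul_le_mul' (ENNReal.ofReal_le_ofReal e1) ?_
    set φ : Idx × Fin 3 → ℝ≥0∞ := fun e => ENNReal.ofReal ((1 / 2 ^ e.1.1) ^ (1 - p)) *
      (ll v X.h₁.toFun e + ENNReal.ofReal (2 * ε / 2 ^ X.nS)) ^ p with hφ
    have e2 : ∑' e : {e : Idx × Fin 3 // EdgeOfSq e ((X.nS, k), 1)},
        ENNReal.ofReal ((1 / 2 ^ ((X.nS, k), (1 : Fin 3)).1.1) ^ (1 - p)) *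
          (len (onSeg X.h₁.toFun (segP v e.1)) (Icc 0 1) +
            ENNReal.ofReal (2 * ε / 2 ^ X.nS)) ^ p =
        ∑' e : {e : Idx × Fin 3 // EdgeOfSq e ((X.nS, k), 1)}, φ e.1 := by
      refine tsum_congr fun e => ?_
      have : e.1.1.1 = X.nS := e.2.1
      simp only [hφ, this]
      rfl
    refine (le_of_eq e2).trans ?_
    have e3 : ∀ e : {e : Idx × Fin 3 // EdgeOfSq e ((X.nS, k), 1)},
        MinEdge v X.I₁ e.1 ∧ edge v e.1 ⊆ squ v ((X.nS, k), 1) := fun e =>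
      ⟨bd_minE₁ X hk e.2, S308.edge_sub_squ e.2⟩
    exact ENNReal.tsum_comp_le_tsum_of_injective
      (f := fun e : {e : Idx × Fin 3 // EdgeOfSq e ((X.nS, k), 1)} =>
        (⟨e.1, e3 e⟩ : {e : Idx × Fin 3 // MinEdge v X.I₁ e ∧
          edge v e ⊆ squ v ((X.nS, k), 1)}))
      (fun e e' h => Subtype.ext (congrArg (fun u => u.1) h))
      (fun e => φ e.1)
  elip := by
    intro k hk hfin x hx y hy
    obtain ⟨k', hk', he⟩ := bd_line X hk
    obtain ⟨q, hq, hsq⟩ := bd_sq X hk'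
    have hs := bd_minS X hG hk'
    have hε := X.hε.1
    have hCu := X.hCu
    have hεs := hεk _ hs
    have h2 : 2 * εk ⟨((X.nS, k'), 1), hs⟩ ≤ 2 * ε / 2 ^ X.nS := hεs.2
    refine (out_elip O hG hD hs (bd_minE X hG hk' he) (S308.edge_sub_squ he) hq
      ((S308.edge_sub_squ he).trans hsq) hfin (β := 2 * ε / 2 ^ X.nS) (by positivity)
      (by linarith [hεs.1]) hx hy).trans ?_
    have hK1 : 2 * Cu ≤ K := by
      refine le_trans ?_ hK
      calc 2 * Cu = (2 * Cu) ^ (1:ℝ) := (Real.rpow_one _).symm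
        _ ≤ (2 * Cu) ^ p := Real.rpow_le_rpow_of_exponent_le (by linarith) hp
    have e1 : (X.e k).1.1 = X.nS := rfl
    rw [e1]
    have e2 : 2 * Cu * D ≤ K * (2 * D) := by
      calc 2 * Cu * D ≤ K * D := by gcongr
        _ ≤ K * (2 * D) := by
            have : 0 ≤ K := by linarith
            gcongr
            linarith
    exact mul_le_mul_of_nonneg_right (mul_le_mul_of_nonneg_right e2 (by positivity))
      (norm_nonneg _)
  tv := by
    intro k hk hF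
    have hkR := X.tp.Gsub hk
    obtain ⟨k', hk', he⟩ := bd_line X hkR
    obtain ⟨z, hz⟩ := bd_deep X hc.le (hδc.trans hc64) hk hF
    have hs := bd_minS X hG hk'
    refine (out_tv Sh.tv hδ hs (bd_minE X hG hk' he) (S308.edge_sub_squ he)
      (A := {0}) (by decide) (by decide) hz).trans ?_
    gcongr
    have := hεk _ hs
    have h2 : 2 * εk ⟨((X.nS, k'), 1), hs⟩ ≤ 2 * ε / 2 ^ X.nS := this.2
    linarith [this.1]

end BData

end Vale.Agent.P073.H73
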