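import Vale.Agent.P073.H83.Wt
import Vale.Agent.P073.AB.Graph907
import Vale.Agent.P073.AB.Sum308d

/-!
# P073, block B09, [DOM-NN]: the edges of a generic generation have small energy

`gen_edge_small`: for a generic origin, all edges of generation `nn l` in a fixed dyadic cube have
`|e|^2 ∫_e H ≤ ω` for `l` large.
-/

namespace Vale.Agent.P073.H73

open MeasureTheory Set Filter Topology Metric Vale.Agent.P073.St
open Vale.Agent.P073.SQ (ev)
open Vale.Agent.P073.AB Vale.Agent.P073.H194 Vale.Agent.P073.H83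
open _root_.P073.Net (dyc dyo)
open scoped ENNReal

/-- the position of an edge in a dyadic cube -/
theorem mem_eIn_of_sub {v : V} {k : Idx} {e : Idx × Fin 3} (hk : k.1 ≤ e.1.1)
    (he : edge v e ⊆ dyc v k.1 k.2) : e.1.2 ∈ eIn k e.1.1 e.2 := by
  have hs := two_pow_split hk
  have h2 : (0:ℝ) < 2 ^ e.1.1 := by positivity
  have key : ∀ w : ℤ, ∀ z : ℤ, (z:ℝ) / 2 ^ k.1 ≤ w / 2 ^ e.1.1 → 2 ^ (e.1.1 - k.1) * z ≤ w := by
    intro w z h
    have e1 : (z : ℝ) / 2 ^ k.1 = (2 ^ (e.1.1 - k.1) * z) / 2 ^ e.1.1 := by rw [hs]; field_simp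
    rw [e1, div_le_div_iff_of_pos_right h2] at h
    exact_mod_cast h
  have key' : ∀ w : ℤ, ∀ z : ℤ, (w:ℝ) / 2 ^ e.1.1 ≤ z / 2 ^ k.1 → w ≤ 2 ^ (e.1.1 - k.1) * z := by
    intro w z h
    have e1 : (z : ℝ) / 2 ^ k.1 = (2 ^ (e.1.1 - k.1) * z) / 2 ^ e.1.1 := by rw [hs]; field_simp
    rw [e1, div_le_div_iff_of_pos_right h2] at h
    exact_mod_cast h
  -- the end points
  set y₀ : V := fun j => v j + e.1.2 j / 2 ^ e.1.1 with hy₀
  set y₁ : V := fun j => v j + (if j = e.2 then (e.1.2 j + 1 : ℝ) else e.1.2 j) / 2 ^ e.1.1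
    with hy₁
  have m₀ : y₀ ∈ edge v e := by
    rw [Gr.mem_edge]
    refine ⟨fun j _ => rfl, le_rfl, ?_⟩
    simp only [hy₀]
    gcongr
    linarith
  have m₁ : y₁ ∈ edge v e := by
    rw [Gr.mem_edge]
    refine ⟨fun j hj => ?_, ?_, ?_⟩
    · simp only [hy₁, if_neg hj]
    · simp only [hy₁, if_true]
      gcongr
      linarith
    · simp only [hy₁, if_true]
      exact le_rfl
  have h₀ := he m₀
  have h₁ := he m₁
  rw [eIn, Fintype.mem_piFinset]
  intro j
  have a₀ := h₀ j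
  have a₁ := h₁ j
  simp only [hy₀] at a₀
  simp only [hy₁] at a₁
  by_cases hj : j = e.2
  · subst hj
    rw [if_pos rfl, Finset.mem_Ico]
    rw [if_pos rfl] at a₁
    refine ⟨key _ _ (by linarith [a₀.1]), ?_⟩
    have := key' (e.1.2 e.2 + 1) (k.2 e.2 + 1) (by push_cast; linarith [a₁.2])
    omega
  · rw [if_neg hj, Finset.mem_Icc]
    exact ⟨key _ _ (by linarith [a₀.1]), key' _ (k.2 j + 1) (by push_cast; linarith [a₀.2])⟩

/-- one edge in the Riemann sum -/
theorem edge_le_cSum {v : V} {q : Idx} {e : Idx × Fin 3} (H : V → ℝ≥0∞)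
    (he : e.1.2 ∈ eIn q e.1.1 e.2) :
    ENNReal.ofReal ((1 / 2 ^ e.1.1) ^ 2) * eInt v e H ≤ cSum v q e.1.1 e.2 H :=
  Finset.single_le_sum (f := fun w => ENNReal.ofReal ((1 / 2 ^ e.1.1) ^ 2) *
    eInt v ((e.1.1, w), e.2) H) (fun _ _ => zero_le) he

/-- **the edges of a generic generation have small energy** -/
theorem gen_edge_small {v : V} {nn : ℕ → ℕ} {H : V → ℝ≥0∞} (hnn : StrictMono nn)
    (G : Gen v nn H) (k : Idx) (hfin : ∫⁻ x in dyc v k.1 k.2, H x ≠ ⊤) {ω : ℝ≥0∞}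
    (hω : ω ≠ 0) : ∃ l₀, ∀ l ≥ l₀, ∀ e : Idx × Fin 3, e.1.1 = nn l →
      edge v e ⊆ dyc v k.1 k.2 → ENNReal.ofReal ((1 / 2 ^ e.1.1) ^ 2) * eInt v e H ≤ ω := by
  have hω2 : ω / 2 ≠ 0 := (ENNReal.half_pos hω).ne'
  -- absolute continuity
  obtain ⟨δ, hδ, hδ'⟩ := exists_pos_setLIntegral_lt_of_measure_lt
    (μ := (volume : Measure V).restrict (dyc v k.1 k.2)) hfin hω2
  obtain ⟨M, hMk, hM⟩ : ∃ M : ℕ, k.1 ≤ M ∧ ∀ z, volume (dyc v M z) < δ := by
    have ht : Tendsto (fun n : ℕ => ENNReal.ofReal (1 / 8 ^ n)) atTop (𝓝 0) := by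
      rw [← ENNReal.ofReal_zero]
      refine ENNReal.tendsto_ofReal ?_
      have h1 : Tendsto (fun n : ℕ => ((1:ℝ) / 8) ^ n) atTop (𝓝 0) :=
        tendsto_pow_atTop_nhds_zero_of_lt_one (by norm_num) (by norm_num)
      simpa only [one_div_pow] using h1
    obtain ⟨M, hM1, hM2⟩ := ((ht.eventually_lt_const hδ).and
      (eventually_ge_atTop k.1)).exists
    refine ⟨M, hM2, fun z => ?_⟩
    rw [AB.S308.volume_dyc]
    exact hM1
  -- the cubes of generation `M`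
  have hev : ∀ᶠ l in atTop, M ≤ nn l ∧ ∀ z ∈ subs k M, ∀ i : Fin 3,
      cSum v (M, z) (nn l) i H ≤ ω := by
    refine (hnn.tendsto_atTop.eventually_ge_atTop M).and ?_
    refine (Finset.eventually_all (subs k M)).2 fun z hz => ?_
    refine Filter.eventually_all.2 fun i => ?_
    have hsub : dyc v M z ⊆ dyc v k.1 k.2 := by
      intro y hy j
      obtain ⟨h1, h2⟩ := mem_subs.1 hz j
      have h1' : (2:ℝ) ^ (M - k.1) * k.2 j ≤ z j := by exact_mod_cast h1
      have h2' : (z j : ℝ) + 1 ≤ 2 ^ (M - k.1) * (k.2 j + 1) := by exact_mod_cast h2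
      have h3 := int_bounds hMk (z := k.2 j) (w := z j) (u := 0) (by linarith) (by linarith)
      have h4 := int_bounds hMk (z := k.2 j) (w := z j) (u := 1)
        (by linarith) (by linarith)
      have h5 := hy j
      have e0 : ((z j : ℝ) + 0) / 2 ^ M = z j / 2 ^ M := by rw [add_zero]
      rw [e0] at h3
      exact ⟨by linarith [h5.1, h3.1], by linarith [h5.2, h4.2]⟩
    have h1 : ∫⁻ x in dyc v M z, H x ≤ ω / 2 := by
      have h2 := hδ' (dyc v M z) (lt_of_le_of_lt (Measure.restrict_apply_le _ _) (hM z))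
      rw [Measure.restrict_restrict (isCompact_dyc' v M z).measurableSet,
        inter_eq_self_of_subset_left hsub] at h2
      exact h2.le
    refine (G.cube (M, z) i (ω / 2) hω2).mono fun l hl => hl.trans ?_
    refine (add_le_add h1 le_rfl).trans ?_
    rw [ENNReal.add_halves]
  obtain ⟨l₀, hl₀⟩ := eventually_atTop.1 hev
  refine ⟨l₀, fun l hl e he hek => ?_⟩
  obtain ⟨h1, h2⟩ := hl₀ l hl
  rw [← he] at h1
  have h3 := mem_eIn_of_sub (hMk.trans h1) hek
  obtain ⟨z, hz, hw⟩ := eIn_cover k hMk h1 e.2 h3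
  refine (edge_le_cSum (q := (M, z)) H hw).trans ?_
  rw [he]
  exact h2 z hz e.2

end Vale.Agent.P073.H73
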