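import Vale.Agent.P073.H73.HSolid
import Vale.Agent.P073.H803.RD

/-!
# P073, block B09, [ST1]: **[HSOLID]** for the data `RD` of Round 1
-/

namespace Vale.Agent.P073.H73

open MeasureTheory Set Filter Topology Metric Vale.Agent.P073.St
open Vale.Agent.P073.AB
open Vale.Agent.P073.H304 (elen)
open Vale.Agent.P073.H803 (RD)
open Vale.Agent.P073.H622 (kF CF CF_pos)
open Vale.Agent.P073.H696 (Boxes solid part1 Dom HF)
open _root_.P073.Net (dyc)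
open scoped ENNReal

/-- the constant of the solid cubes, as a function of the point -/
noncomputable def E0F (p : ℝ) (F : V → Mat) (y : V) : ℝ :=
  E0s p ‖cl (F y)‖ (2 * (CF F y + ‖cl (F y)‖ + 2))

theorem E0F_nonneg {p : ℝ} (F : V → Mat) (y : V) : 0 ≤ E0F p F y := by
  have h1 := CF_pos F y
  have h2 : 0 ≤ ‖cl (F y)‖ := norm_nonneg _
  unfold E0F E0s
  positivity

variable {p D : ℝ} {J : ℝ → ℕ} {Δ Mg : ℝ → ℝ} {Ω Λ : Set V} {f : V → V} {F : V → Mat} {v : V}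
  {I K : Set Idx} {x : Idx → V} {n N N' : Idx → ℕ} {k₁ : V → ℕ} {c₀ τ rσ : V → ℝ}
  {δ εs : Idx × Fin 3 → ℝ}

/-- **[HSOLID]** -/
theorem hsolid_rd (X : RD p D J Δ Mg Ω Λ f F v I K x n N N' k₁ c₀ τ rσ δ εs) (hp : 1 ≤ p)
    {ε M₀ : ℝ} {c : ℝ≥0∞} {τ' φ κ μ : V → ℝ} {s : V → ℕ} {nn : ℕ → ℕ} {r : V → ℝ} {εD : ℝ≥0∞}
    {tolD : Idx → ℝ≥0∞} (B : Boxes p ε M₀ c τ' φ κ μ s Ω Λ f F v nn K x)
    (hN : ∀ k ∈ K, N k = k.1 + s (x k))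
    (hN' : ∀ k ∈ K, N k = n k + k₁ (x k) + kF F k₁ (x k)) (hκ : ∀ k ∈ K, κ (x k) ≤ 1)
    (hδ : ∀ e, 0 ≤ δ e) (hδ1 : ∀ e : Idx × Fin 3, δ e ≤ 1 / 2 ^ e.1.1)
    (Dm : Dom Ω v (HF p Ω F) K n N r εD tolD I N')
    (htol : ∀ k ∈ K, tolD k ≤ ENNReal.ofReal ((1 / 2 ^ N k) ^ 3)) {q : Idx}
    (hq : q ∈ solid v K n (part1 v K n (fun k => k₁ (x k)) I)) {k : Idx} (hk : k ∈ K)
    (hqk : dyc v q.1 q.2 ⊆ dyc v k.1 k.2) :
    H803.meshsum p v (part1 v K n (fun k => k₁ (x k)) I) (elen X.h.toFun v) q ≤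
      ENNReal.ofReal (E0F p F (x k)) * volume (dyc v q.1 q.2) :=
  hsolid hp B X.NB X.G hN hN' hκ (fun k _ => CF_pos F (x k)) hδ hδ1 Dm htol
    (fun _ => le_rfl) hq hk hqk

end Vale.Agent.P073.H73
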