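import Vale.Agent.P073.St

/-!
# P073: averaging of the centre of a radial expansion, exponent below three

`Avg.exists_center`: for finitely many finite measures `μ i` there is a centre `c` in the half cube,
outside of a given small set, with `∫ (s / |y - c|) ^ p dμ i ≤ C μ i (cube)`.
-/

namespace Vale.Agent.P073.H73.Avg

open MeasureTheory Set Filter Topology Metric Vale.Agent.P073.St
open scoped ENNReal

/-- the weight `(s / |y - c|) ^ p` (equal to `⊤` at `y = c`, if `p > 0`) -/
noncomputable def wt (p s : ℝ) (c y : V) : ℝ≥0∞ := (ENNReal.ofReal s / edist y c) ^ p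

theorem volume_closedBall (x : V) {r : ℝ} (hr : 0 ≤ r) :
    volume (closedBall x r) = ENNReal.ofReal (8 * r ^ 3) := by
  rw [Real.volume_pi_closedBall x hr]
  congr 1
  rw [Fintype.card_fin]
  ring

theorem measurable_wt (p s : ℝ) : Measurable fun q : V × V => wt p s q.1 q.2 := by
  unfold wt
  exact (measurable_const.div (measurable_snd.edist measurable_fst)).pow_const p

/-- the shells -/
theorem shell {s : ℝ} {z : V} (hz : z ≠ 0) (hz2 : ‖z‖ ≤ 2 * s) :
    ∃ k : ℕ, ‖z‖ ≤ 2 * s / 2 ^ k ∧ s / ‖z‖ ≤ 2 ^ k := by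
  have hz0 : 0 < ‖z‖ := norm_pos_iff.2 hz
  have h1 : 1 ≤ 2 * s / ‖z‖ := by rw [le_div_iff₀ hz0]; linarith
  obtain ⟨k, hk1, hk2⟩ := exists_nat_pow_near h1 (by norm_num : (1:ℝ) < 2)
  refine ⟨k, ?_, ?_⟩
  · rw [le_div_iff₀ (by positivity)]
    rw [le_div_iff₀ hz0] at hk1
    linarith
  · have h2 : 2 * s / ‖z‖ = 2 * (s / ‖z‖) := by ring
    rw [pow_succ] at hk2
    linarith

/-- the integral over the centre -/
theorem int_center {p : ℝ} (hp0 : 0 ≤ p) (hp3 : p < 3) : ∃ C : ℝ≥0∞, C ≠ ⊤ ∧
    ∀ (s : ℝ) (x y : V), 0 < s → y ∈ closedBall x s →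
      ∫⁻ c in closedBall x s, wt p s c y ≤ C * volume (closedBall x s) := by
  -- the constant
  set a : ℝ≥0∞ := ENNReal.ofReal (2 ^ (p - 3)) with ha
  have ha1 : a < 1 := by
    rw [ha, ← ENNReal.ofReal_one]
    refine (ENNReal.ofReal_lt_ofReal_iff one_pos).2 ?_
    exact Real.rpow_lt_one_of_one_lt_of_neg (by norm_num) (by linarith)
  refine ⟨8 * (1 - a)⁻¹, ?_, ?_⟩
  · refine ENNReal.mul_ne_top (by norm_num) (ENNReal.inv_ne_top.2 ?_)
    exact (tsub_pos_of_lt ha1).ne'
  intro s x y hs hy
  set A : ℕ → Set V := fun k => closedBall y (2 * s / 2 ^ k) with hA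
  have hcov : ∀ᵐ c ∂(volume.restrict (closedBall x s)),
      wt p s c y ≤ ∑' k, (A k).indicator (fun _ => ENNReal.ofReal ((2 ^ k) ^ p)) c := by
    have hne : ∀ᵐ c ∂(volume.restrict (closedBall x s)), c ≠ y := by
      refine ae_restrict_of_ae ?_
      exact measure_eq_zero_iff_ae_notMem.1 (measure_singleton y)
    filter_upwards [hne, ae_restrict_mem isClosed_closedBall.measurableSet] with c hc hcx
    have hz : c - y ≠ 0 := sub_ne_zero.2 hc
    have hz2 : ‖c - y‖ ≤ 2 * s := by
      rw [mem_closedBall, dist_eq_norm] at hcx hy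
      have := norm_sub_le_norm_sub_add_norm_sub c x y
      rw [norm_sub_rev x y] at this
      linarith
    obtain ⟨k, hk1, hk2⟩ := shell hz hz2
    have hcA : c ∈ A k := by
      simp only [hA, mem_closedBall, dist_eq_norm]
      exact hk1
    refine le_trans ?_ (ENNReal.le_tsum k)
    rw [indicator_of_mem hcA]
    unfold wt
    have hz0 : 0 < ‖c - y‖ := norm_pos_iff.2 hz
    have e1 : edist y c = ENNReal.ofReal ‖c - y‖ := by
      rw [edist_comm, edist_dist, dist_eq_norm]
    rw [e1, ← ENNReal.ofReal_div_of_pos hz0, ENNReal.ofReal_rpow_of_nonneg (by positivity) hp0]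
    exact ENNReal.ofReal_le_ofReal (Real.rpow_le_rpow (by positivity) hk2 hp0)
  calc ∫⁻ c in closedBall x s, wt p s c y
      ≤ ∫⁻ c in closedBall x s,
          ∑' k, (A k).indicator (fun _ => ENNReal.ofReal ((2 ^ k) ^ p)) c :=
        lintegral_mono_ae hcov
    _ = ∑' k, ∫⁻ c in closedBall x s,
          (A k).indicator (fun _ => ENNReal.ofReal ((2 ^ k) ^ p)) c := by
        refine lintegral_tsum fun k => ?_
        exact (measurable_const.indicator isClosed_closedBall.measurableSet).aemeasurable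
    _ ≤ ∑' k, ENNReal.ofReal (64 * s ^ 3) * a ^ k := by
        refine ENNReal.tsum_le_tsum fun k => ?_
        calc ∫⁻ c in closedBall x s,
              (A k).indicator (fun _ => ENNReal.ofReal ((2 ^ k) ^ p)) c
            ≤ ∫⁻ c, (A k).indicator (fun _ => ENNReal.ofReal ((2 ^ k) ^ p)) c :=
              setLIntegral_le_lintegral _ _
          _ = ENNReal.ofReal ((2 ^ k) ^ p) * volume (A k) := by
              rw [lintegral_indicator isClosed_closedBall.measurableSet, setLIntegral_const]
          _ = ENNReal.ofReal (64 * s ^ 3) * a ^ k := by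
              rw [hA, volume_closedBall y (by positivity), ha,
                ← ENNReal.ofReal_pow (by positivity), ← ENNReal.ofReal_mul (by positivity),
                ← ENNReal.ofReal_mul (by positivity)]
              congr 1
              have e2 : ((2:ℝ) ^ k) ^ p = (2 ^ p) ^ k := by
                rw [← Real.rpow_natCast, ← Real.rpow_natCast, ← Real.rpow_mul (by norm_num),
                  ← Real.rpow_mul (by norm_num), mul_comm]
              have e3 : ((2:ℝ) ^ (p - 3)) ^ k = (2 ^ p) ^ k / 8 ^ k := by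
                rw [← div_pow]
                congr 1
                rw [Real.rpow_sub (by norm_num)]
                norm_num
              rw [e2, e3, div_pow, mul_pow, ← pow_mul, mul_comm k 3, pow_mul]
              norm_num
              ring
    _ = 8 * (1 - a)⁻¹ * volume (closedBall x s) := by
        rw [ENNReal.tsum_mul_left, ENNReal.tsum_geometric, volume_closedBall x hs.le,
          show (8 : ℝ≥0∞) = ENNReal.ofReal 8 by simp, mul_right_comm,
          ← ENNReal.ofReal_mul (by norm_num)]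
        congr 2
        ring

/-- Few centres are bad. -/
theorem volume_bad {p : ℝ} (hp0 : 0 ≤ p) (hp3 : p < 3) : ∃ C : ℝ≥0∞, C ≠ ⊤ ∧ C ≠ 0 ∧
    ∀ (s : ℝ) (x : V) (μ : Measure V) (t : ℝ≥0∞), SFinite μ → 0 < s → t ≠ 0 → t ≠ ⊤ →
      μ (closedBall x s) ≠ ⊤ →
      volume {c | c ∈ closedBall x s ∧
        C * t⁻¹ * μ (closedBall x s) < ∫⁻ y in closedBall x s, wt p s c y ∂μ} ≤
          t * volume (closedBall x s) := by
  obtain ⟨C, hC, hint⟩ := int_center hp0 hp3
  refine ⟨C + 1, ENNReal.add_ne_top.2 ⟨hC, ENNReal.one_ne_top⟩, by simp, ?_⟩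
  intro s x μ t _ hs ht ht' hμ
  set B := closedBall x s with hB
  have hBm : MeasurableSet B := isClosed_closedBall.measurableSet
  have hBv : volume B ≠ ⊤ := by
    rw [hB, volume_closedBall x hs.le]
    exact ENNReal.ofReal_ne_top
  set Φ : V → ℝ≥0∞ := fun c => ∫⁻ y in B, wt p s c y ∂μ with hΦ
  have hΦm : Measurable Φ := (measurable_wt p s).lintegral_prod_right'
  -- Tonelli
  have htot : ∫⁻ c in B, Φ c ≤ (C * volume B) * μ B := by
    calc ∫⁻ c in B, Φ c = ∫⁻ y in B, (∫⁻ c in B, wt p s c y) ∂μ := by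
          rw [hΦ]
          exact lintegral_lintegral_swap (measurable_wt p s).aemeasurable
      _ ≤ ∫⁻ _ in B, C * volume B ∂μ := by
          refine setLIntegral_mono' hBm fun y hy => hint s x y hs hy
      _ = (C * volume B) * μ B := setLIntegral_const _ _
  rcases eq_or_ne (μ B) 0 with h0 | h0
  · -- the measure vanishes: the integral vanishes
    have : {c | c ∈ B ∧ (C + 1) * t⁻¹ * μ B < Φ c} = ∅ := by
      ext c
      simp only [mem_ofPred_eq, mem_empty_iff_false, iff_false, not_and, not_lt]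
      intro _
      have h1 : Φ c = 0 := by
        rw [hΦ]
        exact setLIntegral_measure_zero _ _ h0
      rw [h1]
      exact zero_le
    rw [this, measure_empty]
    exact zero_le
  · set L : ℝ≥0∞ := (C + 1) * t⁻¹ * μ B with hL
    have hL0 : L ≠ 0 := by
      rw [hL]
      exact mul_ne_zero (mul_ne_zero (by simp) (ENNReal.inv_ne_zero.2 ht')) h0
    have hLt : L ≠ ⊤ := by
      rw [hL]
      exact ENNReal.mul_ne_top (ENNReal.mul_ne_top (ENNReal.add_ne_top.2
        ⟨hC, ENNReal.one_ne_top⟩) (ENNReal.inv_ne_top.2 ht)) hμ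
    have h1 : L * volume {c | c ∈ B ∧ L < Φ c} ≤ (C * volume B) * μ B := by
      refine le_trans ?_ htot
      have h2 := mul_meas_ge_le_lintegral (μ := volume.restrict B) hΦm L
      refine le_trans (mul_le_mul' le_rfl ?_) h2
      rw [Measure.restrict_apply' hBm]
      refine measure_mono ?_
      rintro c ⟨hc, hc'⟩
      exact ⟨hc'.le, hc⟩
    have h3 : volume {c | c ∈ B ∧ L < Φ c} ≤ (C * volume B) * μ B / L := by
      rw [ENNReal.le_div_iff_mul_le (Or.inl hL0) (Or.inl hLt), mul_comm]
      exact h1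
    refine h3.trans ?_
    rw [ENNReal.div_le_iff hL0 hLt, hL]
    calc C * volume B * μ B ≤ (C + 1) * volume B * μ B := by gcongr; exact le_self_add
      _ = (t * t⁻¹) * ((C + 1) * volume B * μ B) := by
          rw [ENNReal.mul_inv_cancel ht ht', one_mul]
      _ = t * volume B * ((C + 1) * t⁻¹ * μ B) := by ring

/-- **Averaging.** For `n` measures there is a centre `c` in the half cube, outside of a set `E` of
small volume, which is good for all of them. -/
theorem exists_center {p : ℝ} (hp0 : 0 ≤ p) (hp3 : p < 3) : ∃ C : ℝ≥0∞, C ≠ ⊤ ∧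
    ∀ (s : ℝ) (x : V) (n : ℕ) (μ : Fin n → Measure V) (E : Set V), (∀ i, SFinite (μ i)) → 0 < s →
      (∀ i, μ i (closedBall x s) ≠ ⊤) → volume (E ∩ closedBall x (s / 2)) ≤
        ENNReal.ofReal (s ^ 3 / 2) →
      ∃ c ∈ closedBall x (s / 2), c ∉ E ∧ ∀ i,
        ∫⁻ y in closedBall x s, wt p s c y ∂(μ i) ≤ C * n * μ i (closedBall x s) := by
  obtain ⟨C, hC, hC0, hbad⟩ := volume_bad hp0 hp3
  refine ⟨C * 32, ENNReal.mul_ne_top hC (by norm_num), ?_⟩
  intro s x n μ E hμs hs hμ hE
  by_contra hcon
  push Not at hcon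
  rcases Nat.eq_zero_or_pos n with hn | hn
  · subst hn
    -- every centre outside of `E` is good
    have h1 : closedBall x (s / 2) ⊆ E ∩ closedBall x (s / 2) := by
      intro c hc
      refine ⟨?_, hc⟩
      by_contra hcE
      obtain ⟨i, -⟩ := hcon c hc hcE
      exact i.elim0
    have h2 := (measure_mono h1).trans hE
    rw [volume_closedBall x (by positivity)] at h2
    have h3 := (ENNReal.ofReal_le_ofReal_iff (by positivity)).1 h2
    have h4 : 0 < s ^ 3 := by positivity
    nlinarith
  · have hn0 : (n : ℝ≥0∞) ≠ 0 := by exact_mod_cast hn.ne'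
    set t : ℝ≥0∞ := (32 * n)⁻¹ with ht
    have ht0 : t ≠ 0 := ENNReal.inv_ne_zero.2 (ENNReal.mul_ne_top (by norm_num)
      (ENNReal.natCast_ne_top n))
    have htt : t ≠ ⊤ := ENNReal.inv_ne_top.2 (mul_ne_zero (by norm_num) hn0)
    have htinv : t⁻¹ = 32 * n := by rw [ht, inv_inv]
    have hcov : closedBall x (s / 2) ⊆ (E ∩ closedBall x (s / 2)) ∪
        ⋃ i, {c | c ∈ closedBall x s ∧
          C * t⁻¹ * μ i (closedBall x s) < ∫⁻ y in closedBall x s, wt p s c y ∂(μ i)} := by
      intro c hc
      by_cases hcE : c ∈ E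
      · exact Or.inl ⟨hcE, hc⟩
      · obtain ⟨i, hi⟩ := hcon c hc hcE
        refine Or.inr (mem_iUnion.2 ⟨i, closedBall_subset_closedBall (by linarith) hc, ?_⟩)
        rw [htinv, ← mul_assoc]
        exact hi
    have h1 : volume (closedBall x (s / 2)) ≤
        ENNReal.ofReal (s ^ 3 / 2) + n * (t * volume (closedBall x s)) := by
      refine (measure_mono hcov).trans ((measure_union_le _ _).trans (add_le_add hE ?_))
      refine (measure_iUnion_le _).trans ?_
      rw [tsum_fintype]
      calc ∑ i, volume {c | c ∈ closedBall x s ∧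
            C * t⁻¹ * μ i (closedBall x s) < ∫⁻ y in closedBall x s, wt p s c y ∂(μ i)}
          ≤ ∑ _i : Fin n, t * volume (closedBall x s) :=
            Finset.sum_le_sum fun i _ => hbad s x (μ i) t (hμs i) hs ht0 htt (hμ i)
        _ = n * (t * volume (closedBall x s)) := by
            rw [Finset.sum_const, Finset.card_univ, Fintype.card_fin, nsmul_eq_mul]
    have h2 : (n : ℝ≥0∞) * (t * volume (closedBall x s)) = ENNReal.ofReal (s ^ 3 / 4) := by
      have h3 : (n : ℝ≥0∞) * t = 32⁻¹ := by
        rw [ht, ENNReal.mul_inv (Or.inl (by norm_num)) (Or.inl (by norm_num)), mul_left_comm,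
          ENNReal.mul_inv_cancel hn0 (ENNReal.natCast_ne_top n), mul_one]
      rw [← mul_assoc, h3, volume_closedBall x hs.le,
        show (32 : ℝ≥0∞)⁻¹ = ENNReal.ofReal (1 / 32) by
          rw [one_div, ENNReal.ofReal_inv_of_pos (by norm_num)]; simp,
        ← ENNReal.ofReal_mul (by norm_num)]
      congr 1
      ring
    rw [h2, volume_closedBall x (by positivity), ← ENNReal.ofReal_add (by positivity)
      (by positivity)] at h1
    have h3 := (ENNReal.ofReal_le_ofReal_iff (by positivity)).1 h1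
    have h4 : 0 < s ^ 3 := by positivity
    nlinarith

end Vale.Agent.P073.H73.Avg
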