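import Vale.Agent.P073.H73.MidAsm
import Vale.Agent.P073.H253.R1Parts

/-!
# P073, rank one, [POST-BEAM]: `SpecPostBeam` from `SpecLineOK` and `SpecPlaneSum`
-/

namespace Vale.Agent.P073.H73

open MeasureTheory Set Filter Topology Metric Vale.Agent.P073.St Vale.Agent.P073.AB
open Vale.Agent.P073.AB.P86
open Vale.Agent.P073.SQ (ev cube Cells)
open Vale.Agent.P073.LOC (BdClose Q1)
open Vale.Agent.P073.H235
open Vale.Agent.P073.H253
open Vale.Agent.P073.H239 (Deep)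
open _root_.P073 (ConHomeo)
open _root_.P073.Net (dyc dyo IsTile SizeFn)
open scoped ENNReal

/-- the dyadic cube of generation `m` which contains the point -/
theorem exists_mem_dyc (m : ℕ) (y : V) : ∃ z : Fin 3 → ℤ, y ∈ dyc 0 m z := by
  refine ⟨fun i => ⌊y i * 2 ^ m⌋, fun i => ?_⟩
  have hp : (0:ℝ) < 2 ^ m := by positivity
  have h1 := Int.floor_le (y i * 2 ^ m)
  have h2 := (Int.lt_floor_add_one (y i * 2 ^ m)).le
  simp only [Pi.zero_apply, zero_add]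
  exact ⟨(div_le_iff₀ hp).2 h1, (le_div_iff₀ hp).2 h2⟩

/-- distance of a point of a tile to its centre -/
theorem dist_centre {ρ : V → ℝ} {c : ℕ → (Fin 3 → ℤ) → V}
    (hc : ∀ m z, IsTile ρ 0 m z → ‖c m z - ctr 0 m z‖ ≤ 1 / 4 / 2 ^ m) {m : ℕ} {z : Fin 3 → ℤ}
    (hz : IsTile ρ 0 m z) {y : V} (hy : y ∈ dyc 0 m z) : ‖y - c m z‖ ≤ 1 / 2 ^ m := by
  have hp : (0:ℝ) < 1 / 2 ^ m := by positivity
  have h1 : ‖y - ctr 0 m z‖ ≤ 1 / 2 * (1 / 2 ^ m) := by
    rw [pi_norm_le_iff_of_nonneg (by positivity)]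
    intro i
    have h2 := hy i
    rw [P86.div_add_one] at h2
    have h3 : ctr 0 m z i = (0 : V) i + (z i : ℝ) / 2 ^ m + 1 / 2 * (1 / 2 ^ m) := by
      simp only [ctr]; ring
    rw [Pi.sub_apply, h3, Real.norm_eq_abs, abs_le]
    constructor <;> linarith [h2.1, h2.2]
  have h2 := hc m z hz
  have h3 : (1:ℝ) / 4 / 2 ^ m = 1 / 4 * (1 / 2 ^ m) := by ring
  rw [h3, norm_sub_rev] at h2
  have h4 := norm_sub_le_norm_sub_add_norm_sub y (ctr 0 m z) (c m z)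
  linarith

/-- `Deep`, from the position of the image -/
theorem deep_of {c δ : ℝ} {ρ : V → ℝ} {A : Finset (Fin 3)} {m : ℕ} {z : Fin 3 → ℤ} {S : Set V}
    (hδ : δ ≤ 1) (hc : 0 ≤ c) {y₀ : V} (hy₀ : y₀ ∈ S)
    (htile : ∀ z' : Fin 3 → ℤ, (∃ y ∈ dyc 0 m z', ‖y₀ - y‖ ≤ 4 / 2 ^ m) → IsTile ρ 0 m z')
    (hnear : ∀ y ∈ S, ∀ j ∉ A, |y j - z j / 2 ^ m| ≤ δ / 2 ^ m)
    (hmid : ∀ y ∈ S, ∀ j ∈ A, (z j + c) / 2 ^ m ≤ y j ∧ y j ≤ (z j + 1 - c) / 2 ^ m) :
    Deep c δ 0 ρ univ A m z S where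
  tile := by
    intro z' hz'
    have hp : (0:ℝ) < 1 / 2 ^ m := by positivity
    refine htile z' ⟨fun j => z' j / 2 ^ m, fun j => ?_, ?_⟩
    · simp only [Pi.zero_apply, zero_add]
      refine ⟨le_rfl, ?_⟩
      rw [P86.div_add_one]
      linarith
    · rw [pi_norm_le_iff_of_nonneg (by positivity)]
      intro j
      rw [Pi.sub_apply, Real.norm_eq_abs]
      have h1 : |y₀ j - z j / 2 ^ m| ≤ 1 * (1 / 2 ^ m) := by
        by_cases hj : j ∈ A
        · obtain ⟨h2, h3⟩ := hmid y₀ hy₀ j hj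
          have e1 : ((z j : ℝ) + c) / 2 ^ m = z j / 2 ^ m + c * (1 / 2 ^ m) := by ring
          have e2 : ((z j : ℝ) + 1 - c) / 2 ^ m = z j / 2 ^ m + (1 - c) * (1 / 2 ^ m) := by ring
          rw [e1] at h2
          rw [e2] at h3
          have e3 : 0 ≤ c * (1 / 2 ^ m) := by positivity
          have e4 : (1 - c) * (1 / 2 ^ m) ≤ 1 * (1 / 2 ^ m) := by gcongr; linarith
          rw [abs_le]
          constructor <;> linarith
        · have h2 := hnear y₀ hy₀ j hj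
          have e1 : δ / 2 ^ m ≤ 1 * (1 / 2 ^ m) := by
            rw [div_eq_mul_one_div]
            gcongr
          exact h2.trans e1
      obtain ⟨h2, h3⟩ := hz' j
      have h4 : |(z j : ℝ) / 2 ^ m - z' j / 2 ^ m| ≤ 2 * (1 / 2 ^ m) := by
        have e1 : (z j : ℝ) / 2 ^ m - z' j / 2 ^ m = (z j - z' j) * (1 / 2 ^ m) := by ring
        rw [e1, abs_mul, abs_of_pos hp]
        gcongr
        rw [abs_le]
        have h5 : ((z j : ℤ) : ℝ) - 2 ≤ z' j := by exact_mod_cast h2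
        have h6 : ((z' j : ℤ) : ℝ) ≤ z j + 1 := by exact_mod_cast h3
        constructor <;> linarith
      have h5 := abs_sub_le (y₀ j) (z j / 2 ^ m : ℝ) (z' j / 2 ^ m)
      have e4 : (4:ℝ) / 2 ^ m = 4 * (1 / 2 ^ m) := by ring
      rw [e4]
      linarith
  act := fun _ _ _ => mem_univ _
  near := by
    intro y hy j hj
    have := hnear y hy j hj
    simpa using this
  mid := by
    intro y hy j hj
    have := hmid y hy j hj
    simpa using this

section box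

variable {δ : ℝ} {U Λ : Set V} {fc : V → V} (P : BoxData δ U Λ fc)

/-- the image of a minimal square in a tile of generation `m` is small -/
theorem boxData_osc {s : Idx × Fin 3} (hs : MinSq P.v P.I s) {x y : V} (hx : x ∈ squ P.v s)
    (hy : y ∈ squ P.v s) (hδ : 0 ≤ δ) {m : ℕ}
    (htile : ∀ z : Fin 3 → ℤ, (∃ y ∈ dyc 0 m z, ‖P.h.toFun x - y‖ ≤ 4 / 2 ^ m) →
      IsTile P.ρ 0 m z) : ‖P.h.toFun x - P.h.toFun y‖ ≤ δ / 2 ^ m := by
  obtain ⟨z, hz⟩ := exists_mem_dyc m (P.h.toFun x)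
  have ht := htile z ⟨_, hz, by rw [sub_self, norm_zero]; positivity⟩
  refine ((P.cond s hs x hx m z ht hz).2 y hy).trans ?_
  rw [div_eq_mul_one_div]
  gcongr
  exact dist_centre P.cmem ht hz

/-- a minimal edge is contained in a minimal square -/
theorem exists_minSq_of_minEdge {Ω : Set V} {v : V} {I : Set Idx} (hΩ : IsOpen Ω)
    (hI : Part Ω v I) {e : Idx × Fin 3} (he : MinEdge v I e) :
    ∃ s, MinSq v I s ∧ edge v e ⊆ squ v s := by
  obtain ⟨k, hk⟩ := (isEdge_segP hΩ hI he).sub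
  exact ⟨k.1, k.2, hk.trans (intrinsicFrontier_subset ((H194.partMesh hΩ hI).isClosed_face k))⟩

end box

theorem eSum_empty {p : ℝ} {v : V} {I : Set Idx} {ℓ : Idx × Fin 3 → ℝ≥0∞} :
    eSum p v I ℓ (⋃ s ∈ (∅ : Set (Idx × Fin 3)), squ v s) = 0 := by
  rw [eSum_eq]
  have : IsEmpty {i : Idx // i ∈ I ∧
      (dyc v i.1 i.2 ∩ ⋃ s ∈ (∅ : Set (Idx × Fin 3)), squ v s).Nonempty} :=
    ⟨fun i => by obtain ⟨x, -, hx⟩ := i.2.2; simp at hx⟩
  exact tsum_empty

theorem bm_pos {θ₁ θ₂ : ℝ} (h₁ : 0 < θ₁) (h₂ : 0 < θ₂) : ∀ i, 0 < bm θ₁ θ₂ i := by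
  intro i
  fin_cases i
  · simp [bm]
  · simpa [bm] using h₁
  · simpa [bm] using h₂

theorem P1_ev : P1 (ev 0) = ev 0 := by
  funext i
  simp [P1, ev]

section beam

variable {p C θ₁ θ₂ ν₁ ν τ ε δ : ℝ} {Λ : Set V} {f : V → V}
  (P : PreBeam p C θ₁ θ₂ ν₁ ν τ ε δ Λ f)

theorem ledge_mem {k : ℤ} (hk : k ∈ Finset.Ico (P.a 0) (P.b 0)) :
    ![k, P.a 1, P.m₂] ∈ redgeN 1 P.a P.b 0 := by
  rw [redgeN, Fintype.mem_piFinset]
  intro j
  fin_cases j
  · simpa using hk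
  · simp
  · simpa using P.m₂mem

theorem ledge_minEdge {k : ℤ} (hk : k ∈ Finset.Ico (P.a 0) (P.b 0)) :
    MinEdge P.v P.I (ledge P.nS (P.a 1) P.m₂ k) :=
  P.minE 0 (by decide) _ (ledge_mem P hk)

/-- the data on the line -/
theorem lineData (hp : 1 ≤ p) {D μ D' r c ε₀ : ℝ} {β : Idx × Fin 3 → ℝ}
    {g : ConHomeo (Bx (bm θ₁ θ₂)) Λ} (hO : BoxOut P.toBoxData p D μ D' r c ∅ β g)
    (hΩ : IsOpen (Bx (bm θ₁ θ₂))) (hD : 1 ≤ D)
    (hc : 0 < c) (hc4 : c < 1 / 4) (hδ : 0 < δ) (hδc : δ ≤ c) (hε : ε ≤ ε₀)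
    (hβ : ∀ s, 0 < β s ∧ β s ≤ ε₀ / 2 ^ s.1.1) :
    LineData p C D c ε₀ P.v P.nS P.mt (P.a 1) P.m₂ (P.a 0) (P.b 0) P.G P.h g
      (fun k => P.ℓ (ledge P.nS (P.a 1) P.m₂ k)) P.X where
  lt := P.alt 0 (by decide)
  unit := P.unit
  sub := by
    intro k hk
    obtain ⟨⟨q, hq, hqe⟩, -⟩ := ledge_minEdge P hk
    exact (edgeOf_mem hqe).trans (P.part.sub q hq)
  fine := P.fine.trans hε
  mtε := P.mtε.trans hε
  Gsub := P.Gsub
  near := P.near
  close := P.close.trans (ENNReal.ofReal_le_ofReal hε)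
  osc := by
    intro k hk x hx y hy
    obtain ⟨s, hs, hes⟩ := exists_minSq_of_minEdge hΩ P.part (ledge_minEdge P hk)
    refine (boxData_osc P.toBoxData hs (hes hx) (hes hy) hδ.le (P.tile k hk x hx)).trans ?_
    gcongr
  app := by
    intro k hk x hx
    obtain ⟨s, hs, hes⟩ := exists_minSq_of_minEdge hΩ P.part (ledge_minEdge P hk)
    obtain ⟨z, hz⟩ := exists_mem_dyc P.mt (P.h.toFun x)
    exact hO.close s hs x (hes hx) P.mt z
      (P.tile k hk x hx z ⟨_, hz, by rw [sub_self, norm_zero]; positivity⟩) hz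
  tv := by
    rintro k hk ⟨z, hz⟩
    obtain ⟨t, ht⟩ := P.tube k hk
    have hkI := P.Gsub hk
    have hne : (segP P.v (ledge P.nS (P.a 1) P.m₂ k)).1 ∈
        edge P.v (ledge P.nS (P.a 1) P.m₂ k) := left_mem_segment ℝ _ _
    have hdeep : Deep c δ 0 P.ρ univ {0} P.mt (Function.update t 0 z)
        (P.h.toFun '' edge P.v (ledge P.nS (P.a 1) P.m₂ k)) := by
      refine deep_of (by linarith) hc.le (mem_image_of_mem _ hne) (P.tile k hkI _ hne) ?_ ?_
      · rintro _ ⟨x, hx, rfl⟩ j hj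
        have hj0 : j ≠ 0 := by simpa using hj
        rw [Function.update_of_ne hj0]
        exact ht x hx j hj0
      · rintro _ ⟨x, hx, rfl⟩ j hj
        have hj0 : j = 0 := by simpa using hj
        subst hj0
        rw [Function.update_self]
        exact hz x hx
    refine (hO.tv _ (ledge_minEdge P hkI) {0} (Finset.singleton_nonempty _) (by decide) P.mt _
      hdeep).trans ?_
    gcongr
    exact (hβ _).2
  elip := by
    intro k hk htop x hx y hy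
    obtain ⟨s, hs, hes⟩ := exists_minSq_of_minEdge hΩ P.part (ledge_minEdge P hk)
    have h1 := hO.elip s hs _ (ledge_minEdge P hk) hes htop x hx y hy
    have h2 : ¬ meetY P.v ∅ (squ P.v s) := by
      rintro ⟨s', hs', -⟩
      exact absurd hs' (notMem_empty _)
    rw [if_neg h2] at h1
    refine h1.trans ?_
    have h3 := (hβ (ledge P.nS (P.a 1) P.m₂ k)).2
    have h4 : 0 ≤ (P.ℓ (ledge P.nS (P.a 1) P.m₂ k)).toReal := ENNReal.toReal_nonneg
    have h5 := (hβ (ledge P.nS (P.a 1) P.m₂ k)).1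
    have h6 : (0:ℝ) ≤ D := by linarith
    have h7 : (ledge P.nS (P.a 1) P.m₂ k).1.1 = P.nS := rfl
    rw [h7] at h3 ⊢
    gcongr
  bad := P.bad.trans (ENNReal.ofReal_le_ofReal hε)
  good := P.good

end beam

end Vale.Agent.P073.H73
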