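import Vale.Agent.P073.H73.BeamAsm
import Vale.Agent.P073.AB.Sum308b

/-!
# P073, rank one, [POST-BEAM]: choice of the constants and assembly of `SpecPostBeam`
-/

namespace Vale.Agent.P073.H73

open MeasureTheory Set Filter Topology Metric Vale.Agent.P073.St Vale.Agent.P073.AB
open Vale.Agent.P073.AB.P86
open Vale.Agent.P073.SQ (ev cube Cells)
open Vale.Agent.P073.LOC (BdClose Q1)
open Vale.Agent.P073.H235
open Vale.Agent.P073.H253
open Vale.Agent.P073.H239 (Deep)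
open _root_.P073 (ConHomeo)
open _root_.P073.Net (dyc dyo IsTile SizeFn)
open scoped ENNReal

section beam

variable {p C θ₁ θ₂ ν₁ ν τ ε δ : ℝ} {Λ : Set V} {f : V → V}
  (P : PreBeam p C θ₁ θ₂ ν₁ ν τ ε δ Λ f)

/-- the corners of the core rectangle -/
theorem rectN_mem {k : Fin 3 → ℤ} (h0 : k 0 ∈ Ico (P.a 0) (P.b 0)) (h1 : k 1 = P.a 1)
    (h2 : k 2 ∈ Ico (P.a 2) (P.b 2)) : k ∈ rectN 1 P.a P.b := by
  rw [rectN, Fintype.mem_piFinset]
  intro j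
  fin_cases j
  · simpa using h0
  · simpa using h1
  · simpa using h2

/-- the squares of the plane are in the beam -/
theorem squ_sub {k : Fin 3 → ℤ} (hk : k ∈ rectN 1 P.a P.b) :
    squ P.v ((P.nS, k), 1) ⊆ Bx (bm θ₁ θ₂) := by
  obtain ⟨⟨q, hq, hqf⟩, -⟩ := P.minS k hk
  exact (AB.S308.squ_sub_of_face hqf).trans (P.part.sub q hq)

/-- the lengths of the sides of the core rectangle -/
theorem side_le_one (hθ : θ₂ ≤ 1 / 4) (j : Fin 3) (hj : j ≠ 1) :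
    (P.b j - P.a j : ℝ) / 2 ^ P.nS ≤ 1 := by
  have hp : (0:ℝ) < 2 ^ P.nS := by positivity
  fin_cases j
  · exact P.unit
  · exact absurd rfl hj
  · have h0 := P.alt 0 (by decide)
    have h2 := P.alt 2 (by decide)
    have m1 := squ_sub P (k := ![P.a 0, P.a 1, P.a 2]) (rectN_mem P ⟨le_rfl, h0⟩ rfl ⟨le_rfl, h2⟩)
    have m2 := squ_sub P (k := ![P.a 0, P.a 1, P.b 2 - 1])
      (rectN_mem P ⟨le_rfl, h0⟩ rfl ⟨by simp; omega, by simp⟩)
    have q1 : (fun j => P.v j + (![P.a 0, P.a 1, P.a 2] j : ℤ) / 2 ^ P.nS : V) ∈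
        squ P.v ((P.nS, ![P.a 0, P.a 1, P.a 2]), 1) := by
      refine ⟨rfl, fun k _ => ⟨le_rfl, ?_⟩⟩
      simp only
      gcongr
      linarith
    have q2 : (fun j => P.v j + ((![P.a 0, P.a 1, P.b 2 - 1] j : ℤ) + (if j = 1 then 0 else 1)) /
        2 ^ P.nS : V) ∈ squ P.v ((P.nS, ![P.a 0, P.a 1, P.b 2 - 1]), 1) := by
      refine ⟨by simp, fun k hk => ?_⟩
      simp only at hk ⊢
      rw [if_neg hk]
      refine ⟨?_, le_rfl⟩
      gcongr
      linarith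
    have r1 := (m1 q1 2).1
    have r2 := (m2 q2 2).2
    simp [bm] at r1 r2
    show ((P.b 2 : ℝ) - P.a 2) / 2 ^ P.nS ≤ 1
    rw [sub_div]
    linarith

/-- points of the core -/
theorem core_mem (hθ : 0 < θ₂) (hν₁ : 0 < ν₁) (hν : ν₁ ≤ ν / 4) (hν4 : ν ≤ 1 / 4) {u : ℝ}
    (hu : ν₁ / 8 ≤ u) (hu' : u ≤ 1 - ν₁ / 8) :
    (![u, 1 / 2, θ₂] : V) ∈ Bx (fl θ₂) ∩ Co (fl θ₂) (ν₁ / 2) {0, 2} := by
  refine ⟨fun i => ?_, fun i hi => ?_⟩
  · fin_cases i
    · simp [fl]; constructor <;> linarith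
    · simp [fl]; norm_num
    · simp [fl]; constructor <;> linarith
  · simp only [Finset.mem_insert, Finset.mem_singleton] at hi
    rcases hi with rfl | rfl
    · simp [fl]; constructor <;> linarith
    · simp [fl]; constructor <;> nlinarith

/-- the left end of the line -/
theorem left_end (hθ : 0 < θ₂) (hν₁ : 0 < ν₁) (hν : ν₁ ≤ ν / 4) (hν4 : ν ≤ 1 / 4) :
    P.v 0 + P.a 0 / 2 ^ P.nS ≤ ν / 8 := by
  have hp : (0:ℝ) < 2 ^ P.nS := by positivity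
  obtain ⟨k, hk, hx⟩ := P.cov _ (core_mem hθ hν₁ hν hν4 (u := ν₁ / 8) le_rfl (by linarith))
  have h1 := (hx.2 0 (by simp)).1
  have h2 := (Fintype.mem_piFinset.1 hk) 0
  simp at h1 h2
  have h3 : (P.a 0 : ℝ) ≤ k 0 := by exact_mod_cast h2.1
  have h4 : (P.a 0 : ℝ) / 2 ^ P.nS ≤ k 0 / 2 ^ P.nS := by gcongr
  linarith

/-- the right end of the line -/
theorem right_end (hθ : 0 < θ₂) (hν₁ : 0 < ν₁) (hν : ν₁ ≤ ν / 4) (hν4 : ν ≤ 1 / 4) :
    1 - ν / 8 ≤ P.v 0 + P.b 0 / 2 ^ P.nS := by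
  have hp : (0:ℝ) < 2 ^ P.nS := by positivity
  obtain ⟨k, hk, hx⟩ := P.cov _ (core_mem hθ hν₁ hν hν4 (u := 1 - ν₁ / 8) (by linarith) le_rfl)
  have h1 := (hx.2 0 (by simp)).2
  have h2 := (Fintype.mem_piFinset.1 hk) 0
  simp at h1 h2
  have h3 : (k 0 : ℝ) + 1 ≤ P.b 0 := by exact_mod_cast h2.2
  have h4 : ((k 0 : ℝ) + 1) / 2 ^ P.nS ≤ P.b 0 / 2 ^ P.nS := by gcongr
  linarith

/-- the edges of the squares which meet the frame -/
theorem frame_edges (hfine : 1 / 2 ^ P.nS ≤ ν) {i : Fin 3} {k k' : Fin 3 → ℤ}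
    (hk' : P.v 0 + k' 0 / 2 ^ P.nS ≤ 3 * ν ∨ 1 - 3 * ν ≤ P.v 0 + (k' 0 + 1) / 2 ^ P.nS)
    (he : EdgeOfSq ((P.nS, k), i) ((P.nS, k'), 1)) :
    P.v 0 + k 0 / 2 ^ P.nS ≤ 4 * ν ∨ 1 - 4 * ν ≤ P.v 0 + k 0 / 2 ^ P.nS := by
  have hp : (0:ℝ) < 1 / 2 ^ P.nS := by positivity
  have h1 : (k' 0 : ℝ) / 2 ^ P.nS ≤ k 0 / 2 ^ P.nS ∧
      (k 0 : ℝ) / 2 ^ P.nS ≤ k' 0 / 2 ^ P.nS + 1 / 2 ^ P.nS := by
    have h2 : k 0 = k' 0 ∨ k 0 = k' 0 + 1 := by
      by_cases h0 : i = 0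
      · subst h0
        exact Or.inl he.2.2.1
      · exact he.2.2.2.2 0 (fun h => h0 h.symm) (by simp)
    rcases h2 with h2 | h2
    · rw [h2]
      exact ⟨le_rfl, by linarith⟩
    · rw [h2]
      push_cast
      rw [add_div]
      exact ⟨by linarith, le_rfl⟩
  rcases hk' with h3 | h3
  · left; linarith [h1.2]
  · right
    rw [add_div] at h3
    linarith [h1.1]

/-- sum of a bounded term and a small one -/
theorem bound_aux {x : ℝ≥0∞} {A b e : ℝ} (hA : 0 ≤ A) (hb : 0 ≤ b) (he : 0 ≤ e)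
    (h : x ≤ ENNReal.ofReal b) :
    ENNReal.ofReal A * x + ENNReal.ofReal e ≤ ENNReal.ofReal (A * b + e) := by
  calc ENNReal.ofReal A * x + ENNReal.ofReal e
      ≤ ENNReal.ofReal A * ENNReal.ofReal b + ENNReal.ofReal e := by gcongr
    _ = _ := by
      rw [← ENNReal.ofReal_mul hA, ← ENNReal.ofReal_add (by positivity) he]

end beam

/-- **[POST-BEAM]** -/
theorem specPostBeam_of {p : ℝ} (hp : 2 ≤ p) (hL : SpecLineOK) (hS : SpecPlaneSum) :
    SpecPostBeam p := by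
  classical
  intro hK
  have hp1 : 1 ≤ p := by linarith
  obtain ⟨D, hD, hBP⟩ := specBoxPost (by linarith : 0 ≤ p) hK
  obtain ⟨K, hK0, hBS⟩ := specBoxSum p hp1
  obtain ⟨K₂, hK₂, hS⟩ := hS p hp1
  obtain ⟨D', hDD, r, hr, hr1, hBP⟩ := hBP 1 one_pos
  have hD0 : 0 < D := by linarith
  have hD'0 : 0 < D' := by linarith
  refine ⟨K * D + K₂ * D + 1, by positivity, fun C hC ε hε => ?_⟩
  obtain ⟨M, hM, c₁, hc₁, hL⟩ := hL p C D ε hp hC hD0 hε
  refine ⟨M, hM, fun θ₁ θ₂ ν₁ ν hθ₁ hθ₁4 hθ₂ hθ₂4 hν₁ hν₁4 hν4 τ hτ => ?_⟩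
  have hν : 0 < ν := by linarith
  set c : ℝ := min c₁ (1 / 8) with hc
  have hc0 : 0 < c := lt_min hc₁ (by norm_num)
  have hc4 : c < 1 / 4 := lt_of_le_of_lt (min_le_right _ _) (by norm_num)
  obtain ⟨εL, hεL, hL⟩ := hL c hc0 (min_le_left _ _) τ hτ
  obtain ⟨δ, hδ, hδc, hBP⟩ := hBP c hc0 hc4
  refine ⟨δ, hδ, min εL ν, lt_min hεL hν, fun τ' Λ f hΛ hf hτ' hτ₁ hτ₂ P => ?_⟩
  have hb := bm_pos hθ₁ hθ₂
  have hbd := H761.isBoundedDomain_Bx hb
  set t : ℝ := C * ν₁ * θ₁ * θ₂ with ht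
  have ht0 : 0 < t := by positivity
  obtain ⟨W, hDec, hW⟩ := hBS (bm θ₁ θ₂) Λ (cmp (bm θ₁ θ₂) f) δ hb hΛ P.toBoxData
  obtain ⟨β, hβ, hW⟩ := hW t ht0
  set s₀ : ℝ := min 1 (C * ν * θ₂ / (K₂ * D)) with hs₀
  have hs₀0 : 0 < s₀ := lt_min one_pos (by positivity)
  have hs₀p : K₂ * D * s₀ ^ p ≤ C * ν * θ₂ := by
    have h1 : s₀ ^ p ≤ s₀ := by
      have := Real.rpow_le_rpow_of_exponent_ge hs₀0 (min_le_left _ _) hp1
      rwa [Real.rpow_one] at this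
    calc K₂ * D * s₀ ^ p ≤ K₂ * D * (C * ν * θ₂ / (K₂ * D)) := by
          have : s₀ ≤ C * ν * θ₂ / (K₂ * D) := min_le_right _ _
          gcongr
          exact h1.trans this
      _ = C * ν * θ₂ := by field_simp
  set β' : Idx × Fin 3 → ℝ := fun s => min (β s / D') (min (s₀ / 2 ^ s.1.1) (εL / 2 ^ s.1.1))
    with hβ'
  have hβ'0 : ∀ s, 0 < β' s := fun s =>
    lt_min (div_pos (hβ s) hD'0) (lt_min (by positivity) (by positivity))
  obtain ⟨g, hO⟩ := hBP (Bx (bm θ₁ θ₂)) Λ (cmp (bm θ₁ θ₂) f) hbd hΛ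
    (continuousOn_cmp hb hf) P.toBoxData ∅ β' hβ'0
  have hLD := lineData P hp1 hO hbd.1 hD hc0 hc4 hδ hδc (min_le_left εL ν)
    (fun s => ⟨hβ'0 s, (min_le_right _ _).trans (min_le_right _ _)⟩)
  have hfine : 1 / 2 ^ P.nS ≤ ν := P.fine.trans (min_le_right _ _)
  -- energies of the cells
  have hsum : ∀ S : Set V, ∀ b : ℝ, 0 ≤ b → t ≤ b →
      eSum p P.v P.I P.ℓ S ≤ ENNReal.ofReal b →
      enS W p g.toFun S ≤ ENNReal.ofReal ((K * D + K₂ * D + 1) * b) := by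
    intro S b hb hbb hS
    refine (hW D 1 D' r c ∅ g β' hD hDD (fun s => min_le_left _ _) hO S).trans ?_
    rw [eSum_empty, mul_zero, add_zero]
    calc ENNReal.ofReal (K * D) * eSum p P.v P.I P.ℓ S + ENNReal.ofReal t
        ≤ ENNReal.ofReal (K * D) * ENNReal.ofReal b + ENNReal.ofReal t := by gcongr
      _ = ENNReal.ofReal (K * D * b + t) := by
          rw [← ENNReal.ofReal_mul (by positivity), ← ENNReal.ofReal_add (by positivity)
            (by positivity)]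
      _ ≤ _ := by
          apply ENNReal.ofReal_le_ofReal
          have h1 : 0 ≤ K₂ * D * b := by positivity
          nlinarith
  -- energies on the plane
  have hpl := hS 1 (Bx (bm θ₁ θ₂)) Λ P.v P.I P.nS P.a P.b g P.ℓ D s₀ hD0 hs₀0.le hbd.1 P.part
    (side_le_one P hθ₂4) P.minS P.minE (by
      intro k hk
      have h1 := hO.energy _ (P.minS k hk)
      have h2 : ¬ meetY P.v ∅ (squ P.v ((P.nS, k), 1)) := by
        rintro ⟨s', hs', -⟩
        exact absurd hs' (notMem_empty _)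
      rw [if_neg h2] at h1
      refine h1.trans ?_
      gcongr with e
      exact (min_le_right _ _).trans (min_le_left _ _))
  have hAl : ∀ x ∈ Bx (fl θ₂) ∩ Co (fl θ₂) (ν₁ / 2) {0, 2}, x 1 ∈ Icc (0:ℝ) 1 := by
    intro x hx
    have := hx.1 1
    simp [fl] at this
    exact ⟨this.1.le, this.2.le⟩
  refine ⟨P.v 1 + P.a 1 / 2 ^ P.nS, P.v 2 + P.m₂ / 2 ^ P.nS, W, g, P.mid₁.trans hτ',
    P.mid₂.trans hτ', hDec 1 _ P.plane, hO.bd, ?_, ?_, ?_, ?_, ?_⟩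
  · have h1 : t ≤ C * θ₁ * θ₂ := by
      have : C * ν₁ ≤ C := by nlinarith
      rw [ht]; gcongr
    have := hsum univ (C * θ₁ * θ₂) (by positivity) h1 P.bulk
    have e1 : (K * D + K₂ * D + 1) * (C * θ₁ * θ₂) = (K * D + K₂ * D + 1) * C * θ₁ * θ₂ := by ring
    rwa [e1] at this
  · have := hsum (Fr (bm θ₁ θ₂) (3 * ν₁) {0, 2}) t ht0.le le_rfl P.frame
    have e1 : (K * D + K₂ * D + 1) * t = (K * D + K₂ * D + 1) * C * ν₁ * θ₁ * θ₂ := by
      rw [ht]; ring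
    rwa [e1] at this
  · refine (hpl (rectN 1 P.a P.b) _ subset_rfl P.cov ⟨0, 1, by norm_num, hAl⟩).trans ?_
    refine (bound_aux (b := C * θ₂) (by positivity) (by positivity) (by positivity) ?_).trans
      (ENNReal.ofReal_le_ofReal ?_)
    · refine le_trans (Finset.sum_le_sum fun i _ => ?_) P.plBulk
      exact Finset.sum_le_sum_of_subset (Finset.filter_subset _ _)
    · have h2 : C * ν * θ₂ ≤ C * θ₂ := by
        have : C * ν ≤ C := by nlinarith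
        gcongr
      have h3 : 0 ≤ K * D * (C * θ₂) := by positivity
      nlinarith
  · refine (hpl ((rectN 1 P.a P.b).filter (fun k =>
      P.v 0 + k 0 / 2 ^ P.nS ≤ 3 * ν ∨ 1 - 3 * ν ≤ P.v 0 + (k 0 + 1) / 2 ^ P.nS)) _
      (Finset.filter_subset _ _) ?_ ⟨0, 1, by norm_num, fun x hx => hAl x hx.1⟩).trans ?_
    · rintro x ⟨hx, hxF⟩
      obtain ⟨k, hk, hkx⟩ := P.cov x hx
      refine ⟨k, ?_, hkx⟩
      rw [Finset.mem_filter]
      refine ⟨hk, ?_⟩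
      obtain ⟨i, hi, hi'⟩ := hxF
      rw [Finset.mem_singleton] at hi
      subst hi
      have h1 := hkx.2 0 (by simp)
      simp [fl] at h1 hi'
      rcases hi' with h2 | h2
      · left; linarith [h1.1]
      · right; linarith [h1.2]
    refine (bound_aux (b := C * ν * θ₂) (by positivity) (by positivity) (by positivity) ?_).trans
      (ENNReal.ofReal_le_ofReal ?_)
    · refine le_trans (Finset.sum_le_sum fun i _ => ?_) P.plFrame
      refine Finset.sum_le_sum_of_subset fun k hk => ?_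
      rw [Finset.mem_filter] at hk ⊢
      obtain ⟨hk, k', hk', he⟩ := hk
      exact ⟨hk, frame_edges P hfine (Finset.mem_filter.1 hk').2 he⟩
    · have h3 : 0 ≤ K * D * (C * ν * θ₂) := by positivity
      have h4 : (K * D + K₂ * D + 1) * C * ν * θ₂ = K * D * (C * ν * θ₂) +
        K₂ * D * (C * ν * θ₂) + C * ν * θ₂ := by ring
      rw [h4]
      linarith
  · rw [P1_ev]
    exact hL (Bx (bm θ₁ θ₂)) Λ P.v P.nS P.mt (P.a 1) P.m₂ (P.a 0) (P.b 0) P.G P.h g _ P.X hLD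
      (ν / 8) (1 - ν / 8) (by linarith) (left_end P hθ₂ hν₁ hν₁4 hν4)
      (right_end P hθ₂ hν₁ hν₁4 hν4)

end Vale.Agent.P073.H73
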