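import Vale.Agent.P073.H73.Final3C

/-!
# P073, branch A with closeness: conical homeomorphisms on a cell are controlled by the boundary
-/

namespace Vale.Agent.P073.H73

open MeasureTheory Set Filter Topology Metric Vale.Agent.P073.St Vale.Agent.P073.AB
open Vale.Agent.P073.SQ (ev cube Cells)
open _root_.P073 (ConHomeo)
open scoped ENNReal

variable {Ω Λ : Set V}

/-- images of open sets are open -/
theorem isOpen_image_con (hΛ : IsOpen Λ) (g : ConHomeo Ω Λ) {U : Set V} (hU : IsOpen U)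
    (hUΩ : U ⊆ Ω) : IsOpen (g.toFun '' U) := by
  have h1 : g.toFun '' U = Λ ∩ g.invFun ⁻¹' U := by
    ext y
    constructor
    · rintro ⟨x, hx, rfl⟩
      refine ⟨g.mapsTo (hUΩ hx), ?_⟩
      rw [mem_preimage, g.left_inv (hUΩ hx)]
      exact hx
    · rintro ⟨hy, hyU⟩
      exact ⟨g.invFun y, hyU, g.right_inv hy⟩
  rw [h1]
  exact g.cont_inv.isOpen_inter_preimage hΛ hU

/-- **the image of a cell is controlled by the image of its boundary** -/
theorem norm_le_of_frontier (hΛ : IsOpen Λ) (g : ConHomeo Ω Λ) {Q : Set V}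
    (hQ : IsCompact Q) (hQΩ : Q ⊆ Ω) {a : V} {r : ℝ} (hr : 0 ≤ r)
    (h : ∀ y ∈ frontier Q, ‖g.toFun y - a‖ ≤ r) {x : V} (hx : x ∈ Q) : ‖g.toFun x - a‖ ≤ r := by
  have hc : ContinuousOn (fun y => ‖g.toFun y - a‖) Q :=
    ((g.cont.mono hQΩ).sub continuousOn_const).norm
  obtain ⟨y₀, hy₀, hmax⟩ := hQ.exists_isMaxOn ⟨x, hx⟩ hc
  have hx₀ : ‖g.toFun x - a‖ ≤ ‖g.toFun y₀ - a‖ := hmax hx
  by_contra hcon
  rw [not_le] at hcon
  have hpos : 0 < ‖g.toFun y₀ - a‖ := hr.trans_lt (hcon.trans_le hx₀)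
  have hint : y₀ ∈ interior Q := by
    by_contra hn
    have : y₀ ∈ frontier Q := ⟨subset_closure hy₀, hn⟩
    linarith [h y₀ this]
  have hop := isOpen_image_con hΛ g isOpen_interior (interior_subset.trans hQΩ)
  have hmem : g.toFun y₀ ∈ g.toFun '' interior Q := ⟨y₀, hint, rfl⟩
  have hlim : Tendsto (fun t : ℝ => g.toFun y₀ + t • (g.toFun y₀ - a)) (𝓝[>] 0)
      (𝓝 (g.toFun y₀)) := by
    have h1 : Continuous fun t : ℝ => g.toFun y₀ + t • (g.toFun y₀ - a) := by fun_prop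
    have h2 := h1.tendsto 0
    rw [zero_smul, add_zero] at h2
    exact h2.mono_left nhdsWithin_le_nhds
  obtain ⟨t, ht, ht0⟩ := ((hlim.eventually (hop.mem_nhds hmem)).and
    (self_mem_nhdsWithin : ∀ᶠ t : ℝ in 𝓝[>] 0, t ∈ Ioi (0:ℝ))).exists
  obtain ⟨y, hy, hye⟩ := ht
  have h3 : ‖g.toFun y - a‖ = (1 + t) * ‖g.toFun y₀ - a‖ := by
    have ht0' : (0:ℝ) < t := ht0
    rw [hye, show g.toFun y₀ + t • (g.toFun y₀ - a) - a = (1 + t) • (g.toFun y₀ - a) by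
      rw [add_smul, one_smul]; abel, norm_smul, Real.norm_of_nonneg (by linarith)]
  have h4 : ‖g.toFun y - a‖ ≤ ‖g.toFun y₀ - a‖ := hmax (interior_subset hy)
  have ht0' : (0:ℝ) < t := ht0
  nlinarith

/-- the same for a bound in terms of another map -/
theorem norm_le_cell (hΛ : IsOpen Λ) (g : ConHomeo Ω Λ) {f : V → V} {Q : Set V}
    (hQ : IsCompact Q) (hQΩ : Q ⊆ Ω) {r d : ℝ} (hr : 0 ≤ r) (hd : 0 ≤ d)
    (h : ∀ y ∈ frontier Q, ‖g.toFun y - f y‖ ≤ r) (hf : ∀ x ∈ Q, ∀ y ∈ Q, ‖f x - f y‖ ≤ d)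
    {x y : V} (hx : x ∈ Q) (hy : y ∈ Q) : ‖g.toFun y - f x‖ ≤ r + d := by
  refine norm_le_of_frontier hΛ g hQ hQΩ (by positivity) (fun w hw => ?_) hy
  have hwQ : w ∈ Q := hQ.isClosed.frontier_subset hw
  have h1 := h w hw
  have h2 := hf w hwQ x hx
  have h3 := norm_sub_le_norm_sub_add_norm_sub (g.toFun w) (f w) (f x)
  linarith

end Vale.Agent.P073.H73
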