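import Vale.Agent.P073.H73.CA2

/-!
# P073, branch A with closeness: from conical homeomorphisms with cells to diffeomorphisms
-/

namespace Vale.Agent.P073.H73

open MeasureTheory Set Filter Topology Metric Vale.Agent.P073.St Vale.Agent.P073.AB
open Vale.Agent.P073.SQ (ev cube Cells dE faceE)
open _root_.P073 (ConHomeo)
open scoped ContDiff ENNReal

variable {p : ℝ} {Ω Λ R : Set V}

/-- `g` is close to `f`, with closeness tending to zero at the boundary -/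
structure CloseB (ε : ℝ) (Ω : Set V) (g f : V → V) : Prop where
  le : ∀ x ∈ Ω, ‖g x - f x‖ ≤ ε
  lim : ∀ η > 0, ∃ K ⊆ Ω, IsCompact K ∧ ∀ x ∈ Ω \ K, ‖g x - f x‖ ≤ η

/-- `ConFace` with closeness -/
def ConFaceC (p ε : ℝ) (Ω Λ : Set V) (f : V → V) (F : V → Mat) : Prop :=
  ∃ (R : Set V) (W : Cells Ω R) (h : ConHomeo Ω Λ), (∀ q, q ∈ W.ctrl) ∧ MeasurableSet R ∧
    (∃ K ⊆ Ω, IsCompact K ∧ R ⊆ K) ∧
    ∑ j, ∫⁻ x in R, ENNReal.ofReal (‖fderiv ℝ h.toFun x (ev j) - cl (F x) (ev j)‖ ^ p) ≤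
      ENNReal.ofReal ε ∧
    ∑' i, enL W p h.toFun i ≤ ENNReal.ofReal ε ∧
    ∑ j, ∫⁻ x in Ω \ R, ENNReal.ofReal (‖cl (F x) (ev j)‖ ^ p) ≤ ENNReal.ofReal ε ∧
    (∀ x ∈ R, ‖h.toFun x - f x‖ ≤ ε) ∧
    (∀ i, ∀ x ∈ cube (W.c i) (W.ρ i), ∀ y ∈ cube (W.c i) (W.ρ i), ‖h.toFun y - f x‖ ≤ ε) ∧
    ∀ η > 0, {i | ∃ x ∈ cube (W.c i) (W.ρ i), ∃ y ∈ cube (W.c i) (W.ρ i),
      η < ‖h.toFun y - f x‖}.Finite

theorem compact_depth (hΩ : St.IsBoundedDomain Ω) {c : ℝ} (hc : 0 < c) :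
    IsCompact {x | c ≤ infDist x Ωᶜ} ∧ {x | c ≤ infDist x Ωᶜ} ⊆ Ω := by
  have hsub : {x | c ≤ infDist x Ωᶜ} ⊆ Ω := by
    intro x hx
    by_contra hn
    have : infDist x Ωᶜ = 0 := infDist_zero_of_mem hn
    rw [mem_ofPred_eq, this] at hx
    linarith
  exact ⟨isCompact_of_isClosed_isBounded (isClosed_le continuous_const (continuous_infDist_pt _))
    ((PK.isBounded_of_domain hΩ).subset hsub), hsub⟩

theorem cells_fin (W : Cells Ω R) : ∀ A ⊆ Ω, IsCompact A →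
    {i | (cube (W.c i) (W.ρ i) ∩ A).Nonempty}.Finite := by
  intro A hA hAc
  have hex : ∀ x ∈ A, ∃ N ∈ 𝓝 x, {i | (cube (W.c i) (W.ρ i) ∩ N).Nonempty}.Finite :=
    fun x hx => W.fin x (hA hx)
  choose! N hN hNf using hex
  obtain ⟨T, hTA, hTc⟩ := hAc.elim_nhds_subcover N hN
  refine (T.finite_toSet.biUnion fun x hx => hNf x (hTA x hx)).subset ?_
  rintro i ⟨y, hy, hyA⟩
  obtain ⟨x, hx, hyx⟩ := mem_iUnion₂.1 (hTc hyA)
  exact mem_iUnion₂.2 ⟨x, hx, ⟨y, hy, hyx⟩⟩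

theorem compact_cubeC (a : V) (r : ℝ) : IsCompact (cube a r) := isCompact_cube a r

/-- **one step** -/
theorem smooth_step (hp : 1 ≤ p) (hp3 : p < 3) (hΩ : St.IsBoundedDomain Ω)
    (hΛ : St.IsBoundedDomain Λ) {C : ℝ≥0∞}
    (hmain : ∀ (Ω Λ R : Set V) (W : Cells Ω R) (F : V → V) (ε : W.ι → ℝ≥0∞) (d : W.ι → ℝ),
      IsOpen Ω → IsOpen Λ → (∀ q, q ∈ W.ctrl) → St.IsDiffeo Ω Λ F → (∀ i, ε i ≠ 0) → (∀ i, 0 < d i) →
      ∃ s : V → V, St.IsDiffeo Ω Ω s ∧ (∀ x ∈ R, s x = x) ∧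
        (∀ i, ∀ x ∈ cube (W.c i) (W.ρ i), s x ∈ cube (W.c i) (W.ρ i)) ∧
        (∀ x ∈ Ω, (∀ i, ¬ ∀ l, |x l - W.c i l| < W.ρ i) → s x = x) ∧
        ∀ i, ∑ j, ∫⁻ x in cube (W.c i) (W.ρ i), dE p (F ∘ s) j x ≤ C * W.en p F i + ε i ∧
          volume {x ∈ cube (W.c i) (W.ρ i) | ∀ y ∈ W.net i, d i ≤ ‖s x - y‖} ≤ ε i)
    {f : V → V} {F : V → Mat} (H : ∀ ε > 0, ConFaceC p ε Ω Λ f F) {ε : ℝ} (hε : 0 < ε) :
    ∃ φ : V → V, St.IsDiffeo Ω Λ φ ∧ CloseB ε Ω φ f ∧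
      err p Ω f F φ ≤ ENNReal.ofReal (ε ^ p) * volume Ω +
        (ENNReal.ofReal ε + 2 ^ (p - 1) * (C * ENNReal.ofReal ε + ENNReal.ofReal ε +
          ENNReal.ofReal ε)) := by
  have hp0 : 0 < p := by linarith
  have h2p : (1 : ℝ) ≤ 2 ^ (p - 1) := Real.one_le_rpow (by norm_num) (by linarith)
  have h2pos : (0 : ℝ) < 2 ^ (p - 1) := by positivity
  set ε₁ : ℝ := ε / 2 ^ (p - 1) / 2 with hε₁
  have hε₁0 : 0 < ε₁ := by positivity
  have hε₁ε : ε₁ ≤ ε / 2 := by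
    rw [hε₁]
    have : ε / 2 ^ (p - 1) ≤ ε := div_le_self hε.le h2p
    linarith
  obtain ⟨R, W, h, hctrl, hRm, ⟨Kc, hKcΩ, hKcc, hRK⟩, h1, h2, h3, hR, hW, hWf⟩ := H ε₁ hε₁0
  have hRΩ : R ⊆ Ω := hRK.trans hKcΩ
  have := W.cnt
  have hne : (Ωᶜ : Set V).Nonempty := by
    by_contra hcon
    have h0 : Ω = univ := by
      rw [not_nonempty_iff_eq_empty, compl_empty_iff] at hcon
      exact hcon
    have h1 := PK.isBounded_of_domain hΩ
    rw [h0] at h1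
    exact NormedSpace.unbounded_univ ℝ V h1
  have hσc : Continuous fun x : V => min ε₁ (infDist x Ωᶜ) :=
    continuous_const.min (continuous_infDist_pt _)
  have hσ0 : ∀ x ∈ Ω, 0 < min ε₁ (infDist x Ωᶜ) := by
    intro x hx
    refine lt_min hε₁0 ?_
    rw [← (hΩ.1.isClosed_compl).notMem_iff_infDist_pos hne]
    exact fun h => h hx
  obtain ⟨G, hG, hclose, hGR, hGW⟩ := exists_smooth_face (F := F) hp hΩ hΛ W h hctrl hRΩ
    hσc.continuousOn hσ0 hε h1 h2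
  obtain ⟨ε', hε'0, hε'⟩ := ENNReal.exists_pos_sum_of_countable'
    (ε := ENNReal.ofReal ε) (by simpa using hε) W.ι
  have hGs := diffeo_smooth hG
  obtain ⟨s, hs, hsR, hsi, -, hsE⟩ := hmain Ω Λ R W G ε' (fun _ => 1) hΩ.1 hΛ.1 hctrl hG
    (fun i => (hε'0 i).ne') (fun _ => one_pos)
  have hg := isDiffeo_comp hs hG
  have hgs := diffeo_smooth hg
  have hcl : ∀ x ∈ Ω, ‖G (s x) - f x‖ ≤ ε := by
    intro x hx
    rcases W.cover hx with h4 | h4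
    · rw [hsR x h4]
      have e1 := hclose x hx
      have e2 := hR x h4
      have e3 := norm_sub_le_norm_sub_add_norm_sub (G x) (h.toFun x) (f x)
      have e4 : min ε₁ (infDist x Ωᶜ) ≤ ε₁ := min_le_left _ _
      linarith
    · obtain ⟨i, hi⟩ := mem_iUnion.1 h4
      have e0 := hsi i x hi
      have e1 := hclose (s x) (W.sub i e0)
      have e2 := hW i x hi (s x) e0
      have e3 := norm_sub_le_norm_sub_add_norm_sub (G (s x)) (h.toFun (s x)) (f x)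
      have e4 : min ε₁ (infDist (s x) Ωᶜ) ≤ ε₁ := min_le_left _ _
      linarith
  refine ⟨G ∘ s, hg, ⟨hcl, ?_⟩, add_le_add ?_ ?_⟩
  · -- the limit
    intro η hη
    obtain ⟨hDc, hDΩ⟩ := compact_depth hΩ (c := η / 2) (by positivity)
    have hf1 := hWf (η / 2) (by positivity)
    have hf2 := cells_fin W _ hDΩ hDc
    have hf3 := hf1.union hf2
    refine ⟨Kc ∪ ⋃ i ∈ {i | ∃ x ∈ cube (W.c i) (W.ρ i), ∃ y ∈ cube (W.c i) (W.ρ i),
        η / 2 < ‖h.toFun y - f x‖} ∪ {i | (cube (W.c i) (W.ρ i) ∩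
          {x | η / 2 ≤ infDist x Ωᶜ}).Nonempty}, cube (W.c i) (W.ρ i), ?_, ?_, ?_⟩
    · exact union_subset hKcΩ (iUnion₂_subset fun i _ => W.sub i)
    · exact hKcc.union (hf3.isCompact_biUnion fun i _ => compact_cubeC _ _)
    · rintro x ⟨hx, hxK⟩
      have hxR : x ∉ R := fun h => hxK (Or.inl (hRK h))
      obtain ⟨i, hi⟩ := mem_iUnion.1 ((W.cover hx).resolve_left hxR)
      have hin : i ∉ {i | ∃ x ∈ cube (W.c i) (W.ρ i), ∃ y ∈ cube (W.c i) (W.ρ i),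
        η / 2 < ‖h.toFun y - f x‖} ∪ {i | (cube (W.c i) (W.ρ i) ∩
          {x | η / 2 ≤ infDist x Ωᶜ}).Nonempty} := fun h =>
        hxK (Or.inr (mem_iUnion₂.2 ⟨i, h, hi⟩))
      have hi1 : ¬ ∃ x ∈ cube (W.c i) (W.ρ i), ∃ y ∈ cube (W.c i) (W.ρ i),
        η / 2 < ‖h.toFun y - f x‖ := fun h => hin (Or.inl h)
      have hi2 : ¬ (cube (W.c i) (W.ρ i) ∩ {x | η / 2 ≤ infDist x Ωᶜ}).Nonempty :=
        fun h => hin (Or.inr h)
      have e0 := hsi i x hi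
      have e1 := hclose (s x) (W.sub i e0)
      have e2 : ‖h.toFun (s x) - f x‖ ≤ η / 2 := by
        by_contra hcon
        exact hi1 ⟨x, hi, s x, e0, not_le.1 hcon⟩
      have e3 := norm_sub_le_norm_sub_add_norm_sub (G (s x)) (h.toFun (s x)) (f x)
      have e4 : min ε₁ (infDist (s x) Ωᶜ) ≤ infDist (s x) Ωᶜ := min_le_right _ _
      have e5 : infDist (s x) Ωᶜ < η / 2 := by
        by_contra hcon
        exact hi2 ⟨s x, e0, not_lt.1 hcon⟩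
      show ‖G (s x) - f x‖ ≤ η
      linarith
  · calc ∫⁻ x in Ω, ENNReal.ofReal (‖(G ∘ s) x - f x‖ ^ p)
        ≤ ∫⁻ _ in Ω, ENNReal.ofReal (ε ^ p) := by
          refine setLIntegral_mono' hΩ.1.measurableSet fun x hx => ?_
          apply ENNReal.ofReal_le_ofReal
          exact Real.rpow_le_rpow (norm_nonneg _) (hcl x hx) hp0.le
      _ = ENNReal.ofReal (ε ^ p) * volume Ω := by rw [setLIntegral_const]
  · exact deriv_part3 hp hΩ.1 W hRm hRΩ hgs hGs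
      (fun x hx => by simp only [Function.comp, hsR x hx]) hε'.le hGR hGW
      (h3.trans (ENNReal.ofReal_le_ofReal (by linarith))) fun i => (hsE i).1

/-- **diffeomorphisms with closeness** -/
theorem smooth_of_conFaceC {f : V → V} {F : V → Mat} (hp : 1 ≤ p) (hp3 : p < 3)
    (hΩ : St.IsBoundedDomain Ω) (hΛ : St.IsBoundedDomain Λ)
    (H : ∀ ε > 0, ConFaceC p ε Ω Λ f F) {ε : ℝ} (hε : 0 < ε) :
    ∃ φ : V → V, St.IsDiffeo Ω Λ φ ∧ CloseB ε Ω φ f ∧ err p Ω f F φ ≤ ENNReal.ofReal ε := by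
  have hp0 : 0 < p := by linarith
  obtain ⟨C, hC, hmain⟩ := specSQ3 p hp hp3
  have hΩv := PK.volume_ne_top_of_domain hΩ
  have hlim0 : Tendsto (fun k : ℕ => 1 / ((k : ℝ) + 1)) atTop (𝓝 0) :=
    tendsto_one_div_add_atTop_nhds_zero_nat
  have hlim : Tendsto (fun k : ℕ => ENNReal.ofReal ((1 / ((k : ℝ) + 1)) ^ p) * volume Ω +
      (ENNReal.ofReal (1 / ((k : ℝ) + 1)) + 2 ^ (p - 1) * (C * ENNReal.ofReal (1 / ((k : ℝ) + 1)) +
        ENNReal.ofReal (1 / ((k : ℝ) + 1)) + ENNReal.ofReal (1 / ((k : ℝ) + 1))))) atTop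
      (𝓝 0) := by
    have e1 : Tendsto (fun k : ℕ => ENNReal.ofReal (1 / ((k : ℝ) + 1))) atTop (𝓝 0) := by
      have := ENNReal.tendsto_ofReal hlim0
      simpa using this
    have e2 : Tendsto (fun k : ℕ => ENNReal.ofReal ((1 / ((k : ℝ) + 1)) ^ p)) atTop
        (𝓝 0) := by
      have h1 : Tendsto (fun k : ℕ => (1 / ((k : ℝ) + 1)) ^ p) atTop
          (𝓝 (0 ^ p)) := hlim0.rpow_const (Or.inr hp0.le)
      rw [Real.zero_rpow hp0.ne'] at h1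
      have := ENNReal.tendsto_ofReal h1
      simpa using this
    have e4 : Tendsto (fun k : ℕ => ENNReal.ofReal ((1 / ((k : ℝ) + 1)) ^ p) *
        volume Ω) atTop (𝓝 (0 * volume Ω)) := ENNReal.Tendsto.mul_const e2 (Or.inr hΩv)
    have e5 : Tendsto (fun k : ℕ => C * ENNReal.ofReal (1 / ((k : ℝ) + 1))) atTop
        (𝓝 (C * 0)) := ENNReal.Tendsto.const_mul e1 (Or.inr hC)
    have e6 := e4.add (e1.add (ENNReal.Tendsto.const_mul (a := 2 ^ (p - 1))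
      ((e5.add e1).add e1) (Or.inr H880.two_rpow_ne_top)))
    simpa using e6
  obtain ⟨k, hk, hk2⟩ := ((hlim.eventually (gt_mem_nhds (ENNReal.ofReal_pos.2 hε))).and
    (hlim0.eventually (gt_mem_nhds hε))).exists
  have hk0 : (0:ℝ) < 1 / ((k : ℝ) + 1) := by positivity
  obtain ⟨φ, hφ, hcl, herr⟩ := smooth_step hp hp3 hΩ hΛ hmain H hk0
  exact ⟨φ, hφ, ⟨fun x hx => (hcl.le x hx).trans hk2.le, hcl.lim⟩, herr.trans hk.le⟩

end Vale.Agent.P073.H73
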