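import Vale.Agent.P073.H73.CA4

/-!
# P073, branch A with closeness: conical homeomorphisms with cells, with closeness
-/

namespace Vale.Agent.P073.H73

open MeasureTheory Set Filter Topology Metric Vale.Agent.P073.St Vale.Agent.P073.AB
open Vale.Agent.P073.SQ (ev cube Cells)
open Vale.Agent.P073.AB.P86 (sc rel cen cells)
open _root_.P073 (ConHomeo)
open _root_.P073.Net (dyc dyo IsTile SizeFn)
open scoped ENNReal

/-- closeness of the input -/
structure CloseIn (v : V) (I : Set Idx) (ρ : V → ℝ) (f h : V → V) (ε : ℝ) : Prop where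
  osc : ∀ q ∈ I, ∀ x ∈ dyc v q.1 q.2, ∀ y ∈ dyc v q.1 q.2, ‖f x - f y‖ ≤ ε
  oscf : ∀ η > 0, {q | q ∈ I ∧ ∃ x ∈ dyc v q.1 q.2, ∃ y ∈ dyc v q.1 q.2,
    η < ‖f x - f y‖}.Finite
  nearf : ∀ η > 0, {q | q ∈ I ∧ ∃ y ∈ dyc v q.1 q.2, η < ‖h y - f y‖}.Finite
  rhof : ∀ η > 0, {q | q ∈ I ∧ ∃ y ∈ dyc v q.1 q.2, η < ρ (h y)}.Finite

section

variable {p ε δ : ℝ} {Φ : ℕ → Finset (Fin 3 → ℤ) → ((Fin 3 → ℤ) → V → V) → ℝ}
  {Ω Λ : Set V} {f : V → V} {F : V → Mat} (P : Pre p ε δ 16 Φ Ω Λ f F)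

/-- **The conclusion** for given data. -/
theorem Pre.conFaceC (hp : 1 ≤ p) (hε : 0 < ε) (hΩ : St.IsBoundedDomain Ω)
    (hΛ : St.IsBoundedDomain Λ) {CT : ℝ} (CM : CutMesh P.geo CT)
    {D : ℝ} {C : ℝ → ℝ} (hK : K2Ain p D C δ) (hade : SpecAde) {C₃ : ℝ}
    (hlay : Layin C₃) {T T' : ℝ} (hT1 : 1 ≤ T) (hT : ∀ z ∈ P.J, ∀ w, ‖P.L z w‖ ≤ T * ‖w‖)
    (hT1' : 1 ≤ T') (hT' : ∀ z ∈ P.J, ∀ w, ‖w‖ ≤ T' * ‖P.L z w‖)
    (hΦ : 12 * (max (max (max (C 1) (C CT)) 1 * (32 * T + 1))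
            (|C₃| * (max (max (C 1) (C CT)) 1 * (32 * T + 1) * T') * T)) ^ p +
        3 * 2 ^ (p - 1) * T ^ p ≤ Φ P.N P.J P.A) (H : CloseIn P.v P.I P.ρ f P.h.toFun ε) :
    ConFaceC p (((|D| + 1) * 2 ^ (p - 1) + |D| + 5) * ε) Ω Λ f F := by
  have hp0 : 0 ≤ p := by linarith
  set K₁ : ℝ := max (max (C 1) (C CT)) 1 * (32 * T + 1) with hK₁
  have hK₁1 : 1 ≤ K₁ := by
    have h1 : (1:ℝ) ≤ max (max (C 1) (C CT)) 1 := le_max_right _ _
    nlinarith
  set Kc : ℝ := max K₁ (|C₃| * (K₁ * T') * T) with hKc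
  have hKc0 : 0 ≤ Kc := by linarith [le_max_left K₁ (|C₃| * (K₁ * T') * T)]
  -- the zone
  have hZ : ENNReal.ofReal (12 * Kc ^ p + 3 * 2 ^ (p - 1) * T ^ p) * volume P.zoneZ ≤
      ENNReal.ofReal ε := le_trans (mul_le_mul' (ENNReal.ofReal_le_ofReal hΦ) le_rfl) P.cut
  have h2E : (2 : ℝ≥0∞) ^ (p - 1) = ENNReal.ofReal (2 ^ (p - 1)) := by
    rw [← ENNReal.ofReal_rpow_of_pos (by norm_num)]
    simp
  have h2pos : (0 : ℝ) < 2 ^ (p - 1) := by positivity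
  have hZ1 : 12 * ENNReal.ofReal (Kc ^ p) * volume P.zoneZ ≤ ENNReal.ofReal ε := by
    refine le_trans ?_ hZ
    gcongr
    rw [show (12 : ℝ≥0∞) = ENNReal.ofReal 12 by simp, ← ENNReal.ofReal_mul (by norm_num)]
    apply ENNReal.ofReal_le_ofReal
    have : 0 ≤ 3 * 2 ^ (p - 1) * T ^ p := by positivity
    linarith
  have hZ2 : 3 * 2 ^ (p - 1) * ENNReal.ofReal (T ^ p) * volume P.zoneZ ≤ ENNReal.ofReal ε := by
    refine le_trans ?_ hZ
    gcongr
    rw [show (3 : ℝ≥0∞) = ENNReal.ofReal 3 by simp, h2E, ← ENNReal.ofReal_mul (by norm_num),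
      ← ENNReal.ofReal_mul (by positivity)]
    apply ENNReal.ofReal_le_ofReal
    have : 0 ≤ 12 * Kc ^ p := by positivity
    linarith
  -- the errors
  obtain ⟨τ, hτ0, hτ⟩ := ENNReal.exists_pos_sum_of_countable'
    (ε := ENNReal.ofReal ε) (by simpa using hε) (Idx × (Idx × Fin 3))
  obtain ⟨g, hfar, hnear, hdeep, hclose, hrho⟩ := P.exists_mapC CM hp hΩ hΛ hK hade hlay hT1 hT hT1' hT'
    (τ := fun a => ENNReal.ofReal (1 / 2 / 2 ^ a.2.1.1 / (1 / 2 / 2 ^ a.1.1)) * τ a)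
    (fun a => mul_ne_zero (by
      have : (0:ℝ) < 1 / 2 / 2 ^ a.2.1.1 / (1 / 2 / 2 ^ a.1.1) := by positivity
      simpa using this) (hτ0 a).ne')
  have hsum := P.sum_enL hp hΩ.1 g.toFun hKc0 (τ := τ) hfar hnear _ rfl
  set W : Cells Ω (⋃ q ∈ P.keep, dyc P.v q.1 q.2) := { cells hΩ.1 P.part P.keep_sub with
      ctrl := univ
      unc := fun q h => absurd (mem_univ q) h } with hW
  have hD0 : 0 ≤ |D| := abs_nonneg D
  have hcube : ∀ i : W.ι, cube (W.c i) (W.ρ i) = dyc P.v i.1.1 i.1.2 := fun i =>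
    P86.cube_eq P.v i.1.1 i.1.2
  have hfr : ∀ i : W.ι, ∀ y ∈ frontier (dyc P.v i.1.1 i.1.2), ∃ s, MinSq P.v P.I s ∧
      y ∈ squ P.v s := by
    intro i y hy
    have hyc : y ∈ dyc P.v i.1.1 i.1.2 := (P86.isCompact_dyc _ _ _).isClosed.frontier_subset hy
    have hyc' : y ∈ cube (W.c i) (W.ρ i) := by rw [hcube]; exact hyc
    have hl : ∃ l, |y l - W.c i l| = W.ρ i := by
      by_contra hcon
      push Not at hcon
      have h1 : ∀ l, |y l - W.c i l| < W.ρ i := fun l => lt_of_le_of_ne (hyc' l) (hcon l)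
      have h2 : {x : V | ∀ l, |x l - W.c i l| < W.ρ i} ⊆ cube (W.c i) (W.ρ i) :=
        fun x hx l => (hx l).le
      have h3 : IsOpen {x : V | ∀ l, |x l - W.c i l| < W.ρ i} := by
        rw [setOf_forall]
        exact isOpen_iInter_of_finite fun l => isOpen_lt
          (((continuous_apply l).sub continuous_const).abs) continuous_const
      have h4 : y ∈ interior (cube (W.c i) (W.ρ i)) := interior_maximal h2 h3 h1
      rw [hcube] at h4
      exact hy.2 h4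
    obtain ⟨q, hq, hy1, hy2⟩ := W.bd_cover i y hyc' hl
    exact ⟨q.1, q.2.1, (P86.mem_squ_iff P.v q.1 y).1 ⟨hy1, hy2⟩⟩
  have hD1 : 0 < max |D| 1 := lt_max_of_lt_right one_pos
  refine ⟨P.R, W, g, fun q => mem_univ q, P.measurableSet_R,
    ⟨⋃ b ∈ P.B, b.cell P.A, iUnion₂_subset fun b hb => Geo.cell_sub (G := P.geo) hb,
      P.B.finite_toSet.isCompact_biUnion fun b hb => Geo.isCompact_cell (G := P.geo) hb,
      fun x hx => ?_⟩, ?_, ?_, ?_, ?_, ?_, ?_⟩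
  · obtain ⟨b, hb, hD⟩ := P.R_deep hx
    exact mem_iUnion₂.2 ⟨b, hb, hD.1⟩
  · refine (P.on_R hdeep).trans (ENNReal.ofReal_le_ofReal ?_)
    have : 0 ≤ (|D| + 1) * 2 ^ (p - 1) := by positivity
    nlinarith
  · refine (hsum.trans (add_le_add (add_le_add le_rfl hτ.le) hZ1)).trans ?_
    rw [h2E, ← ENNReal.ofReal_mul hD0, ← ENNReal.ofReal_mul (by positivity),
      ← ENNReal.ofReal_add (by positivity) hε.le, ← ENNReal.ofReal_add (by positivity) hε.le]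
    apply ENNReal.ofReal_le_ofReal
    nlinarith
  · refine (P.off_R hp (by linarith) hT).trans ?_
    refine (add_le_add le_rfl hZ2).trans ?_
    rw [h2E, ← ENNReal.ofReal_mul (by positivity), ← ENNReal.ofReal_add hε.le (by positivity),
      ← ENNReal.ofReal_add (by positivity) hε.le]
    apply ENNReal.ofReal_le_ofReal
    nlinarith [mul_nonneg hD0 h2pos.le]
  · intro x hxR
    obtain ⟨b, hb, hD⟩ := P.R_deep hxR
    rw [hdeep b hb x hD.1 hD.2]
    have h1 : P.h.toFun x = P.A b.1 x := Geo.h_cell (G := P.geo) hb hD.1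
    rw [← h1]
    refine (P.near x (P.R_sub hxR)).trans ?_
    have : 0 ≤ (|D| + 1) * 2 ^ (p - 1) := by positivity
    nlinarith
  · intro i x hx y hy
    rw [hcube] at hx hy
    have h1 : ∀ w ∈ frontier (dyc P.v i.1.1 i.1.2), ‖g.toFun w - f w‖ ≤ (max |D| 1 + 1) * ε := by
      intro w hw
      obtain ⟨s, hs, hws⟩ := hfr i w hw
      have hwc : w ∈ dyc P.v i.1.1 i.1.2 := (P86.isCompact_dyc _ _ _).isClosed.frontier_subset hw
      have e1 := hclose s hs w hws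
      have e2 := P.near w (P.part.sub i.1 i.2.1 hwc)
      have e3 := norm_sub_le_norm_sub_add_norm_sub (g.toFun w) (P.h.toFun w) (f w)
      linarith
    refine (norm_le_cell hΛ.1 g (P86.isCompact_dyc _ _ _) (P.part.sub i.1 i.2.1)
      (by positivity) hε.le h1 (H.osc i.1 i.2.1) hx hy).trans ?_
    have e6 : max |D| 1 ≤ |D| + 1 := max_le (by linarith) (by linarith)
    have e7 : max |D| 1 * ε ≤ (|D| + 1) * ε := by gcongr
    have : 0 ≤ (|D| + 1) * 2 ^ (p - 1) * ε := by positivity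
    nlinarith
  · intro η hη
    have hfin : ({q | q ∈ P.I ∧ (dyc P.v q.1 q.2 ∩ ⋃ b ∈ P.B, b.cell P.A).Nonempty} ∪
        ({q | q ∈ P.I ∧ ∃ x ∈ dyc P.v q.1 q.2, ∃ y ∈ dyc P.v q.1 q.2, η / 3 < ‖f x - f y‖} ∪
        ({q | q ∈ P.I ∧ ∃ y ∈ dyc P.v q.1 q.2, η / 3 < ‖P.h.toFun y - f y‖} ∪
        {q | q ∈ P.I ∧ ∃ y ∈ dyc P.v q.1 q.2,
          η / 3 / max |D| 1 < P.ρ (P.h.toFun y)}))).Finite := by
      refine Set.Finite.union (P.part.fin _ (iUnion₂_subset fun b hb =>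
        Geo.cell_sub (G := P.geo) hb) (P.B.finite_toSet.isCompact_biUnion fun b hb =>
        Geo.isCompact_cell (G := P.geo) hb)) (Set.Finite.union (H.oscf _ (by positivity))
        (Set.Finite.union (H.nearf _ (by positivity)) (H.rhof _ (by positivity))))
    refine (hfin.preimage (f := fun i : W.ι => i.1) (Subtype.val_injective.injOn)).subset ?_
    rintro i ⟨x, hx, y, hy, hlt⟩
    rw [mem_preimage]
    by_contra hcon
    rw [hcube] at hx hy
    have c1 : ¬ (dyc P.v i.1.1 i.1.2 ∩ ⋃ b ∈ P.B, b.cell P.A).Nonempty :=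
      fun h => hcon (Or.inl ⟨i.2.1, h⟩)
    have c2 : ∀ u ∈ dyc P.v i.1.1 i.1.2, ∀ w ∈ dyc P.v i.1.1 i.1.2, ‖f u - f w‖ ≤ η / 3 := by
      intro u hu w hw
      by_contra h
      exact hcon (Or.inr (Or.inl ⟨i.2.1, u, hu, w, hw, not_le.1 h⟩))
    have c3 : ∀ w ∈ dyc P.v i.1.1 i.1.2, ‖P.h.toFun w - f w‖ ≤ η / 3 := by
      intro w hw
      by_contra h
      exact hcon (Or.inr (Or.inr (Or.inl ⟨i.2.1, w, hw, not_le.1 h⟩)))
    have c4 : ∀ w ∈ dyc P.v i.1.1 i.1.2, P.ρ (P.h.toFun w) ≤ η / 3 / max |D| 1 := by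
      intro w hw
      by_contra h
      exact hcon (Or.inr (Or.inr (Or.inr ⟨i.2.1, w, hw, not_le.1 h⟩)))
    have h1 : ∀ w ∈ frontier (dyc P.v i.1.1 i.1.2), ‖g.toFun w - f w‖ ≤ η / 3 + η / 3 := by
      intro w hw
      obtain ⟨s, hs, hws⟩ := hfr i w hw
      have hwc : w ∈ dyc P.v i.1.1 i.1.2 := (P86.isCompact_dyc _ _ _).isClosed.frontier_subset hw
      have e1 := hrho s hs w hws fun b hb h =>
        c1 ⟨w, hwc, mem_iUnion₂.2 ⟨b, hb, interior_subset h⟩⟩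
      have e2 := c3 w hwc
      have e3 := norm_sub_le_norm_sub_add_norm_sub (g.toFun w) (P.h.toFun w) (f w)
      have e4 : max |D| 1 * P.ρ (P.h.toFun w) ≤ η / 3 := by
        have e5 := c4 w hwc
        rw [le_div_iff₀ hD1] at e5
        linarith
      linarith
    have h2 := norm_le_cell hΛ.1 g (P86.isCompact_dyc _ _ _) (P.part.sub i.1 i.2.1)
      (r := η / 3 + η / 3) (d := η / 3) (by positivity) (by positivity) h1 c2 hx hy
    linarith

end

end Vale.Agent.P073.H73
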