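import Vale.Agent.P073.H73.CA5
import Vale.Agent.P073.H73.PostD

/-!
# P073, branch A with closeness: [POST] with closeness
-/

namespace Vale.Agent.P073.H73

open Set Metric Topology Vale.Agent.P073.St

/-- **[POST]** with closeness -/
theorem specPostC {p : ℝ} (hp : 1 ≤ p) (hK : K2A p) :
    ∃ δ > 0, ∃ Φ : ℕ → Finset (Fin 3 → ℤ) → ((Fin 3 → ℤ) → V → V) → ℝ,
    ∀ ε > 0, ∃ ε' > 0, ∀ (Ω Λ : Set V) (f : V → V) (F : V → Mat), St.IsBoundedDomain Ω →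
    St.IsBoundedDomain Λ → ∀ P : Pre p ε' δ 16 Φ Ω Λ f F,
    CloseIn P.v P.I P.ρ f P.h.toFun ε' → ConFaceC p ε Ω Λ f F := by
  have h1 := H989.specCut
  have h2 := specAde
  have h3 := P073.H669.specLay
  obtain ⟨D, C, δ, hδ, hK⟩ := k2a_iff.1 hK
  obtain ⟨C₃, hlay⟩ := specLay_iff.1 h3
  choose CT hCT using h1
  choose T hT1 hT using exists_upper
  choose T' hT1' hT' using exists_lower_all
  refine ⟨δ, hδ, fun N J A =>
    12 * (max (max (max (C 1) (C (CT N J A))) 1 * (32 * T J A + 1))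
            (|C₃| * (max (max (C 1) (C (CT N J A))) 1 * (32 * T J A + 1) * T' J A) * T J A)) ^ p +
        3 * 2 ^ (p - 1) * T J A ^ p, fun ε hε => ?_⟩
  have hM : 0 < (|D| + 1) * 2 ^ (p - 1) + |D| + 5 := by positivity
  refine ⟨ε / ((|D| + 1) * 2 ^ (p - 1) + |D| + 5), by positivity, ?_⟩
  intro Ω Λ f F hΩ hΛ P HC
  obtain ⟨CM⟩ := hCT P.N P.J P.A Ω Λ P.geo hΩ hΛ rfl rfl rfl
  have h4 := P.conFaceC hp (by positivity) hΩ hΛ CM hK h2 hlay (hT1 P.J P.A)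
    (hT P.J P.A P.L P.aff) (hT1' P.J P.A) (hT' P.J P.A P.L P.aff P.inj) le_rfl HC
  rwa [mul_div_cancel₀ _ hM.ne'] at h4

end Vale.Agent.P073.H73
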