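import Vale.Agent.P073.H73.CA6
import Vale.Agent.P073.H333.SpecPre

/-!
# P073, branch A with closeness: the data `PD` with closeness given by a continuous function
-/

namespace Vale.Agent.P073.H333

open MeasureTheory Set Filter Topology Metric Vale.Agent.P073.St Vale.Agent.P073.AB
open Vale.Agent.P073.SQ (ev)
open _root_.P073 (ConHomeo)
open _root_.P073.Net (dyc dyo IsTile SizeFn len)
open Vale.Agent.P073.H73 (MinEdge Bix ctr WLe segP onSeg)
open Vale.Agent.P073.H194 (refine Big wH zo so co MeshOut bInt Oc cellT Bk GoodC idx)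
open Vale.Agent.P073.H471 (wgt)
open Vale.Agent.P073.H83 (CellsG gB grho GenB)
open scoped ENNReal

namespace PDa

variable {p ε δ : ℝ} {CC : ℝ≥0∞} {Cf : ℝ → ℝ → ℝ} {Kf : ℝ → ℝ → ℕ → ℕ}
  {κf : ℝ → ℝ → ℕ → ℝ} {Ω Λ : Set V} {f : V → V} {F : V → Mat}

/-- the net, with closeness given by a continuous function -/
theorem exists_netC (D : PDa p ε δ CC Cf Kf κf Ω Λ f F) (hN : NetW Cf Kf κf) (hp : 2 < p)
    (hε : 0 < ε) (hΩ : St.IsBoundedDomain Ω) (hΛ : St.IsBoundedDomain Λ) (hf : St.IsHomeo Ω Λ f)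
    {m' : ℕ} {c : ℕ → (Fin 3 → ℤ) → V} (R : MeshPD D m' c) {s : V → ℝ}
    (hs : ContinuousOn s Ω) (hs0 : ∀ x ∈ Ω, 0 < s x) :
    ∃ T : NetPD D m' c R.Bg R.nf R.τ, ∀ x ∈ Ω, T.σ x ≤ s x := by
  have hβ := D.β0
  have href : H669.Ref Ω D.v D.n D.k₁ (Kf D.θ D.M D.k₁) D.J R.Bg R.nf :=
    { fine := D.fine
      big := R.mesh.big
      lt := fun b hb q hq h => R.mesh.lt b hb q (by
        have := D.fine.diff_eq
        show q ∈ base Ω D.v D.n D.k₁ (Kf D.θ D.M D.k₁) D.J \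
          (lay D.v D.n D.k₁ (Kf D.θ D.M D.k₁) D.J ∪ gap D.v D.n D.k₁ D.J)
        rw [this]; exact hq) (h.trans P86.dyo_sub_dyc) }
  have hpartb : Part Ω D.v (D.pd0 m' c).Ib := D.fine.part_base
  obtain ⟨σ, hσc, hσ0, hσε, hστ⟩ := exists_gauge hΩ.1
    (J := (D.pd0 m' c).Ib \ (D.pd0 m' c).P)
    (fun K hK hKc => (hpartb.fin K hK hKc).subset fun q hq => ⟨hq.1.1, hq.2⟩)
    (σ := fun x => min ε (s x)) (ContinuousOn.inf continuousOn_const hs)
    (fun x hx => lt_min hε (hs0 x hx)) (a := R.τ) fun q _ => R.τ0 q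
  set w : Idx × Fin 3 → ℝ := fun e => (D.pd0 m' c).wst e with hw
  have hw0 : ∀ e, 0 ≤ w e := fun e => ENNReal.toReal_nonneg
  set δe : Idx × Fin 3 → ℝ := fun e =>
    min (1 / 2 ^ e.1.1) (D.β / 2 ^ e.1.1 / (2 * (w e + 1))) with hδe
  have hδ0 : ∀ e, 0 < δe e := fun e => by
    have := hw0 e
    exact lt_min (by positivity) (by positivity)
  obtain ⟨h, hnet⟩ := hN Ω Λ f F D.v (tiles Ω (D.n + D.k₁ + Kf D.θ D.M D.k₁) D.v)
    ((D.pd0 m' c).In R.Bg R.nf) (D.pd0 m' c).Jc (fun _ => D.θ) (fun _ => D.M) (fun _ => D.k₁)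
    (fun q => D.A q.2) (fun q => D.L q.2) σ δe hΩ hΛ hf D.fine.part (href.part_inet hΩ.1)
    D.gen.rat
    (by
      rintro e ⟨q, hq, he⟩
      exact efin_of (by linarith) D.gen ((Gr.edge_subset_dyc he).trans
        ((href.part_inet hΩ.1).sub q hq)))
    (fun _ _ => ⟨D.H.θ0, D.M0, D.H.three_le⟩)
    (by
      rintro ⟨a, z⟩ ⟨ha, hz⟩ ⟨a', z'⟩ ⟨ha', hz'⟩ hne
      have ha : a = D.n := ha
      have ha' : a' = D.n := ha'
      subst ha ha'
      have hzz : z' ≠ z := fun h => hne (by rw [h])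
      exact (H669.dyo_dyc_disj hzz.symm).symm.mono_right P86.dyo_sub_dyc |>.symm)
    (by
      rintro ⟨a, z⟩ ⟨ha, hz⟩
      have ha : a = D.n := ha
      subst ha
      exact (D.cell z hz).mono (min_le_left _ _))
    (by
      rintro ⟨a, z⟩ ⟨ha, hz⟩ r hr hs
      have ha : a = D.n := ha
      subst ha
      exact Or.inl ⟨hr, z, hz, hs⟩)
    hσc hσ0 hδ0
  refine ⟨⟨h, σ, δe, fun x hx => (hσε x hx).trans (min_le_left _ _), ?_, hδ0,
    fun e => min_le_left _ _, fun e => ?_, hnet⟩, fun x hx => (hσε x hx).trans (min_le_right _ _)⟩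
  · intro q hq x hx
    exact hστ q hq x (hpartb.sub q hq.1 hx) hx
  · have h1 := hw0 e
    have h2 : δe e ≤ D.β / 2 ^ e.1.1 / (2 * (w e + 1)) := min_le_right _ _
    calc w e * (2 * δe e) ≤ w e * (2 * (D.β / 2 ^ e.1.1 / (2 * (w e + 1)))) := by gcongr
      _ = w e / (w e + 1) * (D.β / 2 ^ e.1.1) := by field_simp
      _ ≤ 1 * (D.β / 2 ^ e.1.1) := by
          gcongr
          rw [div_le_one (by positivity)]
          linarith
      _ = _ := one_mul _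

end PDa

/-- **[PD6]** the data exist -/
theorem exists_pdC {p : ℝ} (hN : NetIn2) (hC : SpecCtrs p) (hS : SpecFill) (hp : 2 < p)
    (hp3 : p < 3) {Ω Λ : Set V} {f : V → V} {F : V → Mat} (hΩ : St.IsBoundedDomain Ω)
    (hΛ : St.IsBoundedDomain Λ) (hf : St.IsHomeo Ω Λ f) (hF : St.IsSobolev p Ω f F)
    (hFD : FinDist Ω F) {ε δ : ℝ} (hε : 0 < ε) (hδ : 0 < δ)
    (Φ : ℕ → Finset (Fin 3 → ℤ) → ((Fin 3 → ℤ) → V → V) → ℝ) {s : V → ℝ}
    (hs : ContinuousOn s Ω) (hs0 : ∀ x ∈ Ω, 0 < s x) :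
    ∃ D : PD p ε δ Φ Ω Λ f F, ∀ x ∈ Ω, D.σ x ≤ s x := by
  obtain ⟨Cf, Kf, κf, hCf, hκf, hNet⟩ := netW_of hN
  obtain ⟨CC, hCC, hCt⟩ := ctrsW_of hC
  obtain ⟨D⟩ := exists_pda hp hε hδ hCC Kf hCf hκf hΩ hΛ hf hF hFD
  -- the first layer of tiles
  obtain ⟨m', hm'1, hm'2⟩ := ((ev_div_le (Φ D.N D.J D.A * ((gB D.H (D.n + D.ks + D.kt)).card *
    (6 * (9 / D.θ * (2 / 2 ^ D.n) ^ 2)))) hε).and
    (eventually_ge_atTop (D.n + D.ks + D.kt))).exists
  obtain ⟨c, hmid, hfar, hgood, hint⟩ := D.exists_c hΩ hΛ hf hS hCt hm'2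
  obtain ⟨R⟩ := D.exists_mesh hp hδ hΛ hf hm'2 hmid hgood
  obtain ⟨T, hT⟩ := D.exists_netC hNet hp hε hΩ hΛ hf R hs hs0
  exact ⟨{
    toPD0 := D.pd0 m' c
    bΩ := hΩ, bΛ := hΛ, hf := hf, hF := hF, hp := hp, hp3 := hp3, hε := hε, hδ := hδ
    M0 := D.M0
    C0 := hCf _ _
    κ0 := kap_pos hCf hκf D.H.θ0 _
    κC := (min_le_right _ _).trans (min_le_right _ _)
    a0 := D.a0
    a1 := D.a1
    β0 := D.β0
    m2 := D.m2
    nm := Nat.le_add_right _ _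
    mmt := Nat.add_le_add_left D.kt2 _
    mtm := hm'2
    nr := R.nr
    mnr := R.mnr
    η1 := by
      have h1 := D.η1
      have hn : (0:ℝ) < 1 / 2 ^ D.n := by positivity
      have h2 := mul_le_mul_of_nonneg_right h1 hn.le
      show Cf D.θ D.M / 2 ^ (D.n + D.k₁) ≤ D.a₁ / 2 ^ (D.n + D.ks) / 2
      rw [pow_add, pow_add]
      refine le_trans (le_of_eq ?_) (h2.trans (le_of_eq ?_)) <;> ring
    η2 := by
      have h1 := D.η2
      have hn : (0:ℝ) < 1 / 2 ^ D.n := by positivity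
      have h2 := mul_le_mul_of_nonneg_right h1 hn.le
      show 2 * (Cf D.θ D.M / 2 ^ (D.n + D.k₁)) + D.M * (1 / 2 ^ (D.n + D.k₁)) ≤
        δ * (D.a₁ / 2 ^ (D.n + D.ks) / 2)
      rw [pow_add, pow_add]
      refine le_trans (le_of_eq ?_) (h2.trans (le_of_eq ?_)) <;> ring
    η3 := D.η3
    η4 := D.η4
    r1 := R.r1, r2 := R.r2, r3 := R.r3, r4 := R.r4, r5 := R.r5, r6 := R.r6
    aff := D.aff
    fine := D.fine
    N := D.N
    dyL := D.dyL
    dyA := D.dyA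
    εc := D.εc
    es1 := D.es1
    es2 := D.es2
    εf := D.ef
    fill := D.fill hS
    Gm := D.Gm
    Gfin := D.Gfin
    rat := D.gen.rat
    efin := fun e he => efin_of (by linarith) D.gen he
    rep := D.gen.rep
    own := D.own
    surf := D.surf
    mid := hmid
    far := hfar
    Bg := R.Bg
    nf := R.nf
    τ := R.τ
    τ0 := R.τ0
    e := R.e
    mesh := R.mesh
    εe := D.εe
    esum := R.esum
    εI := CC * (D.εc + ENNReal.ofReal D.M ^ p * D.ef)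
    int := hint
    h := T.h
    σ := T.σ
    δe := T.δe
    σε := T.σε
    στ := T.στ
    δ0 := T.δ0
    δ1 := T.δ1
    δ2 := T.δ2
    net := T.net
    K := D.K
    Ksub := D.Ksub
    Kc := D.Kc
    Kvol := D.Kvol
    osc := D.osc
    b1 := D.c1
    b2 := D.bud2 hε
    b3 := D.bud3
    b4 := by
      refine le_trans (le_of_eq ?_) hm'1
      show Φ D.N D.J D.A * ((gB D.H (D.n + D.ks + D.kt)).card *
        (6 * (9 / D.θ * (2 / 2 ^ D.n) ^ 2 * (1 / 2 ^ m')))) = _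
      ring }, hT⟩

end Vale.Agent.P073.H333
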