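import Vale.Agent.P073.H73.CA7

/-!
# P073, branch A with closeness: the conclusion for finite distortion
-/

namespace Vale.Agent.P073.H73

open MeasureTheory Set Filter Topology Metric Vale.Agent.P073.St Vale.Agent.P073.AB
open Vale.Agent.P073.SQ (ev cube Cells)
open _root_.P073 (ConHomeo)
open _root_.P073.Net (dyc dyo IsTile SizeFn)
open scoped ENNReal

/-- the data for a larger error -/
noncomputable def Pre.mono {p ε ε' δ W₀ : ℝ}
    {Φ : ℕ → Finset (Fin 3 → ℤ) → ((Fin 3 → ℤ) → V → V) → ℝ}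
    {Ω Λ : Set V} {f : V → V} {F : V → Mat} (P : Pre p ε δ W₀ Φ Ω Λ f F) (h : ε ≤ ε') :
    Pre p ε' δ W₀ Φ Ω Λ f F :=
  { P with
    tsmall := fun y => (P.tsmall y).trans h
    near := fun x hx => (P.near x hx).trans h
    sum := P.sum.trans (ENNReal.ofReal_le_ofReal h)
    cut := P.cut.trans (ENNReal.ofReal_le_ofReal h)
    s1 := P.s1.trans (ENNReal.ofReal_le_ofReal h)
    s2 := P.s2.trans (ENNReal.ofReal_le_ofReal h)
    Kvol := P.Kvol.trans (ENNReal.ofReal_le_ofReal h)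
    osc := fun x hx q hq hxq y hy => (P.osc x hx q hq hxq y hy).trans h }

/-- the cells of a partition of a set of finite volume: finitely many large ones -/
theorem part_large {Ω : Set V} (hΩ : volume Ω ≠ ⊤) {v : V} {I : Set Idx} (hI : Part Ω v I) {d : ℝ}
    (hd : 0 < d) : {q | q ∈ I ∧ d < 1 / 2 ^ q.1}.Finite := by
  have h1 := tsum_volume_le hI (S := I) Subset.rfl (fun q hq => hI.sub q hq)
  have h2 : ∑' q : I, volume (dyc v q.1.1 q.1.2) ≠ ⊤ := ne_top_of_le_ne_top hΩ h1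
  have h3 := ENNReal.finite_const_le_of_tsum_ne_top h2 (ε := ENNReal.ofReal (d ^ 3))
    (by simpa using by positivity)
  refine (h3.image (Subtype.val : I → Idx)).subset ?_
  rintro q ⟨hq, hdq⟩
  refine ⟨⟨q, hq⟩, ?_, rfl⟩
  show ENNReal.ofReal (d ^ 3) ≤ volume (dyc v q.1 q.2)
  rw [S308.volume_dyc]
  apply ENNReal.ofReal_le_ofReal
  have e : (1 / 8 ^ q.1 : ℝ) = (1 / 2 ^ q.1) ^ 3 := by
    rw [show (8:ℝ) ^ q.1 = (2 ^ q.1) ^ 3 by rw [← pow_mul, mul_comm, pow_mul]; norm_num]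
    field_simp
  rw [e]
  gcongr

/-- a small oscillation forces a small size -/
theorem exists_forces {Ω Λ : Set V} {f : V → V} (hΩ : St.IsBoundedDomain Ω)
    (hf : St.IsHomeo Ω Λ f) {δ₁ : ℝ} (hδ₁ : 0 < δ₁) :
    ∃ ε₂ > 0, ∀ (K : Set V) (n : ℕ) (ε : ℝ), ε ≤ ε₂ → K ⊆ Ω → volume (Ω \ K) ≤ ENNReal.ofReal ε →
      (∀ x ∈ K, ∀ y, ‖y - x‖ ≤ 1 / 2 ^ n → ‖f y - f x‖ ≤ ε) → 1 / 2 ^ n ≤ δ₁ := by
  obtain ⟨f', hff', hfc, hfc'⟩ := hf
  obtain ⟨x₀, hx₀⟩ : Ω.Nonempty := hΩ.2.1.nonempty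
  obtain ⟨r₀, hr₀, hball⟩ := Metric.isOpen_iff.1 hΩ.1 x₀ hx₀
  set r : ℝ := min (r₀ / 3) δ₁ with hr
  have hr0 : 0 < r := lt_min (by positivity) hδ₁
  have hr1 : r ≤ r₀ / 3 := min_le_left _ _
  have hr2 : r ≤ δ₁ := min_le_right _ _
  set e : V := fun _ => r with he
  have hen : ‖e‖ = r := by
    rw [he, pi_norm_const, Real.norm_of_nonneg hr0.le]
  have hB1 : closedBall x₀ r ⊆ Ω := fun x hx => hball (by
    rw [mem_ball]; have := mem_closedBall.1 hx; linarith)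
  have hB2 : ∀ x ∈ closedBall x₀ r, x + e ∈ Ω := fun x hx => hball (by
    rw [mem_ball, dist_eq_norm]
    have h1 := mem_closedBall.1 hx
    rw [dist_eq_norm] at h1
    have h2 : x + e - x₀ = (x - x₀) + e := by abel
    rw [h2]
    have := norm_add_le (x - x₀) e
    linarith)
  have hinj : InjOn f Ω := by
    intro a ha b hb hab
    rw [← (hff'.1 a ha).2, ← (hff'.1 b hb).2, hab]
  have hcont : ContinuousOn (fun x => ‖f (x + e) - f x‖) (closedBall x₀ r) := by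
    refine ((ContinuousOn.comp (g := f) (t := Ω) hfc (by fun_prop) fun x hx => hB2 x hx).sub
      (hfc.mono hB1)).norm
  obtain ⟨x₁, hx₁, hmin⟩ := (isCompact_closedBall x₀ r).exists_isMinOn
    ⟨x₀, mem_closedBall_self hr0.le⟩ hcont
  have hc0 : 0 < ‖f (x₁ + e) - f x₁‖ := by
    rw [norm_pos_iff, sub_ne_zero]
    intro h
    have h1 := hinj (hB2 x₁ hx₁) (hB1 hx₁) h
    have h2 : e = 0 := by simpa using h1
    rw [h2, norm_zero] at hen
    linarith
  set c : ℝ := ‖f (x₁ + e) - f x₁‖ with hc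
  have hvol : 0 < volume (closedBall x₀ r) := measure_closedBall_pos _ _ hr0
  have hvolt : volume (closedBall x₀ r) ≠ ⊤ := (isCompact_closedBall x₀ r).measure_lt_top.ne
  set v₀ : ℝ := (volume (closedBall x₀ r)).toReal with hv₀
  have hv0 : 0 < v₀ := ENNReal.toReal_pos hvol.ne' hvolt
  refine ⟨min (c / 2) (v₀ / 2), lt_min (by positivity) (by positivity), ?_⟩
  intro K n ε hε hK hKv hosc
  have hε1 : ε ≤ c / 2 := hε.trans (min_le_left _ _)
  have hε2 : ε ≤ v₀ / 2 := hε.trans (min_le_right _ _)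
  by_contra hcon
  rw [not_le] at hcon
  obtain ⟨x, hxK, hxB⟩ : ∃ x ∈ K, x ∈ closedBall x₀ r := by
    by_contra hno
    push Not at hno
    have h1 : closedBall x₀ r ⊆ Ω \ K := fun x hx => ⟨hB1 hx, fun h => hno x h hx⟩
    have h2 := (measure_mono h1).trans hKv
    have h3 : volume (closedBall x₀ r) = ENNReal.ofReal v₀ := (ENNReal.ofReal_toReal hvolt).symm
    rw [h3] at h2
    have h4 := (ENNReal.ofReal_le_ofReal_iff' (p := v₀) (q := ε)).1 h2
    rcases h4 with h4 | h4 <;> linarith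
  have h1 : ‖(x + e) - x‖ ≤ 1 / 2 ^ n := by
    rw [add_sub_cancel_left, hen]
    linarith
  have h2 := hosc x hxK (x + e) h1
  have h3 : c ≤ ‖f (x + e) - f x‖ := hmin hxB
  linarith

/-- branch A with closeness, finite distortion -/
def CloseFD (q : ℝ) : Prop :=
  ∀ (Ω Λ : Set V) (f : V → V) (F : V → Mat), St.IsBoundedDomain Ω → St.IsBoundedDomain Λ →
    St.IsHomeo Ω Λ f → St.IsSobolev q Ω f F → FinDist Ω F → UniformContinuousOn f Ω →
    ∀ ε > 0, ∃ φ : V → V, St.IsDiffeo Ω Λ φ ∧ CloseB ε Ω φ f ∧ err q Ω f F φ ≤ ENNReal.ofReal ε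

/-- branch A with closeness -/
def CloseA (q : ℝ) : Prop :=
  ∀ (Ω Λ : Set V) (f : V → V) (F : V → Mat), St.IsBoundedDomain Ω → St.IsBoundedDomain Λ →
    St.IsHomeo Ω Λ f → St.IsSobolev q Ω f F → UniformContinuousOn f Ω →
    ∀ ε > 0, ∃ φ : V → V, St.IsDiffeo Ω Λ φ ∧ CloseB ε Ω φ f ∧ err q Ω f F φ ≤ ENNReal.ofReal ε

theorem hfin_of {Ω : Set V} {v : V} {I : Set Idx} (hI : Part Ω v I) {C : Set V} (hC : IsCompact C)
    (hCΩ : C ⊆ Ω) {S : Set Idx} (hS : ∀ q ∈ S, q ∈ I ∧ (dyc v q.1 q.2 ∩ C).Nonempty) :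
    S.Finite := (hI.fin C hCΩ hC).subset hS

/-- **[CA1]** -/
theorem closeFD_of {q : ℝ} (hq : 2 < q) (hq3 : q < 3) (hK : K2A q) : CloseFD q := by
  intro Ω Λ f F hΩ hΛ hf hF hFD huc
  obtain ⟨δ, hδ, Φ, hpost⟩ := specPostC (p := q) (by linarith) hK
  intro ε hε
  refine smooth_of_conFaceC (by linarith) hq3 hΩ hΛ (fun ε hε => ?_) hε
  obtain ⟨ε', hε', hpost⟩ := hpost ε hε
  rw [Metric.uniformContinuousOn_iff] at huc
  have huc' : ∀ η > 0, ∃ d > 0, ∀ x ∈ Ω, ∀ y ∈ Ω, ‖x - y‖ ≤ d → ‖f x - f y‖ ≤ η := by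
    intro η hη
    obtain ⟨d, hd, h⟩ := huc η hη
    refine ⟨d / 2, by positivity, fun x hx y hy hxy => ?_⟩
    rw [← dist_eq_norm]
    exact (h x hx y hy (by rw [dist_eq_norm]; linarith)).le
  obtain ⟨δ₁, hδ₁, hosc⟩ := huc' ε' hε'
  obtain ⟨ε₂, hε₂, hforce⟩ := exists_forces hΩ hf hδ₁
  have hne : (Ωᶜ : Set V).Nonempty := by
    by_contra hcon
    have h0 : Ω = univ := by
      rw [not_nonempty_iff_eq_empty, compl_empty_iff] at hcon
      exact hcon
    have h1 := PK.isBounded_of_domain hΩ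
    rw [h0] at h1
    exact NormedSpace.unbounded_univ ℝ V h1
  obtain ⟨D, hDs⟩ := H333.exists_pdC H333.netIn2 (H622.specCtrs hq hq3) H333.specFill hq hq3 hΩ hΛ
    hf hF hFD (ε := min ε' ε₂) (lt_min hε' hε₂) hδ Φ (s := fun x => infDist x Ωᶜ)
    (continuous_infDist_pt _).continuousOn (fun x hx => by
      rw [← (hΩ.1.isClosed_compl).notMem_iff_infDist_pos hne]
      exact fun h => h hx)
  have hn : (1:ℝ) / 2 ^ D.n ≤ δ₁ := hforce D.K D.n _ (min_le_right _ _) D.Ksub D.Kvol D.osc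
  have hpart : Part Ω D.v D.I := D.part
  refine hpost Ω Λ f F hΩ hΛ (D.pre.mono (min_le_left _ _)) ⟨?_, ?_, ?_, ?_⟩
  · -- oscillation
    intro r hr x hx y hy
    obtain ⟨r', hr', hs⟩ := D.ref.sub_base hr
    have h1 := H333.dyc_near (hs hy) (hs hx)
    have h2 : (1:ℝ) / 2 ^ r'.1 ≤ 1 / 2 ^ D.n := by
      apply one_div_le_one_div_of_le (by positivity)
      exact pow_le_pow_right₀ (by norm_num) (D.base_gen hr')
    exact hosc x (hpart.sub r hr hx) y (hpart.sub r hr hy) (by linarith)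
  · intro η hη
    obtain ⟨d, hd, hdo⟩ := huc' η hη
    refine (part_large (PK.volume_ne_top_of_domain hΩ) hpart hd).subset ?_
    rintro r ⟨hr, x, hx, y, hy, hlt⟩
    refine ⟨hr, ?_⟩
    by_contra hcon
    rw [not_lt] at hcon
    have h1 := H333.dyc_near hy hx
    have h2 := hdo x (hpart.sub r hr hx) y (hpart.sub r hr hy) (by linarith)
    linarith
  · intro η hη
    obtain ⟨hc1, hc2⟩ := compact_depth hΩ hη
    have hJc : IsCompact (⋃ z ∈ D.J, dyc D.v D.n z) :=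
      D.J.finite_toSet.isCompact_biUnion fun z _ => P86.isCompact_dyc _ _ _
    have hJΩ : (⋃ z ∈ D.J, dyc D.v D.n z) ⊆ Ω :=
      iUnion₂_subset fun z hz => D.H.sub z hz
    refine hfin_of hpart (hJc.union hc1) (union_subset hJΩ hc2) ?_
    rintro r ⟨hr, y, hy, hlt⟩
    refine ⟨hr, y, hy, ?_⟩
    by_cases h : ∃ z ∈ D.J, y ∈ dyc D.v D.n z
    · obtain ⟨z, hz, hyz⟩ := h
      exact Or.inl (mem_iUnion₂.2 ⟨z, hz, hyz⟩)
    · right
      have hyΩ := hpart.sub r hr hy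
      have h1 := (D.net.off y hyΩ (by
        rintro ⟨n', z⟩ ⟨hn', hz⟩ hxi
        have hn' : n' = D.n := hn'
        subst hn'
        exact h ⟨z, hz, interior_subset hxi⟩)).trans (hDs y hyΩ)
      have hlt' : η < ‖D.h.toFun y - f y‖ := hlt
      show η ≤ infDist y Ωᶜ
      linarith
  · intro η hη
    obtain ⟨hc1, hc2⟩ := compact_depth hΛ hη
    have hC : IsCompact (D.h.invFun '' {y | η ≤ infDist y Λᶜ}) :=
      hc1.image_of_continuousOn (D.h.cont_inv.mono hc2)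
    have hCΩ : D.h.invFun '' {y | η ≤ infDist y Λᶜ} ⊆ Ω := by
      rintro _ ⟨y, hy, rfl⟩
      exact D.h.mapsTo_inv (hc2 hy)
    refine hfin_of hpart hC hCΩ ?_
    rintro r ⟨hr, y, hy, hlt⟩
    have hyΩ := hpart.sub r hr hy
    refine ⟨hr, y, hy, D.h.toFun y, ?_, D.h.left_inv hyΩ⟩
    have hlt' : η < D.ρ (D.h.toFun y) := hlt
    have hneΛ : (Λᶜ : Set V).Nonempty := by
      by_contra hcon
      have h0 : Λ = univ := by
        rw [not_nonempty_iff_eq_empty, compl_empty_iff] at hcon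
        exact hcon
      have h1 := PK.isBounded_of_domain hΛ
      rw [h0] at h1
      exact NormedSpace.unbounded_univ ℝ V h1
    show η ≤ infDist (D.h.toFun y) Λᶜ
    rw [le_infDist hneΛ]
    intro w hw
    have h1 := D.size.lip (D.h.toFun y) w
    have h2 := D.size.off w hw
    rw [dist_eq_norm]
    linarith

end Vale.Agent.P073.H73
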