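import Vale.Agent.P073.H73.CA8
import Vale.Agent.P073.H471.K2AofC
import Vale.Agent.P073.H267.K2C

/-!
# P073, branch A with closeness, finite distortion, `2 < q < 3`
-/

namespace Vale.Agent.P073.H73

theorem k2a_all {q : ℝ} (hq : 2 < q) : K2A q :=
  k2a_of_k2as (H471.k2as_of_k2c (by linarith) (_root_.P073.H267.k2c (by linarith)))

/-- **[CA1]**, without hypotheses -/
theorem closeFD {q : ℝ} (hq : 2 < q) (hq3 : q < 3) : CloseFD q := closeFD_of hq hq3 (k2a_all hq)

end Vale.Agent.P073.H73
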