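import Vale.Agent.P073.H73.Polar3
import Vale.Agent.P073.AB.Final
import Vale.Agent.P073.AB.Spec
import Vale.Agent.P073.H880.Approx

/-!
# P073: the last step for `1 ≤ p < 3`: diffeomorphisms with small energies on the faces

The analogue of block AB1 (`AB/Final.lean`) for `1 ≤ p < 3`, if all squares are controlled.
-/

namespace Vale.Agent.P073.H73

open MeasureTheory Set Filter Topology Metric Vale.Agent.P073.St Vale.Agent.P073.AB
open Vale.Agent.P073.SQ (ev cube Cells dE faceE)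
open scoped ContDiff ENNReal

variable {p : ℝ} {Ω Λ R : Set V}

/-- Cells with controlled squares only, a protected set `R`, and a diffeomorphism `G` which is good
on `R` and has small energy on the faces of the cells. -/
def GoodFace (p ε : ℝ) (Ω Λ : Set V) (f : V → V) (F : V → Mat) : Prop :=
  ∃ (R : Set V) (W : Cells Ω R) (G : V → V), (∀ q, q ∈ W.ctrl) ∧ MeasurableSet R ∧ R ⊆ Ω ∧
    St.IsDiffeo Ω Λ G ∧
    ∑ j, ∫⁻ x in R, ENNReal.ofReal (‖fderiv ℝ G x (ev j) - cl (F x) (ev j)‖ ^ p) ≤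
      ENNReal.ofReal ε ∧
    ∑' i, W.en p G i ≤ ENNReal.ofReal ε ∧
    ∑ j, ∫⁻ x in Ω \ R, ENNReal.ofReal (‖cl (F x) (ev j)‖ ^ p) ≤ ENNReal.ofReal ε ∧
    ∃ K ⊆ Ω, MeasurableSet K ∧ volume (Ω \ K) ≤ ENNReal.ofReal ε ∧
      (∀ x ∈ K ∩ R, ‖G x - f x‖ ≤ ε) ∧
      ∀ i, ∀ x ∈ K ∩ cube (W.c i) (W.ρ i), ∀ y ∈ W.net i, ‖G y - f x‖ ≤ ε

/-- the derivative part, for every exponent -/
theorem deriv_part3 (hp : 1 ≤ p) (hΩ : IsOpen Ω) (W : Cells Ω R)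
    (hR : MeasurableSet R) (hRΩ : R ⊆ Ω) {F : V → Mat} {g G : V → V}
    (hg : ContDiffOn ℝ ∞ g Ω) (hG : ContDiffOn ℝ ∞ G Ω) (h : ∀ x ∈ R, g x = G x)
    {e₁ e₂ e₃ e₄ C : ℝ≥0∞} {ε' : W.ι → ℝ≥0∞} (hε' : ∑' i, ε' i ≤ e₄)
    (h1 : ∑ j, ∫⁻ x in R, ENNReal.ofReal (‖fderiv ℝ G x (ev j) - cl (F x) (ev j)‖ ^ p) ≤ e₁)
    (h2 : ∑' i, W.en p G i ≤ e₂)
    (h3 : ∑ j, ∫⁻ x in Ω \ R, ENNReal.ofReal (‖cl (F x) (ev j)‖ ^ p) ≤ e₃)
    (h4 : ∀ i, ∑ j, ∫⁻ x in cube (W.c i) (W.ρ i), dE p g j x ≤ C * W.en p G i + ε' i) :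
    ∑ j, ∫⁻ x in Ω, ENNReal.ofReal (‖fderiv ℝ g x (ev j) - cl (F x) (ev j)‖ ^ p) ≤
      e₁ + 2 ^ (p - 1) * (C * e₂ + e₄ + e₃) := by
  have hsplit : ∀ φ : V → ℝ≥0∞, ∫⁻ x in Ω, φ x = (∫⁻ x in R, φ x) + ∫⁻ x in Ω \ R, φ x := by
    intro φ
    rw [← lintegral_inter_add_sdiff φ Ω hR, inter_eq_right.2 hRΩ]
  simp_rw [hsplit]
  rw [Finset.sum_add_distrib]
  refine add_le_add ?_ ?_
  · refine le_trans (le_of_eq ?_) h1
    refine Finset.sum_congr rfl fun j _ => ?_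
    refine lintegral_congr_ae ?_
    filter_upwards [fderiv_eq_on hΩ hR hRΩ hg hG h] with x hx
    rw [hx]
  · have h5 : ∑ j, ∫⁻ x in Ω \ R, ENNReal.ofReal (‖fderiv ℝ g x (ev j)‖ ^ p) ≤ C * e₂ + e₄ := by
      refine (energy_off W g).trans ?_
      calc ∑' i, ∑ j, ∫⁻ x in cube (W.c i) (W.ρ i), dE p g j x
          ≤ ∑' i, (C * W.en p G i + ε' i) := ENNReal.tsum_le_tsum h4
        _ = C * ∑' i, W.en p G i + ∑' i, ε' i := by rw [ENNReal.tsum_add, ENNReal.tsum_mul_left]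
        _ ≤ C * e₂ + e₄ := by gcongr
    calc ∑ j, ∫⁻ x in Ω \ R, ENNReal.ofReal (‖fderiv ℝ g x (ev j) - cl (F x) (ev j)‖ ^ p)
        ≤ ∑ j, 2 ^ (p - 1) * ((∫⁻ x in Ω \ R, ENNReal.ofReal (‖fderiv ℝ g x (ev j)‖ ^ p)) +
          ∫⁻ x in Ω \ R, ENNReal.ofReal (‖cl (F x) (ev j)‖ ^ p)) := by
          refine Finset.sum_le_sum fun j _ => ?_
          have hm : Measurable fun x => ENNReal.ofReal (‖fderiv ℝ g x (ev j)‖ ^ p) :=
            ((measurable_fderiv_apply_const ℝ g (ev j)).norm.pow_const p).ennreal_ofReal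
          rw [← lintegral_add_left hm, ← lintegral_const_mul' _ _ H880.two_rpow_ne_top]
          refine lintegral_mono fun x => ?_
          have := H880.add_rpow_le hp (fderiv ℝ g x (ev j)) (-cl (F x) (ev j))
          rwa [← sub_eq_add_neg, norm_neg] at this
      _ = 2 ^ (p - 1) * (∑ j, (∫⁻ x in Ω \ R, ENNReal.ofReal (‖fderiv ℝ g x (ev j)‖ ^ p)) +
          ∑ j, ∫⁻ x in Ω \ R, ENNReal.ofReal (‖cl (F x) (ev j)‖ ^ p)) := by
          rw [← Finset.mul_sum, Finset.sum_add_distrib]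
      _ ≤ 2 ^ (p - 1) * (C * e₂ + e₄ + e₃) := by gcongr

/-- the last step, with the error written out, `1 ≤ p < 3` -/
theorem exists_err3 {f : V → V} {F : V → Mat} (hp : 1 ≤ p) (hp3 : p < 3)
    (hΩ : St.IsBoundedDomain Ω) (hΛ : St.IsBoundedDomain Λ) (hf : St.IsHomeo Ω Λ f)
    (H : ∀ ε > 0, GoodFace p ε Ω Λ f F) :
    ∃ b : ℝ → ℝ≥0∞, (∀ ε, b ε ≠ ⊤) ∧
      Tendsto (fun k : ℕ => b (1 / ((k : ℝ) + 1))) atTop (𝓝 0) ∧
      ∀ ε > 0, ∃ g : V → V, St.IsDiffeo Ω Λ g ∧ err p Ω f F g ≤ b ε := by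
  have hp0 : 0 < p := by linarith
  obtain ⟨C, hC, hmain⟩ := specSQ3 p hp hp3
  obtain ⟨f', hff', hfc, hfc'⟩ := hf
  obtain ⟨D, hD0, hD⟩ := norm_bound_of_domain hΛ
  have hΩv := PK.volume_ne_top_of_domain hΩ
  let b : ℝ → ℝ≥0∞ := fun ε =>
    (ENNReal.ofReal ((2 * D) ^ p) * (ENNReal.ofReal ε + ENNReal.ofReal ε) +
      ENNReal.ofReal ((2 * ε) ^ p) * volume Ω) +
    (ENNReal.ofReal ε + 2 ^ (p - 1) * (C * ENNReal.ofReal ε + ENNReal.ofReal ε +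
      ENNReal.ofReal ε))
  have hbt : ∀ ε, b ε ≠ ⊤ := by
    intro ε
    have h1 : ENNReal.ofReal ε ≠ ⊤ := ENNReal.ofReal_ne_top
    refine ENNReal.add_ne_top.2 ⟨ENNReal.add_ne_top.2 ⟨?_, ?_⟩, ENNReal.add_ne_top.2 ⟨h1, ?_⟩⟩
    · exact ENNReal.mul_ne_top ENNReal.ofReal_ne_top (ENNReal.add_ne_top.2 ⟨h1, h1⟩)
    · exact ENNReal.mul_ne_top ENNReal.ofReal_ne_top hΩv
    · exact ENNReal.mul_ne_top H880.two_rpow_ne_top
        (ENNReal.add_ne_top.2 ⟨ENNReal.add_ne_top.2 ⟨ENNReal.mul_ne_top hC h1, h1⟩, h1⟩)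
  have hstep : ∀ ε > 0, ∃ g : V → V, St.IsDiffeo Ω Λ g ∧ err p Ω f F g ≤ b ε := by
    intro ε hε
    obtain ⟨R, W, G, hctrl, hRm, hRΩ, hG, h1, h2, h3, K, hKΩ, hKm, hKv, hKR, hKi⟩ := H ε hε
    have := W.cnt
    have hGs := diffeo_smooth hG
    obtain ⟨ε', hε'0, hε'⟩ := ENNReal.exists_pos_sum_of_countable'
      (ε := ENNReal.ofReal ε) (by simpa using hε) W.ι
    choose d hd0 hd using exists_modulus W hGs.continuousOn hε
    obtain ⟨s, hs, hsR, hsi, -, hsE⟩ := hmain Ω Λ R W G ε' d hΩ.1 hΛ.1 hctrl hG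
      (fun i => (hε'0 i).ne') hd0
    have hg := isDiffeo_comp hs hG
    have hgs := diffeo_smooth hg
    refine ⟨G ∘ s, hg, add_le_add ?_ ?_⟩
    · refine zero_part hp hΩ.1 W (G := G) (s := s) (f := f) (g := G ∘ s) hε (fun x => rfl)
        hfc hgs.continuousOn (fun x hx => ?_) hε'.le hd hsR hsi hKv hKR hKi
        fun i => (hsE i).2
      have e1 := hD _ (diffeo_maps hg hx)
      have e2 := hD _ (hff'.1 x hx).1
      refine (norm_sub_le _ _).trans ?_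
      linarith
    · exact deriv_part3 hp hΩ.1 W hRm hRΩ hgs hGs
        (fun x hx => by simp only [Function.comp, hsR x hx]) hε'.le h1 h2 h3
        fun i => (hsE i).1
  have hlim0 : Tendsto (fun k : ℕ => 1 / ((k : ℝ) + 1)) atTop (𝓝 0) :=
    tendsto_one_div_add_atTop_nhds_zero_nat
  have hlim : Tendsto (fun k : ℕ => b (1 / ((k : ℝ) + 1))) atTop (𝓝 0) := by
    have e1 : Tendsto (fun k : ℕ => ENNReal.ofReal (1 / ((k : ℝ) + 1))) atTop (𝓝 0) := by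
      have := ENNReal.tendsto_ofReal hlim0
      simpa using this
    have e2 : Tendsto (fun k : ℕ => ENNReal.ofReal ((2 * (1 / ((k : ℝ) + 1))) ^ p)) atTop
        (𝓝 0) := by
      have h1 : Tendsto (fun k : ℕ => (2 * (1 / ((k : ℝ) + 1))) ^ p) atTop
          (𝓝 ((2 * 0) ^ p)) := (hlim0.const_mul 2).rpow_const (Or.inr hp0.le)
      rw [mul_zero, Real.zero_rpow hp0.ne'] at h1
      have := ENNReal.tendsto_ofReal h1
      simpa using this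
    have e3 : Tendsto (fun k : ℕ => ENNReal.ofReal ((2 * D) ^ p) *
        (ENNReal.ofReal (1 / ((k : ℝ) + 1)) + ENNReal.ofReal (1 / ((k : ℝ) + 1)))) atTop
        (𝓝 (ENNReal.ofReal ((2 * D) ^ p) * (0 + 0))) :=
      ENNReal.Tendsto.const_mul (e1.add e1) (Or.inr ENNReal.ofReal_ne_top)
    have e4 : Tendsto (fun k : ℕ => ENNReal.ofReal ((2 * (1 / ((k : ℝ) + 1))) ^ p) * volume Ω)
        atTop (𝓝 (0 * volume Ω)) := ENNReal.Tendsto.mul_const e2 (Or.inr hΩv)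
    have e5 : Tendsto (fun k : ℕ => C * ENNReal.ofReal (1 / ((k : ℝ) + 1))) atTop
        (𝓝 (C * 0)) := ENNReal.Tendsto.const_mul e1 (Or.inr hC)
    have e6 := (e3.add e4).add (e1.add (ENNReal.Tendsto.const_mul (a := 2 ^ (p - 1))
      ((e5.add e1).add e1) (Or.inr H880.two_rpow_ne_top)))
    simpa using e6
  exact ⟨b, hbt, hlim, hstep⟩

/-- **the last step for `1 ≤ p < 3`** (diffeomorphisms) -/
theorem approx_of_goodFace {f : V → V} {F : V → Mat} (hp : 1 ≤ p) (hp3 : p < 3)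
    (hΩ : St.IsBoundedDomain Ω) (hΛ : St.IsBoundedDomain Λ) (hf : St.IsHomeo Ω Λ f)
    (hF : St.IsSobolev p Ω f F) (H : ∀ ε > 0, GoodFace p ε Ω Λ f F) :
    St.DiffeoApproximable p Ω Λ f F := by
  obtain ⟨b, hbt, hlim, hstep⟩ := exists_err3 hp hp3 hΩ hΛ hf H
  obtain ⟨f', hff', hfc, hfc'⟩ := hf
  exact H880.approximable_of hp hΩ hΛ hfc hF hlim (fun k => hbt _)
    fun k => hstep _ (by positivity)

/-- the last step: small error -/
theorem exists_small_err3 {f : V → V} {F : V → Mat} (hp : 1 ≤ p) (hp3 : p < 3)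
    (hΩ : St.IsBoundedDomain Ω) (hΛ : St.IsBoundedDomain Λ) (hf : St.IsHomeo Ω Λ f)
    (H : ∀ ε > 0, GoodFace p ε Ω Λ f F) {ε : ℝ} (hε : 0 < ε) :
    ∃ g : V → V, St.IsDiffeo Ω Λ g ∧ err p Ω f F g ≤ ENNReal.ofReal ε := by
  obtain ⟨b, hbt, hlim, hstep⟩ := exists_err3 hp hp3 hΩ hΛ hf H
  obtain ⟨k, hk⟩ := (hlim.eventually (gt_mem_nhds (ENNReal.ofReal_pos.2 hε))).exists
  obtain ⟨g, hg, hg'⟩ := hstep (1 / ((k : ℝ) + 1)) (by positivity)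
  exact ⟨g, hg, hg'.trans hk.le⟩

end Vale.Agent.P073.H73
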