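import Vale.Agent.P073.H73.PostB1

/-!
# P073, block A15, SpecPost: application of the face theorem to the cut mesh
-/

namespace Vale.Agent.P073.H73

open MeasureTheory Set Filter Topology Metric Vale.Agent.P073.St Vale.Agent.P073.AB
open Vale.Agent.P073.SQ (ev cube Cells)
open Vale.Agent.P073.AB.P86 (sc rel cen)
open _root_.P073 (ConHomeo)
open _root_.P073.Net (len dyc dyo IsTile SizeFn)
open scoped ENNReal

/-- the inner part of `K2A` -/
def K2Ain (p D : ℝ) (C : ℝ → ℝ) (δ : ℝ) : Prop :=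
    ∀ (Ω Λ : Set V), St.IsBoundedDomain Ω → St.IsBoundedDomain Λ →
    ∀ (w : V) (ρ : V → ℝ), SizeFn Λ ρ →
    ∀ (M : Mesh Ω) (h : ConHomeo Ω Λ) (P : Set M.ι) (c : ℕ → (Fin 3 → ℤ) → V),
    (∀ m z, IsTile ρ w m z → ‖c m z - ctr w m z‖ ≤ 1 / 4 / 2 ^ m) →
    (∀ k, ∀ x ∈ M.F k, ∀ m z, IsTile ρ w m z → h.toFun x ∈ dyc w m z →
      h.toFun x ≠ c m z ∧ ∀ y ∈ M.F k, ‖h.toFun x - h.toFun y‖ ≤ δ * ‖h.toFun x - c m z‖) →
    Aligned w ρ M h.toFun P →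
    ∀ ε : M.κ → ℝ, (∀ k, 0 < ε k) →
    ∃ g : ConHomeo Ω Λ, Out p D C w ρ M h.toFun P univ ε g
      fun e ℓ => ∃ W, WLe w ρ c h.toFun e W ∧
        ENNReal.ofReal W * len (onSeg h.toFun e) (Icc 0 1) ≤ ℓ

theorem k2a_iff {p : ℝ} : K2A p ↔ ∃ (D : ℝ) (C : ℝ → ℝ), ∃ δ > 0, K2Ain p D C δ := Iff.rfl

theorem tsum_of_mem_iff {α : Type*} (E : Finset α) (Q : α → Prop) (h : ∀ e, e ∈ E ↔ Q e)
    (f : α → ℝ≥0∞) : ∑' e : {e // Q e}, f e = ∑ e ∈ E, f e := by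
  obtain rfl : (fun e => e ∈ E) = Q := funext fun e => propext (h e)
  exact Finset.tsum_subtype E f

theorem exists_small_finite {α : Type*} {S : Set α} (hS : S.Finite) {c τ : α → ℝ≥0∞}
    (hc : ∀ a ∈ S, c a ≠ ⊤) (hτ : ∀ a ∈ S, τ a ≠ 0) :
    ∃ t : ℝ, 0 < t ∧ t ≤ 1 ∧ ∀ a ∈ S, c a * ENNReal.ofReal t ≤ τ a := by
  induction S, hS using Set.Finite.induction_on with
  | empty => exact ⟨1, one_pos, le_rfl, by simp⟩
  | @insert a S _ _ ih =>
    obtain ⟨t, ht, ht1, h⟩ := ih (fun b hb => hc b (mem_insert_of_mem _ hb))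
      (fun b hb => hτ b (mem_insert_of_mem _ hb))
    obtain ⟨r, hr, h'⟩ := exists_small (hc a (mem_insert _ _)) (hτ a (mem_insert _ _))
    refine ⟨min t r, lt_min ht hr, (min_le_left _ _).trans ht1, ?_⟩
    intro b hb
    rcases mem_insert_iff.1 hb with rfl | hb
    · exact le_trans (by gcongr; exact min_le_right _ _) h'
    · exact le_trans (by gcongr; exact min_le_left _ _) (h b hb)

section

variable {p ε δ : ℝ} {Φ : ℕ → Finset (Fin 3 → ℤ) → ((Fin 3 → ℤ) → V → V) → ℝ}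
  {Ω Λ : Set V} {f : V → V} {F : V → Mat} (P : Pre p ε δ 16 Φ Ω Λ f F) {CT : ℝ}
  (CM : CutMesh P.geo CT)

/-- the second hypothesis of `K2A` -/
theorem Pre.faces (k : CM.M.κ) {x : V} (hx : x ∈ CM.M.F k) {m : ℕ} {z : Fin 3 → ℤ}
    (hz : IsTile P.ρ 0 m z) (hxz : P.h.toFun x ∈ dyc 0 m z) :
    P.h.toFun x ≠ P.c m z ∧
      ∀ y ∈ CM.M.F k, ‖P.h.toFun x - P.h.toFun y‖ ≤ δ * ‖P.h.toFun x - P.c m z‖ := by
  obtain ⟨q, hq, hkq, hc⟩ := CM.face k
  rcases hc with ⟨s, hs, hks, hb⟩ | ⟨b, hb, y0, hy0, hyf⟩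
  · rw [hks] at hx ⊢
    exact P.cond s hs hb x hx m z hz hxz
  · have hyb : y0 ∈ b.cell P.A := frontier_sub_cell (G := P.geo) hyf
    have hqn : q.1 = P.nr := by
      refine P.unif b hb q hq ⟨y0, hy0, y0, hyb, ?_⟩
      rw [sub_self, norm_zero]; positivity
    have hd : ∀ u ∈ dyc P.v q.1 q.2, ∀ w ∈ dyc P.v q.1 q.2, ‖u - w‖ ≤ 1 / 2 ^ P.nr := by
      intro u hu w hw
      have := S293.dist_dyc hu hw
      rwa [hqn] at this
    obtain ⟨h1, -, h2⟩ := P.zone b hb x ⟨y0, hyf, (hd x (hkq hx) y0 hy0).trans (by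
      gcongr; norm_num)⟩ m z hz hxz
    refine ⟨h1, fun y hy => h2 y ((hd x (hkq hx) y (hkq hy)).trans (by gcongr; norm_num))⟩

/-- **Application of the face theorem.** -/
theorem Pre.exists_g (hp : 1 ≤ p) (hΩ : St.IsBoundedDomain Ω) (hΛ : St.IsBoundedDomain Λ)
    {D : ℝ} {C : ℝ → ℝ} (hK : K2Ain p D C δ) (hade : SpecAde) {T : ℝ} (hT1 : 1 ≤ T)
    (hT : ∀ z ∈ P.J, ∀ w, ‖P.L z w‖ ≤ T * ‖w‖) {τ : Idx × (Idx × Fin 3) → ℝ≥0∞}
    (hτ : ∀ a, τ a ≠ 0) :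
    ∃ g : ConHomeo Ω Λ,
      (∀ k, ∀ x ∈ CM.M.F k, ∀ m z, IsTile P.ρ 0 m z → P.h.toFun x ∈ dyc 0 m z →
        ‖g.toFun x - P.h.toFun x‖ ≤ D / 2 ^ m) ∧
      (∀ k, (∃ b ∈ P.B, ∀ x ∈ CM.M.F k, ∃ y ∈ frontier (b.cell P.A), ‖x - y‖ ≤ 4 / 2 ^ P.nr) →
        ∀ x ∈ CM.M.F k, ∀ y ∈ CM.M.F k,
          ‖g.toFun x - g.toFun y‖ ≤ max (max (C 1) (C CT)) 1 * (32 * T + 1) * ‖x - y‖) ∧
      (∀ b ∈ P.B, g.toFun '' b.cell P.A = b.box) ∧
      (∀ b ∈ P.B, ∀ x ∈ frontier (b.cell P.A), ∀ m z, IsTile P.ρ 0 m z →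
        P.A b.1 x ∈ dyc 0 m z → g.toFun x ∈ dyc 0 m z) ∧
      ∀ i ∈ P.I, P.geo.Far i → ∀ s, MinSq P.v P.I s → squ P.v s ⊆ dyc P.v i.1 i.2 →
        faceL p g.toFun (sc P.v s) s.2 (1 / 2 / 2 ^ s.1.1) ≤
          ENNReal.ofReal (D * (1 / 2 / 2 ^ s.1.1) ^ 2) * 2 ^ (p - 1) *
            ∑' e : {e : Idx × Fin 3 // MinEdge P.v P.I e ∧ edge P.v e ⊆ squ P.v s},
              (ENNReal.ofReal ((1 / 2 ^ e.1.1.1) ^ (1 - p)) * P.ℓ e.1 ^ p) + τ (i, s) := by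
  have hp0 : 0 < p := by linarith
  have hΩo : IsOpen Ω := hΩ.1
  have hcell : ∀ b (hb : b ∈ P.B), CM.M.Q (CM.cell ⟨b, hb⟩) = b.cell P.A := fun b hb =>
    CM.Qcell ⟨b, hb⟩
  -- edges of the faces
  choose Ed hEdne hEd using fun k => hade Ω CM.M hΩo k
  -- the constants in the error terms
  set cs : Idx × Fin 3 → ℝ≥0∞ := fun s => ENNReal.ofReal (D * (1 / 2 / 2 ^ s.1.1) ^ 2) *
    2 ^ (p - 1) * ∑' e : {e : Idx × Fin 3 // MinEdge P.v P.I e ∧ edge P.v e ⊆ squ P.v s},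
      (ENNReal.ofReal ((1 / 2 ^ e.1.1.1) ^ (1 - p)) *
        ENNReal.ofReal (1 / 2 ^ e.1.1.1 / (1 / 2 / 2 ^ s.1.1)) ^ p) with hcs
  have hcst : ∀ i ∈ P.I, P.geo.Far i → ∀ s, MinSq P.v P.I s → squ P.v s ⊆ dyc P.v i.1 i.2 →
      cs s ≠ ⊤ := by
    intro i hi hfar s hs hsub
    obtain ⟨k, hk, E, hE, hA⟩ := CM.far i hi hfar s hs hsub
    rw [hcs]
    simp only
    have h1 := tsum_of_mem_iff E (fun e => MinEdge P.v P.I e ∧ edge P.v e ⊆ squ P.v s) hE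
      (fun e => ENNReal.ofReal ((1 / 2 ^ e.1.1) ^ (1 - p)) *
        ENNReal.ofReal (1 / 2 ^ e.1.1 / (1 / 2 / 2 ^ s.1.1)) ^ p)
    rw [h1]
    refine ENNReal.mul_ne_top (ENNReal.mul_ne_top ENNReal.ofReal_ne_top H880.two_rpow_ne_top) ?_
    refine (ENNReal.sum_lt_top.2 fun e _ => ENNReal.mul_lt_top ENNReal.ofReal_lt_top ?_).ne
    exact ENNReal.rpow_lt_top_of_nonneg hp0.le ENNReal.ofReal_ne_top
  -- the tolerances
  have hex : ∀ k : CM.M.κ, ∃ t : ℝ, 0 < t ∧ t ≤ 1 ∧ (∀ e ∈ Ed k, t ≤ ‖e.2 - e.1‖) ∧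
      ∀ i s, i ∈ P.I → P.geo.Far i → MinSq P.v P.I s → squ P.v s ⊆ dyc P.v i.1 i.2 →
        CM.M.F k = squ P.v s → cs s * ENNReal.ofReal t ≤ τ (i, s) := by
    intro k
    set S : Set (Idx × (Idx × Fin 3)) := {a | a.1 ∈ P.I ∧ P.geo.Far a.1 ∧ MinSq P.v P.I a.2 ∧
      squ P.v a.2 ⊆ dyc P.v a.1.1 a.1.2 ∧ CM.M.F k = squ P.v a.2} with hS
    have hSf : S.Finite := by
      obtain ⟨q, hq, hkq, -⟩ := CM.face k
      have hkc : IsCompact (CM.M.F k) :=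
        (P86.isCompact_dyc _ _ _).of_isClosed_subset (CM.M.isClosed_face k) hkq
      have h1 := P.part.fin _ (CM.M.face_sub k) hkc
      refine (h1.biUnion (t := fun r => Prod.mk r '' {s : Idx × Fin 3 | MinSq P.v P.I s ∧
        squ P.v s ⊆ dyc P.v r.1 r.2}) fun r hr => (P86.finite_minSq P.part hr.1).image _).subset ?_
      rintro ⟨i, s⟩ ⟨hi, -, hs, hsub, hks⟩
      refine mem_iUnion₂.2 ⟨i, ⟨hi, ?_⟩, s, ⟨hs, hsub⟩, rfl⟩
      have h2 : sc P.v s ∈ squ P.v s := P86.rel_sub P86.sc_mem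
      exact ⟨_, hsub h2, hks ▸ h2⟩
    obtain ⟨t, ht, ht1, h⟩ := exists_small_finite hSf (c := fun a => cs a.2) (τ := τ)
      (fun a ha => hcst a.1 ha.1 ha.2.1 a.2 ha.2.2.1 ha.2.2.2.1) (fun a _ => hτ a)
    obtain ⟨r, hr, hr'⟩ : ∃ r : ℝ, 0 < r ∧ ∀ e ∈ Ed k, r ≤ ‖e.2 - e.1‖ := by
      obtain ⟨e0, he0, hmin⟩ := (Ed k).exists_min_image (fun e => ‖e.2 - e.1‖) (hEdne k)
      exact ⟨‖e0.2 - e0.1‖, norm_pos_iff.2 (sub_ne_zero.2 ((hEd k).ne e0 he0).symm), hmin⟩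
    refine ⟨min t r, lt_min ht hr, (min_le_left _ _).trans ht1,
      fun e he => (min_le_right _ _).trans (hr' e he), ?_⟩
    intro i s hi hf hs hsub hks
    refine le_trans ?_ (h (i, s) ⟨hi, hf, hs, hsub, hks⟩)
    gcongr
    exact min_le_left _ _
  choose t ht0 ht1 htE htS using hex
  obtain ⟨g, hg⟩ := hK Ω Λ hΩ hΛ 0 P.ρ P.size CM.M P.h (range CM.cell) P.c P.cmem
    (fun k x hx m z hz hxz => P.faces CM k hx hz hxz) CM.aligned t ht0
  refine ⟨g, hg.close, ?_, ?_, ?_, ?_⟩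
  · -- the near faces
    rintro k ⟨b, hb, hkb⟩ x hx y hy
    have hbJ := P.bJ b hb
    have hA : ∀ u ∈ CM.M.F k, P.h.toFun u = P.A b.1 u := by
      intro u hu
      obtain ⟨w, hw, huw⟩ := hkb u hu
      exact (P.hA b hb u ⟨w, frontier_sub_cell (G := P.geo) hw,
        huw.trans (by gcongr; norm_num)⟩).2
    have h1 := hg.lip k (mem_univ k) (Ed k) (fun e => ENNReal.ofReal (32 * T * ‖e.2 - e.1‖)) (32 * T + 1)
      (hEd k) (fun e he => ?_) x hx y hy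
    · refine h1.trans ?_
      have h2 : C (CM.M.c k) ≤ max (max (C 1) (C CT)) 1 := by
        rcases CM.shape k with h | h <;> rw [h]
        · exact (le_max_left _ _).trans (le_max_left _ _)
        · exact (le_max_right _ _).trans (le_max_left _ _)
      gcongr
    · have hseg := (hEd k).sub e he
      refine ⟨⟨16, ⟨by norm_num, ?_⟩, ?_⟩, ?_⟩
      · intro u hu m z hz huz
        obtain ⟨w, hw, huw⟩ := hkb u (hseg hu)
        exact (P.zone b hb u ⟨w, hw, huw⟩ m z hz huz).2.1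
      · have h3 := len_affine_le (P.aff b.1) (e := e) (h := P.h.toFun)
          (fun u hu => hA u (hseg hu)) (hT b.1 hbJ) (by linarith)
        calc ENNReal.ofReal 16 * _root_.P073.Net.len (onSeg P.h.toFun e) (Icc 0 1)
            ≤ ENNReal.ofReal 16 * ENNReal.ofReal (2 * T * ‖e.2 - e.1‖) := by gcongr
          _ = ENNReal.ofReal (32 * T * ‖e.2 - e.1‖) := by
              rw [← ENNReal.ofReal_mul (by norm_num)]
              congr 1
              ring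
      · rw [← ENNReal.ofReal_add (by positivity) (ht0 k).le]
        apply ENNReal.ofReal_le_ofReal
        have := htE k e he
        linarith
  · intro b hb
    have h1 := hg.image (CM.cell ⟨b, hb⟩) (mem_range_self _)
    rw [hcell b hb] at h1
    rw [h1, ← Geo.image_cell (G := P.geo) hb]
    exact image_congr fun x hx => Geo.h_cell (G := P.geo) hb hx
  · intro b hb x hx m z hz hxz
    refine hg.tile (CM.cell ⟨b, hb⟩) (mem_range_self _) x ?_ m z hz ?_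
    · rw [hcell b hb]; exact hx
    · have hh : P.h.toFun x = P.A b.1 x :=
        Geo.h_cell (G := P.geo) hb (frontier_sub_cell (G := P.geo) hx)
      rw [hh]
      exact hxz
  · -- the far faces
    intro i hi hfar s hs hsub
    obtain ⟨k, hk, E, hE, hA⟩ := CM.far i hi hfar s hs hsub
    have hσ : (0:ℝ) < 1 / 2 / 2 ^ s.1.1 := by positivity
    set σ : ℝ := 1 / 2 / 2 ^ s.1.1 with hσd
    have hinj := segP_injective P.v
    have hks : CM.M.F k = sqr (sc P.v s) s.2 σ := by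
      rw [hk]
      ext x
      exact (P86.mem_squ_iff P.v s x).symm
    have h1 := hg.energy k (mem_univ k) (E.image (segP P.v)) (Function.extend (segP P.v) P.ℓ 0)
      (sc P.v s) s.2 σ hσ hks hA (by
        intro e' he'
        obtain ⟨e, he, rfl⟩ := Finset.mem_image.1 he'
        rw [hinj.extend_apply]
        obtain ⟨hme, hes⟩ := (hE e).1 he
        refine P.len e hme fun b hb hsubb => ?_
        have hpt : pt P.v e.1.1 e.1.2 ∈ edge P.v e := left_mem_segment ℝ _ _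
        have h2 := hfar b hb _ (hsub (hes hpt)) _ (hsubb hpt)
        rw [sub_self, norm_zero] at h2
        have : (0:ℝ) < 1 / 2 ^ P.geo.nr := by positivity
        linarith)
    rw [Finset.sum_image fun a _ b _ hab => hinj hab] at h1
    have h2 : ∀ e : Idx × Fin 3, ENNReal.ofReal (‖(segP P.v e).2 - (segP P.v e).1‖ ^ (1 - p)) *
        (Function.extend (segP P.v) P.ℓ 0 (segP P.v e) +
          ENNReal.ofReal (t k * ‖(segP P.v e).2 - (segP P.v e).1‖ / σ)) ^ p ≤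
        2 ^ (p - 1) * (ENNReal.ofReal ((1 / 2 ^ e.1.1) ^ (1 - p)) * P.ℓ e ^ p +
          ENNReal.ofReal ((1 / 2 ^ e.1.1) ^ (1 - p)) *
            ENNReal.ofReal (1 / 2 ^ e.1.1 / σ) ^ p * ENNReal.ofReal (t k)) := by
      intro e
      rw [hinj.extend_apply, norm_segP]
      have e1 : ENNReal.ofReal (t k * (1 / 2 ^ e.1.1) / σ) ^ p ≤
          ENNReal.ofReal (1 / 2 ^ e.1.1 / σ) ^ p * ENNReal.ofReal (t k) := by
        have e2 : t k * (1 / 2 ^ e.1.1) / σ = (1 / 2 ^ e.1.1 / σ) * t k := by ring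
        rw [e2, ENNReal.ofReal_mul (by positivity), ENNReal.mul_rpow_of_nonneg _ _ hp0.le]
        gcongr
        calc ENNReal.ofReal (t k) ^ p ≤ ENNReal.ofReal (t k) ^ (1:ℝ) := by
              refine ENNReal.rpow_le_rpow_of_exponent_ge ?_ hp
              rw [← ENNReal.ofReal_one]
              exact ENNReal.ofReal_le_ofReal (ht1 k)
          _ = ENNReal.ofReal (t k) := ENNReal.rpow_one _
      calc ENNReal.ofReal ((1 / 2 ^ e.1.1) ^ (1 - p)) *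
            (P.ℓ e + ENNReal.ofReal (t k * (1 / 2 ^ e.1.1) / σ)) ^ p
          ≤ ENNReal.ofReal ((1 / 2 ^ e.1.1) ^ (1 - p)) * (2 ^ (p - 1) *
            (P.ℓ e ^ p + ENNReal.ofReal (1 / 2 ^ e.1.1 / σ) ^ p * ENNReal.ofReal (t k))) := by
            gcongr
            refine (ENNReal.rpow_add_le_mul_rpow_add_rpow _ _ hp).trans ?_
            gcongr
        _ = _ := by ring
    refine h1.trans ?_
    have h3 := tsum_of_mem_iff E (fun e => MinEdge P.v P.I e ∧ edge P.v e ⊆ squ P.v s) hE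
      (fun e => ENNReal.ofReal ((1 / 2 ^ e.1.1) ^ (1 - p)) * P.ℓ e ^ p)
    have h4 := tsum_of_mem_iff E (fun e => MinEdge P.v P.I e ∧ edge P.v e ⊆ squ P.v s) hE
      (fun e => ENNReal.ofReal ((1 / 2 ^ e.1.1) ^ (1 - p)) *
        ENNReal.ofReal (1 / 2 ^ e.1.1 / σ) ^ p)
    have h5 := htS k i s hi hfar hs hsub hk
    rw [hcs] at h5
    simp only at h5
    rw [h4] at h5
    rw [h3]
    calc ENNReal.ofReal (D * σ ^ 2) * ∑ e ∈ E,
          ENNReal.ofReal (‖(segP P.v e).2 - (segP P.v e).1‖ ^ (1 - p)) *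
          (Function.extend (segP P.v) P.ℓ 0 (segP P.v e) +
            ENNReal.ofReal (t k * ‖(segP P.v e).2 - (segP P.v e).1‖ / σ)) ^ p
        ≤ ENNReal.ofReal (D * σ ^ 2) * ∑ e ∈ E, 2 ^ (p - 1) *
          (ENNReal.ofReal ((1 / 2 ^ e.1.1) ^ (1 - p)) * P.ℓ e ^ p +
            ENNReal.ofReal ((1 / 2 ^ e.1.1) ^ (1 - p)) *
              ENNReal.ofReal (1 / 2 ^ e.1.1 / σ) ^ p * ENNReal.ofReal (t k)) := by
          exact mul_le_mul_right (Finset.sum_le_sum fun e _ => h2 e) _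
      _ = ENNReal.ofReal (D * σ ^ 2) * 2 ^ (p - 1) * ∑ e ∈ E,
            ENNReal.ofReal ((1 / 2 ^ e.1.1) ^ (1 - p)) * P.ℓ e ^ p +
          ENNReal.ofReal (D * σ ^ 2) * 2 ^ (p - 1) * (∑ e ∈ E,
            ENNReal.ofReal ((1 / 2 ^ e.1.1) ^ (1 - p)) *
              ENNReal.ofReal (1 / 2 ^ e.1.1 / σ) ^ p) * ENNReal.ofReal (t k) := by
          rw [← Finset.mul_sum, Finset.sum_add_distrib, ← Finset.sum_mul]
          ring
      _ ≤ _ := by gcongr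

end

end Vale.Agent.P073.H73
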