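import Vale.Agent.P073.H73.FlatA
import Vale.Agent.P073.H73.PostB2
import Vale.Agent.P073.H235.BoxSpec

/-!
# P073, block A16, [BOX-POST]: the face theorem on the mesh of a dyadic partition
-/

namespace Vale.Agent.P073.H73

open MeasureTheory Set Filter Topology Metric Vale.Agent.P073.St Vale.Agent.P073.AB
open Vale.Agent.P073.AB.P86
open Vale.Agent.P073.SQ (ev cube Cells)
open Vale.Agent.P073.H304 (IsEdge)
open Vale.Agent.P073.H194 (partMesh)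
open Vale.Agent.P073.LOC (BdClose)
open Vale.Agent.P073.H239 (tv Deep faceI SharpOut)
open Vale.Agent.P073.H687 (edges mem_edges sum_edges finite_minEdge)
open Vale.Agent.P073.H235 (BoxData BoxOut meetY)
open _root_.P073 (ConHomeo)
open _root_.P073.Net (len dyc dyo IsTile SizeFn)
open scoped ENNReal

/-- the inner part of `K2AS` -/
def K2ASin (p D : ℝ) (C : ℝ → ℝ) (μ D' : ℝ) (C' : ℝ → ℝ) (r η₀ δ : ℝ) : Prop :=
    ∀ (Ω Λ : Set V), St.IsBoundedDomain Ω → St.IsBoundedDomain Λ →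
    ∀ (w : V) (ρ : V → ℝ), SizeFn Λ ρ →
    ∀ (M : Mesh Ω) (h : ConHomeo Ω Λ) (P : Set M.ι) (c : ℕ → (Fin 3 → ℤ) → V),
    (∀ m z, IsTile ρ w m z → ‖c m z - ctr w m z‖ ≤ 1 / 4 / 2 ^ m) →
    (∀ k, ∀ x ∈ M.F k, ∀ m z, IsTile ρ w m z → h.toFun x ∈ dyc w m z →
      h.toFun x ≠ c m z ∧ ∀ y ∈ M.F k, ‖h.toFun x - h.toFun y‖ ≤ δ * ‖h.toFun x - c m z‖) →
    Aligned w ρ M h.toFun P →
    ∀ (Y : Set M.κ) (ε : M.κ → ℝ), (∀ k, 0 < ε k) →
    ∃ g : ConHomeo Ω Λ, OutS p D C μ D' C' r η₀ δ w ρ M h.toFun P Y ε g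
      fun e ℓ => ∃ W, WLe w ρ c h.toFun e W ∧
        ENNReal.ofReal W * _root_.P073.Net.len (onSeg h.toFun e) (Icc 0 1) ≤ ℓ

theorem k2as_iff {p : ℝ} : K2AS p ↔ ∃ (D : ℝ) (C : ℝ → ℝ), ∀ μ > 0, ∃ (D' : ℝ) (C' : ℝ → ℝ),
    ∃ r > 0, ∀ η₀ > 0, η₀ < 1 / 4 → ∃ δ > 0, K2ASin p D C μ D' C' r η₀ δ := Iff.rfl

/-- the sides of a dyadic square -/
theorem side_eq {v : V} {s : Idx × Fin 3} {i : Fin 3} (hi : i ≠ s.2) {x : V}
    (hx : x ∈ sqr (sc v s) s.2 (1 / 2 / 2 ^ s.1.1))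
    (hx' : x + (2 * (1 / 2 / 2 ^ s.1.1) : ℝ) • ev i ∈ sqr (sc v s) s.2 (1 / 2 / 2 ^ s.1.1))
    (hj : ∀ j, j ≠ i → j ≠ s.2 → |x j - sc v s j| = 1 / 2 / 2 ^ s.1.1) :
    ∃ e, EdgeOfSq e s ∧ e.2 = i ∧ segP v e = (x, x + (2 * (1 / 2 / 2 ^ s.1.1) : ℝ) • ev i) := by
  have hp : (0:ℝ) < 1 / 2 ^ s.1.1 := by positivity
  have hσ : (1 / 2 / 2 ^ s.1.1 : ℝ) = 1 / 2 * (1 / 2 ^ s.1.1) := by ring
  have hsc : ∀ j, j ≠ s.2 → sc v s j = v j + s.1.2 j / 2 ^ s.1.1 + 1 / 2 * (1 / 2 ^ s.1.1) := by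
    intro j hj
    simp only [sc, if_neg hj]
    rw [add_div]; ring
  obtain ⟨j, hj1, hj2⟩ := H687.fin3_third i s.2 hi
  have hall := H687.fin3_all s.2 i j hi hj1 hj2
  -- coordinate `i`
  have hxi : x i = v i + s.1.2 i / 2 ^ s.1.1 := by
    have h1 := hx.2 i
    have h2 := hx'.2 i
    simp only [Pi.add_apply, Pi.smul_apply, ev, Pi.single_eq_same, smul_eq_mul, mul_one] at h2
    rw [hsc i hi, hσ] at h1 h2
    rw [abs_le] at h1 h2
    linarith [h1.1, h2.2]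
  have hxl : x s.2 = v s.2 + s.1.2 s.2 / 2 ^ s.1.1 := by
    have := hx.1
    rw [this]
    simp [sc]
  -- coordinate `j`
  obtain ⟨a, ha, hxj⟩ : ∃ a : ℤ, (a = s.1.2 j ∨ a = s.1.2 j + 1) ∧ x j = v j + a / 2 ^ s.1.1 := by
    have h1 := hj j hj2 hj1
    rw [hsc j hj1, hσ] at h1
    rcases abs_cases (x j - (v j + s.1.2 j / 2 ^ s.1.1 + 1 / 2 * (1 / 2 ^ s.1.1))) with h | h
    · refine ⟨_, Or.inr rfl, ?_⟩
      push_cast
      rw [P86.div_add_one]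
      linarith [h.1]
    · refine ⟨_, Or.inl rfl, ?_⟩
      linarith [h.1]
  have hpt : pt v s.1.1 (Function.update s.1.2 j a) = x := by
    funext k
    simp only [pt]
    rcases hall k with rfl | rfl | rfl
    · rw [Function.update_of_ne hj1.symm, hxl]
    · rw [Function.update_of_ne hj2.symm, hxi]
    · rw [Function.update_self, hxj]
  refine ⟨((s.1.1, Function.update s.1.2 j a), i), ⟨rfl, hi, ?_, ?_, ?_⟩, rfl, ?_⟩
  · exact Function.update_of_ne hj2.symm _ _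
  · exact Function.update_of_ne hj1.symm _ _
  · intro k hk1 hk2
    rcases hall k with rfl | rfl | rfl
    · exact absurd rfl hk2
    · exact absurd rfl hk1
    · simp only [Function.update_self]
      exact ha
  · have h2 : (2 * (1 / 2 / 2 ^ s.1.1) : ℝ) = 1 / 2 ^ s.1.1 := by rw [hσ]; ring
    rw [h2]
    simp only [segP, hpt]

theorem Deep.mono {c δ δ' : ℝ} (h : δ ≤ δ') {w : V} {ρ : V → ℝ} {J₀ : Set (ℕ × (Fin 3 → ℤ))}
    {A : Finset (Fin 3)} {m : ℕ} {z : Fin 3 → ℤ} {S : Set V} (H : Deep c δ w ρ J₀ A m z S) :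
    Deep c δ' w ρ J₀ A m z S where
  tile := H.tile
  act := H.act
  near := fun y hy j hj => (H.near y hy j hj).trans (by gcongr)
  mid := H.mid

theorem segment_gen_le {v : V} {s e : Idx × Fin 3} (h : edge v e ⊆ squ v s) :
    (1:ℝ) / 2 ^ e.1.1 ≤ 1 / 2 ^ s.1.1 := by
  have h1 := h (left_mem_segment ℝ (segP v e).1 (segP v e).2)
  have h2 := h (right_mem_segment ℝ (segP v e).1 (segP v e).2)
  have h3 := congrFun (segP_sub v e) e.2
  simp only [ev, Pi.sub_apply, Pi.smul_apply, Pi.single_eq_same, smul_eq_mul, mul_one] at h3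
  have hp : (0:ℝ) < 1 / 2 ^ e.1.1 := by positivity
  by_cases he : e.2 = s.2
  · rw [he, h1.1, h2.1, sub_self] at h3
    linarith
  · have h4 := (h1.2 e.2 he).1
    have h5 := (h2.2 e.2 he).2
    rw [P86.div_add_one] at h5
    linarith

section

variable {p δ δ₀ : ℝ} {Ω Λ : Set V} {fc : V → V}

/-- **The face theorem** on the mesh of the partition (all clauses of `BoxOut` except `bd`) -/
theorem exists_boxOut (hp : 0 ≤ p) (hΩ : St.IsBoundedDomain Ω) (hΛ : St.IsBoundedDomain Λ)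
    (P : BoxData δ Ω Λ fc) (hδ : δ ≤ δ₀)
    {D₀ D₁ D μ D' r₀ r c : ℝ} {C C' : ℝ → ℝ} (hK : K2ASin p D₀ C μ D₁ C' r₀ c δ₀)
    (hD : |D₀| ≤ D) (hD' : |D₁| ≤ D') (hμ : 0 ≤ μ) (hr : r ≤ r₀)
    (Y : Set (Idx × Fin 3)) {β : Idx × Fin 3 → ℝ} (hβ : ∀ s, 0 < β s) :
    ∃ g : ConHomeo Ω Λ,
      (∀ s, MinSq P.v P.I s → ∀ x ∈ squ P.v s, ∀ m z, IsTile P.ρ 0 m z →
        P.h.toFun x ∈ dyc 0 m z → ‖g.toFun x - P.h.toFun x‖ ≤ D / 2 ^ m) ∧
      (BdClose Ω fc g.toFun → BoxOut P p D μ D' r c Y β g) := by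
  have hΩo : IsOpen Ω := hΩ.1
  have hD0 : 0 ≤ D := (abs_nonneg _).trans hD
  have hD0' : 0 ≤ D' := (abs_nonneg _).trans hD'
  set M := partMesh hΩo P.part with hM
  have hsqr : ∀ s : Idx × Fin 3, squ P.v s = sqr (sc P.v s) s.2 (1 / 2 / 2 ^ s.1.1) := fun s =>
    H687.squ_eq_sqr P.v s
  have hfin : ∀ k : M.κ, {e | MinEdge P.v P.I e ∧ edge P.v e ⊆ squ P.v k.1}.Finite := fun k =>
    finite_minEdge P.part k.2
  -- the tolerances
  have hex : ∀ k : M.κ, ∃ t : ℝ, 0 < t ∧ 2 * t ≤ β k.1 ∧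
      ∀ e, MinEdge P.v P.I e → edge P.v e ⊆ squ P.v k.1 → t ≤ β e := by
    intro k
    obtain ⟨t, ht, h⟩ : ∃ t : ℝ, 0 < t ∧ ∀ e ∈ (hfin k).toFinset, t ≤ β e := by
      by_cases hne : (hfin k).toFinset.Nonempty
      · obtain ⟨e0, he0, hmin⟩ := (hfin k).toFinset.exists_min_image β hne
        exact ⟨β e0, hβ e0, hmin⟩
      · rw [Finset.not_nonempty_iff_eq_empty] at hne
        exact ⟨1, one_pos, fun e he => by rw [hne] at he; simp at he⟩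
    refine ⟨min t (β k.1 / 2), lt_min ht (half_pos (hβ _)), ?_, fun e he hes => ?_⟩
    · have := min_le_right t (β k.1 / 2)
      linarith
    · exact (min_le_left _ _).trans (h e (by rw [Set.Finite.mem_toFinset]; exact ⟨he, hes⟩))
  choose t ht0 ht1 htE using hex
  obtain ⟨g, hg⟩ := hK Ω Λ hΩ hΛ 0 P.ρ P.size M P.h ∅ P.c P.cmem
    (fun k x hx m z hz hxz => ⟨(P.cond k.1 k.2 x hx m z hz hxz).1, fun y hy =>
      ((P.cond k.1 k.2 x hx m z hz hxz).2 y hy).trans (by gcongr)⟩)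
    ⟨fun i hi => absurd hi (notMem_empty i), fun i hi => absurd hi (notMem_empty i),
      fun i hi => absurd hi (notMem_empty i), fun i hi => absurd hi (notMem_empty i),
      fun i hi => absurd hi (notMem_empty i)⟩ {k | k.1 ∈ Y} t ht0
  have hinj := segP_injective P.v
  have hLen : ∀ e, MinEdge P.v P.I e → ∃ W, WLe 0 P.ρ P.c P.h.toFun (segP P.v e) W ∧
      ENNReal.ofReal W * _root_.P073.Net.len (onSeg P.h.toFun (segP P.v e)) (Icc 0 1) ≤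
        P.ℓ e := P.len
  have hoff : ∀ k : M.κ, ¬ meetY P.v Y (squ P.v k.1) → k ∈ offY M {k | k.1 ∈ Y} := by
    intro k hk k' hk'
    rw [Set.disjoint_left]
    intro x hx hx'
    exact hk ⟨k'.1, hk', x, hx', hx⟩
  -- energies
  have henergy : ∀ (S : Set M.κ) (D₂ D₃ : ℝ) (C₀ : ℝ → ℝ), |D₂| ≤ D₃ →
      Out p D₂ C₀ 0 P.ρ M P.h.toFun ∅ S t g (fun e ℓ => ∃ W, WLe 0 P.ρ P.c P.h.toFun e W ∧
        ENNReal.ofReal W * _root_.P073.Net.len (onSeg P.h.toFun e) (Icc 0 1) ≤ ℓ) →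
      ∀ k ∈ S, faceL p g.toFun (sc P.v k.1) k.1.2 (1 / 2 / 2 ^ k.1.1.1) ≤
        ENNReal.ofReal (D₃ * (1 / 2 ^ k.1.1.1) ^ 2) *
          ∑' e : {e : Idx × Fin 3 // MinEdge P.v P.I e ∧ edge P.v e ⊆ squ P.v k.1},
            ENNReal.ofReal ((1 / 2 ^ e.1.1.1) ^ (1 - p)) *
              (P.ℓ e.1 + ENNReal.ofReal (β k.1)) ^ p := by
    intro S D₂ D₃ C₀ hD₂ hO k hk
    have hσ : (0:ℝ) < 1 / 2 / 2 ^ k.1.1.1 := by positivity
    have hD₃ : 0 ≤ D₃ := (abs_nonneg _).trans hD₂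
    have h1 := hO.energy k hk (edges P.part k.2) (Function.extend (segP P.v) P.ℓ 0)
      (sc P.v k.1) k.1.2 _ hσ (hsqr k.1) (adapted_part hΩo P.part k) (by
        intro e' he'
        obtain ⟨e, he, rfl⟩ := (mem_edges P.part k.2).1 he'
        rw [hinj.extend_apply]
        exact hLen e he.1)
    rw [H687.sum_edges] at h1
    refine h1.trans (mul_le_mul' (ENNReal.ofReal_le_ofReal ?_) (ENNReal.tsum_le_tsum fun e => ?_))
    · have e1 : (1:ℝ) / 2 / 2 ^ k.1.1.1 ≤ 1 / 2 ^ k.1.1.1 := by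
        gcongr; norm_num
      calc D₂ * (1 / 2 / 2 ^ k.1.1.1) ^ 2 ≤ D₃ * (1 / 2 / 2 ^ k.1.1.1) ^ 2 := by
            gcongr; exact (le_abs_self _).trans hD₂
        _ ≤ D₃ * (1 / 2 ^ k.1.1.1) ^ 2 := by gcongr
    · rw [hinj.extend_apply, norm_segP]
      refine mul_le_mul' le_rfl (ENNReal.rpow_le_rpow (add_le_add le_rfl
        (ENNReal.ofReal_le_ofReal ?_)) hp)
      have h2 := segment_gen_le e.2.2
      have h3 := ht1 k
      have h4 := ht0 k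
      calc t k * (1 / 2 ^ e.1.1.1) / (1 / 2 / 2 ^ k.1.1.1)
          ≤ t k * (1 / 2 ^ k.1.1.1) / (1 / 2 / 2 ^ k.1.1.1) := by gcongr
        _ = 2 * t k := by field_simp
        _ ≤ β k.1 := h3
  -- speed on the edges
  have helip : ∀ (S : Set M.κ) (D₂ D₃ : ℝ), |D₂| ≤ D₃ →
      ELip D₂ M S t g (fun e ℓ => ∃ W, WLe 0 P.ρ P.c P.h.toFun e W ∧
        ENNReal.ofReal W * _root_.P073.Net.len (onSeg P.h.toFun e) (Icc 0 1) ≤ ℓ) →
      ∀ k ∈ S, ∀ e, MinEdge P.v P.I e → edge P.v e ⊆ squ P.v k.1 → P.ℓ e ≠ ⊤ →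
        ∀ x ∈ edge P.v e, ∀ y ∈ edge P.v e,
        ‖g.toFun x - g.toFun y‖ ≤ D₃ * (((P.ℓ e).toReal + β e) * 2 ^ e.1.1) * ‖x - y‖ := by
    intro S D₂ D₃ hD₂ hO k hk e he hek htop x hx y hy
    have h1 := hO k hk (segP P.v e) (isEdge_segP hΩo P.part he) hek (P.ℓ e).toReal
      ENNReal.toReal_nonneg (by rw [ENNReal.ofReal_toReal htop]; exact hLen e he) x hx y hy
    refine h1.trans ?_
    have h2 : ((P.ℓ e).toReal + t k) / ‖(segP P.v e).2 - (segP P.v e).1‖ =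
        ((P.ℓ e).toReal + t k) * 2 ^ e.1.1 := by
      rw [norm_segP]; field_simp
    rw [h2]
    have h3 := ht0 k
    have h4 : 0 ≤ (P.ℓ e).toReal := ENNReal.toReal_nonneg
    have h5 := htE k e he hek
    have h6 : D₂ ≤ D₃ := (le_abs_self _).trans hD₂
    have h7 : 0 ≤ D₃ := (abs_nonneg _).trans hD₂
    gcongr
  have hclose : ∀ s, MinSq P.v P.I s → ∀ x ∈ squ P.v s, ∀ m z, IsTile P.ρ 0 m z →
      P.h.toFun x ∈ dyc 0 m z → ‖g.toFun x - P.h.toFun x‖ ≤ D / 2 ^ m := by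
    intro s hs x hx m z hz hxz
    refine (hg.out.close ⟨s, hs⟩ x hx m z hz hxz).trans ?_
    gcongr
    exact (le_abs_self _).trans hD
  refine ⟨g, hclose, fun hbd => ⟨hbd, hclose, ?_, ?_, ?_, ?_⟩⟩
  · intro s hs
    split_ifs with hm
    · exact henergy univ D₁ D' C' hD' hg.out' ⟨s, hs⟩ (mem_univ _)
    · exact henergy _ D₀ D C hD hg.out ⟨s, hs⟩ (hoff _ hm)
  · intro s hs e he hes htop x hx y hy
    split_ifs with hm
    · exact helip univ D₁ D' hD' hg.elip' ⟨s, hs⟩ (mem_univ _) e he hes htop x hx y hy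
    · exact helip _ D₀ D hD hg.elip ⟨s, hs⟩ (hoff _ hm) e he hes htop x hx y hy
  · intro e he A hA hA' m z hdeep
    have hE := isEdge_segP hΩo P.part he
    obtain ⟨k, hk⟩ := hE.sub
    have hk' : edge P.v e ⊆ squ P.v k.1 := hk.trans (intrinsicFrontier_subset (M.isClosed_face k))
    refine (hg.sharp.tv k (segP P.v e) hE hk' A hA hA' m z (Deep.mono hδ hdeep)).trans ?_
    gcongr
    exact htE k e he hk'
  · intro s hsY hs m z hdeep hside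
    refine (hg.sharp.face ⟨s, hs⟩ hsY (sc P.v s) s.2 (1 / 2 / 2 ^ s.1.1) (by positivity)
      (hsqr s) m z (Deep.mono hδ hdeep) ?_).trans ?_
    · intro i hi x hx hx' hj
      obtain ⟨e, he, hei, hseg⟩ := side_eq hi hx hx' hj
      obtain ⟨h1, h2, h3, h5⟩ := hside e he
      have h4 : (2 * (1 / 2 / 2 ^ s.1.1) : ℝ) = 1 / 2 ^ s.1.1 := by ring
      rw [hseg] at h2 h3 h5
      rw [hei] at h2
      refine ⟨?_, ?_, ?_, ?_⟩
      · rw [← hseg]; exact isEdge_segP hΩo P.part h1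
      · rw [h4] at h2 ⊢
        calc (1 - r₀) * (1 / 2 ^ s.1.1) ≤ (1 - r) * (1 / 2 ^ s.1.1) := by gcongr
          _ = (1 - r) / 2 ^ s.1.1 := by ring
          _ ≤ _ := h2
      · rw [h4] at h3 ⊢
        refine h3.trans (ENNReal.ofReal_le_ofReal ?_)
        calc (1 + r) / 2 ^ s.1.1 = (1 + r) * (1 / 2 ^ s.1.1) := by ring
          _ ≤ (1 + r₀) * (1 / 2 ^ s.1.1) := by gcongr
      · rw [h4] at h5 ⊢
        refine h5.trans (ENNReal.ofReal_le_ofReal ?_)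
        calc (1 + r) / 2 ^ s.1.1 = (1 + r) * (1 / 2 ^ s.1.1) := by ring
          _ ≤ (1 + r₀) * (1 / 2 ^ s.1.1) := by gcongr
    · apply ENNReal.ofReal_le_ofReal
      have h1 := ht1 ⟨s, hs⟩
      have h2 := ht0 ⟨s, hs⟩
      have h3 : t ⟨s, hs⟩ ≤ β s := by
        have : 2 * t ⟨s, hs⟩ ≤ β s := h1
        linarith
      have e1 : (1:ℝ) / 2 / 2 ^ s.1.1 ≤ 1 / 2 ^ s.1.1 := by
        gcongr; norm_num
      have e2 : 0 ≤ μ + β s := add_nonneg hμ (hβ s).le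
      calc (μ + t ⟨s, hs⟩) * (1 / 2 / 2 ^ s.1.1) ^ 3 ≤ (μ + β s) * (1 / 2 / 2 ^ s.1.1) ^ 3 := by
            gcongr
        _ ≤ (μ + β s) * (1 / 2 ^ s.1.1) ^ 3 := by gcongr

end

end Vale.Agent.P073.H73
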