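import Vale.Agent.P073.H73.FlatB
import Vale.Agent.P073.H193.Fill

/-!
# P073, block A16, [BOX-POST]: closeness at the boundary, `specBoxPost`
-/

namespace Vale.Agent.P073.H73

open MeasureTheory Set Filter Topology Metric Vale.Agent.P073.St Vale.Agent.P073.AB
open Vale.Agent.P073.AB.P86
open Vale.Agent.P073.SQ (ev cube Cells)
open Vale.Agent.P073.LOC (BdClose)
open Vale.Agent.P073.H304 (IsEdge)
open Vale.Agent.P073.H194 (partMesh)
open Vale.Agent.P073.H239 (tv Deep faceI SharpOut)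
open Vale.Agent.P073.H687 (edges mem_edges sum_edges finite_minEdge)
open Vale.Agent.P073.H235 (BoxData BoxOut SpecBoxPost meetY)
open _root_.P073 (ConHomeo)
open _root_.P073.Net (len dyc dyo IsTile SizeFn)
open scoped ENNReal

variable {Ω Λ : Set V} {v : V} {I : Set Idx}

theorem isBounded_of_domain (h : St.IsBoundedDomain Ω) : Bornology.IsBounded Ω := by
  obtain ⟨-, -, R, hR⟩ := h
  exact (isBounded_iff_forall_norm_le (s := Ω)).2 ⟨R, fun x hx =>
    (_root_.P073.Net.norm_le_euc x).trans (hR x hx)⟩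

/-- only finitely many cubes of a partition of a bounded set are large -/
theorem finite_large (hΩ : Bornology.IsBounded Ω) (hI : Part Ω v I) {δ : ℝ} (hδ : 0 < δ) :
    {q | q ∈ I ∧ δ ≤ 1 / 2 ^ q.1}.Finite := by
  have hvol : volume Ω ≠ ⊤ := hΩ.measure_lt_top.ne
  have h1 : ∑' q : I, volume (dyc v q.1.1 q.1.2) ≠ ⊤ :=
    ne_top_of_le_ne_top hvol (tsum_volume_le hI Subset.rfl fun q hq => hI.sub q hq)
  have h2 := ENNReal.finite_const_le_of_tsum_ne_top h1
    (ε := ENNReal.ofReal (δ ^ 3)) (by simp; positivity)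
  refine (h2.image Subtype.val).subset ?_
  rintro q ⟨hq, hqδ⟩
  refine ⟨⟨q, hq⟩, ?_, rfl⟩
  show ENNReal.ofReal (δ ^ 3) ≤ volume (dyc v q.1 q.2)
  rw [S308.volume_dyc]
  apply ENNReal.ofReal_le_ofReal
  have h3 : (1:ℝ) / 8 ^ q.1 = (1 / 2 ^ q.1) ^ 3 := by
    rw [div_pow, one_pow, ← pow_mul, mul_comm, pow_mul]; norm_num
  rw [h3]
  gcongr

theorem frontier_coord {v : V} {m : ℕ} {z : Fin 3 → ℤ} {x : V} (hx : x ∈ frontier (dyc v m z)) :
    x ∈ dyc v m z ∧ ∃ l, x l = v l + z l / 2 ^ m ∨ x l = v l + (z l + 1) / 2 ^ m := by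
  have hxi : x ∈ dyc v m z := (isCompact_dyc v m z).isClosed.frontier_subset hx
  refine ⟨hxi, ?_⟩
  have hxo : x ∉ dyo v m z := by
    rw [← H194.interior_dyc]
    exact hx.2
  by_contra hcon
  push Not at hcon
  exact hxo fun l => ⟨lt_of_le_of_ne (hxi l).1 (hcon l).1.symm,
    lt_of_le_of_ne (hxi l).2 (hcon l).2⟩

theorem continuous_size {ρ : V → ℝ} (hρ : SizeFn Λ ρ) : Continuous ρ := by
  refine (LipschitzWith.of_dist_le_mul (K := 1) fun x y => ?_).continuous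
  rw [NNReal.coe_one, one_mul, Real.dist_eq, dist_eq_norm, abs_le]
  constructor
  · have := hρ.lip y x
    rw [norm_sub_rev] at this
    linarith
  · have := hρ.lip x y
    linarith

/-- **`g` is close to the given map at the boundary**, if it is close to `h` on the faces -/
theorem bdClose_mesh (hΩ : St.IsBoundedDomain Ω) (hΛ : St.IsBoundedDomain Λ) {fc : V → V}
    (hfc : ContinuousOn fc (closure Ω)) (hI : Part Ω v I) {ρ : V → ℝ} (hρ : SizeFn Λ ρ)
    (h g : ConHomeo Ω Λ) (hbd : BdClose Ω fc h.toFun) {D : ℝ} (hD : 0 ≤ D)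
    (hclose : ∀ s, MinSq v I s → ∀ x ∈ squ v s, ∀ m z, IsTile ρ 0 m z →
      h.toFun x ∈ dyc 0 m z → ‖g.toFun x - h.toFun x‖ ≤ D / 2 ^ m) :
    BdClose Ω fc g.toFun := by
  intro δ hδ
  have hbΩ := isBounded_of_domain hΩ
  have hbΛ := isBounded_of_domain hΛ
  obtain ⟨K₁, hK₁, hK₁c, hK₁f⟩ := hbd (δ / 4) (by positivity)
  -- uniform continuity
  have hcc : IsCompact (closure Ω) := hbΩ.isCompact_closure
  obtain ⟨η, hη, hηf⟩ := Metric.uniformContinuousOn_iff_le.1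
    (hcc.uniformContinuousOn_of_continuous hfc) (δ / 4) (by positivity)
  -- large tiles
  set t : ℝ := δ / (4 * (D + 1)) with ht
  have ht0 : 0 < t := by positivity
  set T : Set V := {y | t ≤ ρ y} with hT
  have hTΛ : T ⊆ Λ := by
    intro y hy
    by_contra hcon
    have := hρ.off y hcon
    have hy' : t ≤ ρ y := hy
    linarith
  have hTc : IsCompact T := by
    refine Metric.isCompact_of_isClosed_isBounded ?_ (hbΛ.subset hTΛ)
    exact isClosed_le continuous_const (continuous_size hρ)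
  set K₂ : Set V := h.invFun '' T with hK₂
  have hK₂c : IsCompact K₂ := hTc.image_of_continuousOn (h.cont_inv.mono hTΛ)
  have hK₂Ω : K₂ ⊆ Ω := by
    rintro _ ⟨y, hy, rfl⟩
    exact h.mapsTo_inv (hTΛ hy)
  have hfin1 := hI.fin (K₁ ∪ K₂) (union_subset hK₁ hK₂Ω) (hK₁c.union hK₂c)
  have hfin2 := finite_large hbΩ hI hη
  set J : Set Idx := {q | q ∈ I ∧ (dyc v q.1 q.2 ∩ (K₁ ∪ K₂)).Nonempty} ∪
    {q | q ∈ I ∧ η ≤ 1 / 2 ^ q.1} with hJ
  have hJf : J.Finite := hfin1.union hfin2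
  have hJI : J ⊆ I := by
    rintro q (hq | hq)
    · exact hq.1
    · exact hq.1
  refine ⟨⋃ q ∈ J, dyc v q.1 q.2, iUnion₂_subset fun q hq => hI.sub q (hJI hq),
    hJf.isCompact_biUnion fun q _ => isCompact_dyc v q.1 q.2, ?_⟩
  rintro x ⟨hxΩ, hxK⟩
  obtain ⟨q, hq, hxq⟩ := hI.cover x hxΩ
  have hqJ : q ∉ J := fun h => hxK (mem_iUnion₂.2 ⟨q, h, hxq⟩)
  have hq1 : ∀ y ∈ dyc v q.1 q.2, y ∉ K₁ ∧ y ∉ K₂ := by
    intro y hy
    constructor
    · intro hyK
      exact hqJ (Or.inl ⟨hq, y, hy, Or.inl hyK⟩)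
    · intro hyK
      exact hqJ (Or.inl ⟨hq, y, hy, Or.inr hyK⟩)
  have hq2 : 1 / 2 ^ q.1 < η := by
    by_contra hcon
    exact hqJ (Or.inr ⟨hq, not_lt.1 hcon⟩)
  have key := H193.fill hΛ.1 g (hI.sub q hq) (X := closedBall (fc x) δ) isClosed_closedBall
    (convex_closedBall _ _) (fun a ha => ?_) x hxq
  · rwa [mem_closedBall, dist_eq_norm] at key
  · obtain ⟨haq, l, hl⟩ := frontier_coord ha
    obtain ⟨s, hs, has, -⟩ := bd_cover hΩ.1 hI hq haq hl
    have haΩ := hI.sub q hq haq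
    obtain ⟨m, z, hmz, hamz⟩ := _root_.P073.Net.NC.exists_tile hρ 0 (h.mapsTo haΩ)
    have e1 := hclose s hs a has m z hmz hamz
    have e2 : (1:ℝ) / 2 ^ m < t := by
      refine lt_of_le_of_lt (hmz.1 _ hamz) ?_
      by_contra hcon
      refine (hq1 a haq).2 ⟨h.toFun a, not_lt.1 hcon, h.left_inv haΩ⟩
    have e3 : D / 2 ^ m ≤ δ / 4 := by
      calc D / 2 ^ m = D * (1 / 2 ^ m) := by ring
        _ ≤ D * t := by gcongr
        _ ≤ (D + 1) * t := by gcongr; linarith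
        _ = δ / 4 := by rw [ht]; field_simp
    have e4 := hK₁f a ⟨haΩ, (hq1 a haq).1⟩
    have e5 := hηf a (subset_closure haΩ) x (subset_closure hxΩ) (by
      rw [dist_eq_norm]
      exact (S293.dist_dyc haq hxq).trans hq2.le)
    rw [dist_eq_norm] at e5
    rw [mem_closedBall, dist_eq_norm]
    have e6 := norm_sub_le_norm_sub_add_norm_sub (g.toFun a) (h.toFun a) (fc x)
    have e7 := norm_sub_le_norm_sub_add_norm_sub (h.toFun a) (fc a) (fc x)
    linarith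

/-- **[BOX-POST]** -/
theorem specBoxPost {p : ℝ} (hp : 0 ≤ p) : SpecBoxPost p := by
  intro hK
  obtain ⟨D₀, C, hK⟩ := k2as_iff.1 hK
  refine ⟨max |D₀| 1, le_max_right _ _, fun μ hμ => ?_⟩
  obtain ⟨D₁, C', r, hr, hK⟩ := hK μ hμ
  refine ⟨max |D₁| (max |D₀| 1), le_max_right _ _, min r 1, lt_min hr one_pos, min_le_right _ _,
    fun c hc hc4 => ?_⟩
  obtain ⟨δ, hδ, hK⟩ := hK c hc hc4
  refine ⟨min δ c, lt_min hδ hc, min_le_right _ _, fun U Λ fc hU hΛ hfc P Y β hβ => ?_⟩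
  obtain ⟨g, h1, h2⟩ := exists_boxOut hp hU hΛ P (min_le_left _ _) hK (D := max |D₀| 1)
    (D' := max |D₁| (max |D₀| 1)) (r := min r 1) (le_max_left _ _) (le_max_left _ _) hμ.le
    (min_le_left _ _) Y hβ
  exact ⟨g, h2 (bdClose_mesh hU hΛ hfc P.part P.size P.h g P.bd
    (zero_le_one.trans (le_max_right _ _)) h1)⟩

end Vale.Agent.P073.H73
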