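import Vale.Agent.P073.H803.Len0
import Vale.Agent.P073.H803.Dict2
import Vale.Agent.P073.H304.MSum
import Vale.Agent.P073.H439.Ener
import Vale.Agent.P073.H523.SumPas
import Vale.Agent.P073.H194.Dom

/-!
# P073, block B09, [ST1]: the energy of `h₀` on the solid cubes, **[HSOLID]**

`hsolid`: for a solid cube `q` of the partition of Round 1 in the box `k` the mesh sum of the
lengths of `h₀` is at most `E * volume q`, with a constant `E = E0s p ‖F (x k)‖ (H803.Cb C F x k)`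
which does not depend on the generations.
-/

namespace Vale.Agent.P073.H73

open MeasureTheory Set Filter Topology Metric Vale.Agent.P073.St
open Vale.Agent.P073.SQ (ev)
open Vale.Agent.P073.AB Vale.Agent.P073.AB.P86 Vale.Agent.P073.AB.S308
open Vale.Agent.P073.H194 (cellT sInt face_sub tsum_face_le tsum_subtype_le_sum)
open Vale.Agent.P073.H193 (squ_gen_le)
open Vale.Agent.P073.H803 (BlkG outI pt1 len_in_cell len_out min_cases)
open Vale.Agent.P073.H696 (Boxes am blk blkS solid part1 Dom IsNear HF)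
open Vale.Agent.P073.H622 (NetB)
open _root_.P073 (ConHomeo)
open _root_.P073.Net (dyc dyo len)
open scoped ENNReal

/-! ### Sums over the edges and faces of a cube -/

/-- few edges -/
theorem tsum_edge_le (q : Idx) (g : Idx × Fin 3 → ℝ≥0∞) (t : ℝ≥0∞)
    (h : ∀ e, EdgeOf e q → g e ≤ t) : ∑' e : {e : Idx × Fin 3 // EdgeOf e q}, g e.1 ≤ 24 * t := by
  classical
  set φ : Fin 3 × (Fin 3 → Bool) → Idx × Fin 3 := fun a =>
    ((q.1, fun j => if j = a.1 then q.2 j else q.2 j + cond (a.2 j) 1 0), a.1) with hφ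
  have hE : ∀ a, EdgeOf (φ a) q := by
    rintro ⟨k, σ⟩
    refine ⟨rfl, ?_, fun j hj => ?_⟩
    · show (if k = k then q.2 k else q.2 k + cond (σ k) 1 0) = q.2 k
      rw [if_pos rfl]
    · have hj' : j ≠ k := hj
      show (if j = k then q.2 j else q.2 j + cond (σ j) 1 0) = q.2 j ∨
        (if j = k then q.2 j else q.2 j + cond (σ j) 1 0) = q.2 j + 1
      rw [if_neg hj']
      cases σ j <;> simp
  have h1 := tsum_subtype_le_sum (S := {e : Idx × Fin 3 | EdgeOf e q}) Finset.univ φ g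
    (fun e he => by
      obtain ⟨h1, h2, h3⟩ := he
      refine ⟨(e.2, fun j => decide (e.1.2 j ≠ q.2 j)), Finset.mem_univ _, ?_⟩
      refine Prod.ext (Prod.ext h1.symm (funext fun j => ?_)) rfl
      show (if j = e.2 then q.2 j else q.2 j + cond (decide (e.1.2 j ≠ q.2 j)) 1 0) = e.1.2 j
      by_cases hj : j = e.2
      · rw [if_pos hj]
        subst hj
        exact h2.symm
      · rw [if_neg hj]
        by_cases h4 : e.1.2 j = q.2 j
        · simp [h4]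
        · rcases h3 j hj with h5 | h5
          · exact absurd h5 h4
          · simp [h5])
  refine h1.trans ?_
  refine (Finset.sum_le_card_nsmul _ _ t fun a _ => h _ (hE a)).trans ?_
  simp [Fintype.card_prod, Fintype.card_fun]

/-! ### The energy of a matrix field close to a constant -/

/-- the bound of the density -/
noncomputable def We (p : ℝ) (L : V →L[ℝ] V) : ℝ≥0∞ := 2 ^ (p - 1) * (1 + ‖L‖ₑ ^ p)

theorem dens_le {p : ℝ} (hp : 1 ≤ p) (A L : V →L[ℝ] V) :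
    ‖A‖ₑ ^ p ≤ 2 ^ (p - 1) * (‖A - L‖ₑ ^ p + ‖L‖ₑ ^ p) := by
  have hp0 : 0 ≤ p := by linarith
  have h1 : ‖A‖ₑ ≤ ‖A - L‖ₑ + ‖L‖ₑ := by
    have h2 := norm_add_le (A - L) L
    rw [sub_add_cancel] at h2
    rw [← ofReal_norm, ← ofReal_norm, ← ofReal_norm,
      ← ENNReal.ofReal_add (norm_nonneg _) (norm_nonneg _)]
    exact ENNReal.ofReal_le_ofReal h2
  calc ‖A‖ₑ ^ p ≤ (‖A - L‖ₑ + ‖L‖ₑ) ^ p := by gcongr
    _ ≤ _ := ENNReal.rpow_add_le_mul_rpow_add_rpow _ _ hp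

theorem two_rpow_ne_top {p : ℝ} (hp : 1 ≤ p) : (2:ℝ≥0∞) ^ (p - 1) ≠ ⊤ :=
  ENNReal.rpow_ne_top_of_nonneg (by linarith) (by norm_num)

/-- on an edge -/
theorem eInt_dens_le {p : ℝ} (hp : 1 ≤ p) (v : V) (e : Idx × Fin 3) (A : V → V →L[ℝ] V)
    (L : V →L[ℝ] V) {κ : ℝ} (hκ : κ ≤ 1)
    (h : eInt v e (fun y => ‖A y - L‖ₑ ^ p) ≤ ENNReal.ofReal (κ / 2 ^ e.1.1)) :
    eInt v e (fun y => ‖A y‖ₑ ^ p) ≤ We p L * ENNReal.ofReal (1 / 2 ^ e.1.1) := by
  have h1 : eInt v e (fun y => ‖A y‖ₑ ^ p) ≤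
      eInt v e (fun y => 2 ^ (p - 1) * (‖A y - L‖ₑ ^ p + ‖L‖ₑ ^ p)) :=
    S293.eInt_mono v e fun y => dens_le hp (A y) L
  refine h1.trans ?_
  rw [S293.eInt_const_mul _ _ _ (two_rpow_ne_top hp), S293.eInt_add _ _ _ _ aemeasurable_const,
    S293.eInt_const]
  unfold We
  rw [mul_assoc]
  gcongr
  rw [add_mul, one_mul, mul_comm (ENNReal.ofReal (1 / 2 ^ e.1.1))]
  gcongr
  refine h.trans (ENNReal.ofReal_le_ofReal ?_)
  gcongr

/-- on a square -/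
theorem sInt_dens_le {p : ℝ} (hp : 1 ≤ p) (v : V) (t : Idx × Fin 3) (A : V → V →L[ℝ] V)
    (L : V →L[ℝ] V) {κ : ℝ} (hκ : κ ≤ 1)
    (h : sInt v t (fun y => ‖A y - L‖ₑ ^ p) ≤ ENNReal.ofReal (κ / (2 ^ t.1.1) ^ 2)) :
    sInt v t (fun y => ‖A y‖ₑ ^ p) ≤ We p L * ENNReal.ofReal ((1 / 2 ^ t.1.1) ^ 2) := by
  have h1 : sInt v t (fun y => ‖A y‖ₑ ^ p) ≤
      2 ^ (p - 1) * (sInt v t (fun y => ‖A y - L‖ₑ ^ p) + sInt v t (fun _ => ‖L‖ₑ ^ p)) := by
    unfold sInt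
    rw [← mul_add, mul_left_comm]
    gcongr
    rw [← lintegral_add_right _ measurable_const, ← lintegral_const_mul' _ _ (two_rpow_ne_top hp)]
    exact lintegral_mono fun y => dens_le hp _ L
  refine h1.trans ?_
  rw [H439.EN.sInt_const]
  unfold We
  rw [mul_assoc]
  gcongr
  have e1 : ENNReal.ofReal (1 / 4 ^ t.1.1) = ENNReal.ofReal ((1 / 2 ^ t.1.1) ^ 2) := by
    congr 1
    have : (4:ℝ) ^ t.1.1 = (2 ^ t.1.1) ^ 2 := by rw [← pow_mul, mul_comm, pow_mul]; norm_num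
    rw [this, one_div_pow]
  rw [add_mul, one_mul, e1]
  gcongr
  refine h.trans (ENNReal.ofReal_le_ofReal ?_)
  rw [one_div_pow]
  gcongr

variable {Ω Λ : Set V} {v : V} {I K : Set Idx} {n N N' k₁ k₀ : Idx → ℕ} {p ε M₀ : ℝ} {c : ℝ≥0∞}
  {τ φ κ μ : V → ℝ} {s : V → ℕ} {f : V → V} {F : V → Mat} {nn : ℕ → ℕ} {x : Idx → V}
  {C : Idx → ℝ} {σ : V → ℝ} {δ : Idx × Fin 3 → ℝ} {h : ConHomeo Ω Λ} {r : V → ℝ} {εD : ℝ≥0∞}
  {tolD : Idx → ℝ≥0∞}

/-! ### The minimal squares of a cube of `I` -/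

/-- the minimal squares of Round 1 in a cube of `I` which is not in a cell -/
theorem minSq_of_out (G : BlkG Ω v I K n N N' k₁ fun k => blk k (n k)) {q : Idx}
    (hq : q ∈ outI v K n (fun k => blk k (n k)) I) {t : Idx × Fin 3}
    (ht : MinSq v (part1 v K n k₁ I) t) (hs : squ v t ⊆ dyc v q.1 q.2) : MinSq v I t := by
  obtain ⟨⟨q', hq', hf⟩, hmin⟩ := ht
  have hg : q.1 ≤ t.1.1 := squ_gen_le hs
  obtain ⟨y, hy⟩ := H523.squ_nonempty v t
  refine ⟨?_, ?_⟩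
  · rcases hq' with hq' | ⟨k', hk', hg', z, hz, hsz⟩
    · exact ⟨q', hq'.1, hf⟩
    · have hy' := hsz (face_sub hf hy)
      have h1 : q.1 = N k' := G.gen_touch hk' hz hq.1 ⟨y, hs hy, hy'⟩
      have h2 : t.1.1 = q'.1 := hf.1
      have h3 := G.le k' hk'
      have h4 : q'.1 = N k' := by omega
      have h5 := G.near k' hk' z hz q'.2 ⟨y, by rw [← h4]; exact face_sub hf hy, hy'⟩
      rw [← h4] at h5
      exact ⟨q', h5, hf⟩
  · rintro t' ⟨r, hr, hfr⟩ h1 h2 h3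
    by_cases hout : r ∈ outI v K n (fun k => blk k (n k)) I
    · exact hmin t' ⟨r, Or.inl hout, hfr⟩ h1 h2 h3
    · have h4 : ∃ k ∈ K, ∃ z ∈ blk k (n k), dyc v r.1 r.2 ⊆ dyc v (n k) z := by
        by_contra hcon
        push Not at hcon
        exact hout ⟨hr, hcon⟩
      obtain ⟨k', hk', z, hz, hrz⟩ := h4
      obtain ⟨u, hu⟩ := H523.squ_nonempty v t'
      have hur := face_sub hfr hu
      have h5 : r.1 = N k' := G.gen_touch hk' hz hr ⟨u, hur, hrz hur⟩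
      have h6 : q.1 = N k' := G.gen_touch hk' hz hq.1 ⟨u, hs (h3 hu), hrz hur⟩
      have h7 : t'.1.1 = r.1 := hfr.1
      omega

theorem cellT_out (G : BlkG Ω v I K n N N' k₁ fun k => blk k (n k)) {q : Idx}
    (hq : q ∈ outI v K n (fun k => blk k (n k)) I) (H : V → ℝ≥0∞) :
    cellT v (part1 v K n k₁ I) univ H q ≤ cellT v I univ H q := by
  unfold cellT
  refine ENNReal.tsum_mono_subtype (fun F => ∑' e : {e : Idx × Fin 3 // EdgeOfSq e F},
    ENNReal.ofReal (1 / 2 ^ q.1 * (1 / 2 ^ F.1.1)) * eInt v e.1 H)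
    (s := {F | MinSq v (part1 v K n k₁ I) F ∧ squ v F ⊆ dyc v q.1 q.2 ∧ squ v F ⊆ univ})
    (t := {F | MinSq v I F ∧ squ v F ⊆ dyc v q.1 q.2 ∧ squ v F ⊆ univ}) ?_
  rintro F ⟨h1, h2, h3⟩
  exact ⟨minSq_of_out G hq h1 h2, h2, h3⟩

/-! ### The density -/

theorem mem_edge_pt {v : V} {e : Idx × Fin 3} {t : ℝ} (ht : t ∈ Icc (0:ℝ) 1) :
    pt v e.1.1 e.1.2 + t • ((1 / 2 ^ e.1.1 : ℝ) • ev e.2) ∈ edge v e := by
  rw [edge, segment_eq_image']
  exact ⟨t, ht, by simp⟩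

theorem HF_le (p : ℝ) (hp : 0 ≤ p) (Ω : Set V) (F : V → Mat) (y : V) :
    HF p Ω F y ≤ ‖cl (F y)‖ₑ ^ p := by
  unfold HF
  gcongr
  by_cases hy : y ∈ Ω
  · rw [indicator_of_mem hy]
  · rw [indicator_of_notMem hy]
    show ‖(0 : V →L[ℝ] V)‖ₑ ≤ _
    rw [← ofReal_norm, norm_zero, ENNReal.ofReal_zero]
    exact zero_le

theorem HF_eq {p : ℝ} {Ω : Set V} {F : V → Mat} {y : V} (hy : y ∈ Ω) :
    HF p Ω F y = ‖cl (F y)‖ₑ ^ p := by
  unfold HF
  rw [indicator_of_mem hy]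

theorem cellT_HF_le (hI : Part Ω v I) {q : Idx} (hq : q ∈ I) (p : ℝ) (F : V → Mat) :
    cellT v I univ (fun y => ‖cl (F y)‖ₑ ^ p) q ≤ cellT v I univ (HF p Ω F) q := by
  unfold cellT
  refine ENNReal.tsum_le_tsum fun s => ENNReal.tsum_le_tsum fun e => ?_
  gcongr
  refine H194.eInt_mono fun t ht => ?_
  have h1 := hI.sub q hq (s.2.2.1 (edge_sub_squ e.2 (mem_edge_pt ht)))
  rw [HF_eq h1]

/-! ### The constant -/

/-- the constant of the solid cubes, as a function of `‖F (x k)‖` and of the constant `Cb` of the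
edges -/
noncomputable def E0s (p A Cb : ℝ) : ℝ :=
  2 ^ (p - 1) * (2 ^ p * (1080 * (2 ^ (p - 1) * (1 + A ^ p)) + 1) + 24 * (2 + Cb) ^ p)

theorem two_rpow_eq (q : ℝ) : (2:ℝ≥0∞) ^ q = ENNReal.ofReal (2 ^ q) := by
  rw [← ENNReal.ofReal_rpow_of_pos (by norm_num)]
  norm_num

theorem We_eq {p : ℝ} (hp : 1 ≤ p) (L : V →L[ℝ] V) :
    We p L = ENNReal.ofReal (2 ^ (p - 1) * (1 + ‖L‖ ^ p)) := by
  have hp0 : 0 ≤ p := by linarith
  unfold We
  rw [two_rpow_eq, ENNReal.ofReal_mul (by positivity), ENNReal.ofReal_add zero_le_one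
    (by positivity), ENNReal.ofReal_one, ← ENNReal.ofReal_rpow_of_nonneg (norm_nonneg _) hp0,
    ofReal_norm]

theorem E0s_eq {p : ℝ} (hp : 1 ≤ p) (L : V →L[ℝ] V) {Cb : ℝ} (hCb : 0 ≤ Cb) :
    (2:ℝ≥0∞) ^ (p - 1) * (2 ^ p * (1080 * We p L + 1) + 24 * ENNReal.ofReal (2 + Cb) ^ p) =
      ENNReal.ofReal (E0s p ‖L‖ Cb) := by
  have hp0 : 0 ≤ p := by linarith
  have h0 : 0 ≤ ‖L‖ := norm_nonneg _
  unfold E0s
  rw [We_eq hp, two_rpow_eq, two_rpow_eq, ENNReal.ofReal_rpow_of_nonneg (by positivity) hp0,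
    ← ENNReal.ofReal_one]
  have e1 : (1080:ℝ≥0∞) = ENNReal.ofReal 1080 := by simp
  have e2 : (24:ℝ≥0∞) = ENNReal.ofReal 24 := by simp
  rw [e1, e2, ← ENNReal.ofReal_mul (by norm_num), ← ENNReal.ofReal_add (by positivity)
    (by norm_num), ← ENNReal.ofReal_mul (by positivity), ← ENNReal.ofReal_mul (by norm_num),
    ← ENNReal.ofReal_add (by positivity) (by positivity), ← ENNReal.ofReal_mul (by positivity)]

theorem le_E0s {p : ℝ} (hp : 1 ≤ p) (L : V →L[ℝ] V) {Cb : ℝ} (hCb : 0 ≤ Cb) :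
    24 * ENNReal.ofReal Cb ^ p ≤ ENNReal.ofReal (E0s p ‖L‖ Cb) := by
  rw [← E0s_eq hp L hCb]
  have h1 : (1:ℝ≥0∞) ≤ 2 ^ (p - 1) := by
    rw [two_rpow_eq, ← ENNReal.ofReal_one]
    exact ENNReal.ofReal_le_ofReal (Real.one_le_rpow (by norm_num) (by linarith))
  calc 24 * ENNReal.ofReal Cb ^ p ≤ 1 * (0 + 24 * ENNReal.ofReal (2 + Cb) ^ p) := by
        rw [one_mul, zero_add]
        gcongr
        linarith
    _ ≤ _ := by
        gcongr
        exact zero_le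

theorem ofReal_cube' (m : ℕ) :
    ENNReal.ofReal ((1 / 2 ^ m : ℝ) ^ 3) = ENNReal.ofReal (1 / 8 ^ m) := by
  congr 1
  rw [one_div_pow, ← pow_mul, mul_comm m 3, pow_mul]
  norm_num

/-! ### The ring cubes -/

theorem ring_cellT (hp : 1 ≤ p) (B : Boxes p ε M₀ c τ φ κ μ s Ω Λ f F v nn K x)
    (hN : ∀ k ∈ K, N k = k.1 + s (x k)) (hκ : ∀ k ∈ K, κ (x k) ≤ 1)
    (Dm : Dom Ω v (HF p Ω F) K n N r εD tolD I N')
    (htol : ∀ k ∈ K, tolD k ≤ ENNReal.ofReal ((1 / 2 ^ N k) ^ 3)) {k : Idx} (hk : k ∈ K) {q : Idx}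
    (hq : IsNear v n N k q) (hqk : dyc v q.1 q.2 ⊆ dyc v k.1 k.2) :
    cellT v I univ (HF p Ω F) q ≤
      (1080 * We p (cl (F (x k))) + 1) * ENNReal.ofReal ((1 / 2 ^ q.1) ^ 3) := by
  have hp0 : 0 ≤ p := by linarith
  have hqN : q.1 = N k := hq.1
  set W := We p (cl (F (x k))) with hW
  have h1 : ∑' t : {t : Idx × Fin 3 // FaceOf t q}, ENNReal.ofReal (1 / 2 ^ q.1) *
      sInt v t.1 (HF p Ω F) ≤ 6 * (W * ENNReal.ofReal ((1 / 2 ^ q.1) ^ 3)) := by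
    refine tsum_face_le q (fun t => ENNReal.ofReal (1 / 2 ^ q.1) * sInt v t (HF p Ω F)) _
      fun t ht => ?_
    have h2 : sInt v t (HF p Ω F) ≤ sInt v t (fun y => ‖cl (F y)‖ₑ ^ p) :=
      H194.sInt_mono fun y _ => HF_le p hp0 Ω F y
    have h3 := sInt_dens_le hp v t (fun y => cl (F y)) (cl (F (x k))) (hκ k hk)
      (B.sq k hk t (by rw [ht.1, hqN, hN k hk]) ((face_sub ht).trans hqk))
    calc ENNReal.ofReal (1 / 2 ^ q.1) * sInt v t (HF p Ω F)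
        ≤ ENNReal.ofReal (1 / 2 ^ q.1) * (W * ENNReal.ofReal ((1 / 2 ^ q.1) ^ 2)) := by
          gcongr
          rw [← ht.1]
          exact h2.trans h3
      _ = W * ENNReal.ofReal ((1 / 2 ^ q.1) ^ 3) := by
          rw [mul_left_comm, ← ENNReal.ofReal_mul (by positivity)]
          congr 2
          ring
  have h2 : ∑' e : {e : Idx × Fin 3 // EdgeOf e q}, ENNReal.ofReal ((1 / 2 ^ q.1) ^ 2) *
      eInt v e.1 (HF p Ω F) ≤ 24 * (W * ENNReal.ofReal ((1 / 2 ^ q.1) ^ 3)) := by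
    refine tsum_edge_le q (fun e => ENNReal.ofReal ((1 / 2 ^ q.1) ^ 2) * eInt v e (HF p Ω F)) _
      fun e he => ?_
    have h2 : eInt v e (HF p Ω F) ≤ eInt v e (fun y => ‖cl (F y)‖ₑ ^ p) :=
      S293.eInt_mono v e fun y => HF_le p hp0 Ω F y
    have h3 := eInt_dens_le hp v e (fun y => cl (F y)) (cl (F (x k))) (hκ k hk)
      (B.own k hk e (by rw [he.1, hqN, hN k hk]) ((Gr.edge_subset_dyc he).trans hqk))
    calc ENNReal.ofReal ((1 / 2 ^ q.1) ^ 2) * eInt v e (HF p Ω F)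
        ≤ ENNReal.ofReal ((1 / 2 ^ q.1) ^ 2) * (W * ENNReal.ofReal (1 / 2 ^ q.1)) := by
          gcongr
          rw [← he.1]
          exact h2.trans h3
      _ = W * ENNReal.ofReal ((1 / 2 ^ q.1) ^ 3) := by
          rw [mul_left_comm, ← ENNReal.ofReal_mul (by positivity)]
          congr 2
  have h3 : tolD k ≤ ENNReal.ofReal ((1 / 2 ^ q.1) ^ 3) := by
    rw [hqN]
    exact htol k hk
  refine (Dm.ring k hk q hq).trans ?_
  calc _ ≤ 36 * (6 * (W * ENNReal.ofReal ((1 / 2 ^ q.1) ^ 3))) +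
        36 * (24 * (W * ENNReal.ofReal ((1 / 2 ^ q.1) ^ 3))) +
        ENNReal.ofReal ((1 / 2 ^ q.1) ^ 3) := by gcongr
    _ = _ := by ring

/-- **[HSOLID]** the mesh sum of the lengths of `h₀` in a solid cube -/
theorem hsolid (hp : 1 ≤ p) (B : Boxes p ε M₀ c τ φ κ μ s Ω Λ f F v nn K x)
    (NB : NetB v I K x n k₁ k₀ C f F Ω σ δ h.toFun)
    (G : BlkG Ω v I K n N N' k₁ fun k => blk k (n k))
    (hN : ∀ k ∈ K, N k = k.1 + s (x k)) (hN' : ∀ k ∈ K, N k = n k + k₁ k + k₀ k)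
    (hκ : ∀ k ∈ K, κ (x k) ≤ 1) (hC : ∀ k ∈ K, 0 < C k)
    (hδ : ∀ e, 0 ≤ δ e) (hδ1 : ∀ e : Idx × Fin 3, δ e ≤ 1 / 2 ^ e.1.1)
    (Dm : Dom Ω v (HF p Ω F) K n N r εD tolD I N')
    (htol : ∀ k ∈ K, tolD k ≤ ENNReal.ofReal ((1 / 2 ^ N k) ^ 3))
    {ℓ : Idx × Fin 3 → ℝ≥0∞} (hℓ : ∀ e, ℓ e ≤ len (onSeg h.toFun (segP v e)) (Icc 0 1))
    {q : Idx} (hq : q ∈ solid v K n (part1 v K n k₁ I)) {k : Idx} (hk : k ∈ K)
    (hqk : dyc v q.1 q.2 ⊆ dyc v k.1 k.2) :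
    H803.meshsum p v (part1 v K n k₁ I) ℓ q ≤
      ENNReal.ofReal (E0s p ‖cl (F (x k))‖ (H803.Cb C F x k)) * volume (dyc v q.1 q.2) := by
  have hp0 : 0 ≤ p := by linarith
  have hpart : Part Ω v (part1 v K n k₁ I) := G.part1
  have hCb : 0 < H803.Cb C F x k := H803.Cb_pos (hC k hk)
  obtain ⟨hq1, k', hk', y, hy, hyb⟩ := hq
  obtain ⟨z, hz, hyz⟩ := mem_iUnion₂.1 hyb
  obtain rfl : k' = k := G.toBlkD.box_uniq hk' hk (G.inn k' hk' z hz hyz) (hqk hy)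
  rw [AB.S308.volume_dyc, ← ofReal_cube']
  rcases hq1 with hq1 | ⟨k'', hk'', hg, z', hz', hs'⟩
  · -- ring cubes
    have hqN : q.1 = N k' := G.gen_touch hk' hz hq1.1 ⟨y, hy, hyz⟩
    have hnear : IsNear v n N k' q := ⟨hqN, y, hy, hyb⟩
    have hqI : q ∈ part1 v K n k₁ I := Or.inl hq1
    set W := We p (cl (F (x k'))) with hW
    have h1 : H803.meshsum p v (part1 v K n k₁ I) ℓ q ≤
        H304.meshsum p v (part1 v K n k₁ I) (fun e => 2 * eInt v e (fun y => ‖cl (F y)‖ₑ) +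
          ENNReal.ofReal (2 + H803.Cb C F x k') * ENNReal.ofReal (1 / 2 ^ e.1.1)) q := by
      refine H304.meshsum_mono hp0 fun e he hek => (hℓ e).trans ?_
      rcases min_cases he with ⟨k'', hk'', z'', hz'', hs⟩ | ⟨q', hq', hE⟩
      · have h2 := len_in_cell hp B NB G hN hN' hκ hC hδ (fun _ _ e _ _ => hδ1 e) he hk'' hz'' hs
        obtain ⟨u, hu⟩ := Gr.edge_nonempty v e
        obtain rfl : k'' = k' := G.toBlkD.box_uniq hk'' hk' (G.inn k'' hk'' z'' hz'' (hs hu))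
          (hqk (hek hu))
        refine (h2.trans ?_).trans le_add_self
        rw [← ENNReal.ofReal_mul (by positivity)]
        refine ENNReal.ofReal_le_ofReal ?_
        rw [mul_one_div]
        gcongr
        linarith
      · have h2 := len_out B NB G hq' hE
        refine h2.trans ?_
        rw [mul_add, add_comm]
        refine add_le_add le_rfl ?_
        rw [← ENNReal.ofReal_mul (by positivity)]
        have e2 : (2:ℝ≥0∞) = ENNReal.ofReal 2 := by simp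
        rw [e2, ← ENNReal.ofReal_mul (by norm_num)]
        refine ENNReal.ofReal_le_ofReal ?_
        have h3 : (0:ℝ) < 1 / 2 ^ e.1.1 := by positivity
        calc 2 * δ e ≤ 2 * (1 / 2 ^ e.1.1) := by
              have := hδ1 e
              linarith
          _ ≤ (2 + H803.Cb C F x k') * (1 / 2 ^ e.1.1) := by gcongr; linarith
    have h2 : H304.meshsum p v (part1 v K n k₁ I) (fun e => eInt v e (fun y => ‖cl (F y)‖ₑ)) q ≤
        (1080 * W + 1) * ENNReal.ofReal ((1 / 2 ^ q.1) ^ 3) := by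
      refine (H687.cell_sum_le hp G.opn hpart q (fun y => ‖cl (F y)‖ₑ)
        (fun e => eInt v e (fun y => ‖cl (F y)‖ₑ)) fun _ _ _ _ _ _ => le_rfl).trans ?_
      refine (cellT_out G hq1 _).trans ((cellT_HF_le G.part hq1.1 p F).trans ?_)
      exact ring_cellT hp B hN hκ Dm htol hk' hnear hqk
    have h3 : H304.meshsum p v (part1 v K n k₁ I) (fun e => ENNReal.ofReal (2 + H803.Cb C F x k') *
        ENNReal.ofReal (1 / 2 ^ e.1.1)) q ≤ 24 * ENNReal.ofReal (2 + H803.Cb C F x k') ^ p *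
        ENNReal.ofReal ((1 / 2 ^ q.1) ^ 3) :=
      H304.meshsum_le_lip hp G.opn hpart hqI fun _ _ _ => le_rfl
    refine (h1.trans (H304.meshsum_add_le hp)).trans ?_
    rw [← E0s_eq hp _ hCb.le]
    calc _ ≤ 2 ^ (p - 1) * (2 ^ p * ((1080 * W + 1) * ENNReal.ofReal ((1 / 2 ^ q.1) ^ 3)) +
          24 * ENNReal.ofReal (2 + H803.Cb C F x k') ^ p * ENNReal.ofReal ((1 / 2 ^ q.1) ^ 3)) := by
          gcongr
      _ = _ := by ring
  · -- cubes in the cells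
    obtain rfl : k'' = k' := by
      refine G.toBlkD.box_uniq hk'' hk' (G.inn k'' hk'' z' hz' (hs' hy)) (hqk hy)
    have hqI : q ∈ part1 v K n k₁ I := Or.inr ⟨k'', hk'', hg, z', hz', hs'⟩
    have h1 : H803.meshsum p v (part1 v K n k₁ I) ℓ q ≤
        24 * ENNReal.ofReal (H803.Cb C F x k'') ^ p * ENNReal.ofReal ((1 / 2 ^ q.1) ^ 3) := by
      refine H304.meshsum_le_lip hp G.opn hpart hqI fun e he heq => (hℓ e).trans ?_
      refine (len_in_cell hp B NB G hN hN' hκ hC hδ (fun _ _ e _ _ => hδ1 e) he hk'' hz'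
        (heq.trans hs')).trans (le_of_eq ?_)
      rw [← ENNReal.ofReal_mul hCb.le, mul_one_div]
    refine h1.trans ?_
    gcongr
    exact le_E0s hp _ hCb.le

end Vale.Agent.P073.H73
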