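import Vale.Agent.P073.SQ.Final

/-!
# P073: the domain squeeze (SQ) for `1 ≤ p < 3`, all squares controlled

`Polar3.polar3`: the inequality `PolarIneq` of block SQ for `S = univ` and `1 ≤ p < 3`;
`specCube3`: (SQ4) on cubes for `1 ≤ p < 3`; `specSQ3`: (SQ) for `1 ≤ p < 3` if all squares of
the pattern are controlled (block SQ itself needs `p < 2` only for the uncontrolled squares).
-/

namespace Vale.Agent.P073.H73

open MeasureTheory Set Filter Topology Vale.Agent.P073.St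
open Vale.Agent.P073.SQ Vale.Agent.P073.SQ.Polar Vale.Agent.P073.SQ.Edge
open scoped ContDiff ENNReal

namespace Polar3

theorem prod_df (i : Fin 3) (r : ℝ) : ∏ l, df Finset.univ i r l = r * r := by
  rw [Fin.prod_univ_two]
  simp [df]

theorem inner_le3 {c : V} {ρ p : ℝ} {i : Fin 3} {H : V → ℝ≥0∞}
    (hρ : 0 < ρ) (hp : 1 ≤ p) (hH : Measurable H) (u : ℝ) :
    ∫⁻ y, ENNReal.ofReal ((ρ / |u - c i|) ^ p) * hh c ρ i H (dd Finset.univ c ρ i (u, y)) ≤
      ENNReal.ofReal ((ρ / |u - c i|) ^ (p - 1 - 1)) * ∫⁻ z, hh c ρ i H z := by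
  rcases eq_or_ne (u - c i) 0 with h0 | h0
  · rw [h0, abs_zero, div_zero, Real.zero_rpow (by linarith), ENNReal.ofReal_zero]
    simp
  · have habs : 0 < |u - c i| := abs_pos.2 h0
    set r := ρ / |u - c i| with hr
    have hr0 : 0 < r := by positivity
    have h1 := int_diag (d := df Finset.univ i r) (df_pos Finset.univ i hr0) (i.removeNth c)
      (measurable_hh c ρ i hH)
    rw [lintegral_const_mul' _ _ ENNReal.ofReal_ne_top, ← h1, ← mul_assoc]
    have h2 : ENNReal.ofReal (r ^ p) ≤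
        ENNReal.ofReal (r ^ (p - 1 - 1)) * ENNReal.ofReal (∏ l, df Finset.univ i r l) := by
      rw [← ENNReal.ofReal_mul (by positivity), prod_df]
      refine ENNReal.ofReal_le_ofReal (le_of_eq ?_)
      rw [← mul_assoc, ← Real.rpow_add_one hr0.ne', ← Real.rpow_add_one hr0.ne']
      congr 1
      ring
    exact mul_le_mul' h2 le_rfl

theorem polar3 {p : ℝ} (hp1 : 1 ≤ p) (hp3 : p < 3) : ∃ C : ℝ≥0∞, C ≠ ⊤ ∧
    ∀ (c : V) (ρ : ℝ), 0 < ρ → PolarIneq p C Finset.univ c ρ := by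
  refine ⟨ENNReal.ofReal (1 / (2 - (p - 1))), ENNReal.ofReal_ne_top, ?_⟩
  intro c ρ hρ i hi H hH
  have hR : ∀ b, ∫⁻ x in cube c ρ, H (Function.update x i b) =
      ENNReal.ofReal (2 * ρ) * ∫⁻ y in sq (i.removeNth c) ρ, H (i.insertNth b y) := by
    intro b
    rw [cube_eq i c ρ, fubini_const i b measurableSet_Icc (measurableSet_sq _ _) hH,
      Real.volume_Icc]
    congr 2
    ring
  have hI : ∫⁻ z, hh c ρ i H z = (∫⁻ y in sq (i.removeNth c) ρ, H (i.insertNth (c i + ρ) y)) +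
      ∫⁻ y in sq (i.removeNth c) ρ, H (i.insertNth (c i - ρ) y) := by
    have m1 : Measurable fun y : Fin 2 → ℝ => H (i.insertNth (c i + ρ) y) :=
      hH.comp (measurable_ins _ _)
    unfold Vale.Agent.P073.SQ.Polar.hh
    rw [lintegral_indicator (measurableSet_sq _ _), lintegral_add_left m1]
  have hΦ : Measurable fun q : ℝ × (Fin 2 → ℝ) =>
      ENNReal.ofReal ((ρ / |q.1 - c i|) ^ p) * hh c ρ i H (dd Finset.univ c ρ i q) := by
    refine Measurable.mul ?_ ((measurable_hh c ρ i hH).comp (measurable_dd Finset.univ c ρ i))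
    refine ENNReal.measurable_ofReal.comp ?_
    have h2 : Measurable fun q : ℝ × (Fin 2 → ℝ) => |q.1 - c i| :=
      (measurable_fst.sub_const _).norm
    exact (measurable_const.div h2).pow_const p
  calc ∫⁻ x in cube c ρ ∩ sector Finset.univ c i,
          ENNReal.ofReal ((ρ / |x i - c i|) ^ p) * H (rad Finset.univ c ρ i x)
      ≤ ∫⁻ x in cube c ρ ∩ sector Finset.univ c i,
          ENNReal.ofReal ((ρ / |x i - c i|) ^ p) *
            hh c ρ i H (dd Finset.univ c ρ i (x i, i.removeNth x)) := by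
        refine setLIntegral_mono' ?_ ?_
        · exact (isClosed_cube c ρ).measurableSet.inter
            (isClosed_sector Finset.univ c i).measurableSet
        · rintro x ⟨hx, hx'⟩
          exact pointwise H hi hρ hp1 hx hx'
    _ ≤ ∫⁻ x in {x : V | x i ∈ Icc (c i - ρ) (c i + ρ) ∧ i.removeNth x ∈ univ},
          ENNReal.ofReal ((ρ / |x i - c i|) ^ p) *
            hh c ρ i H (dd Finset.univ c ρ i (x i, i.removeNth x)) := by
        refine lintegral_mono_set ?_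
        rintro x ⟨hx, -⟩
        rw [cube_eq i c ρ] at hx
        exact ⟨hx.1, mem_univ _⟩
    _ = ∫⁻ u in Icc (c i - ρ) (c i + ρ), ∫⁻ y in univ,
          ENNReal.ofReal ((ρ / |u - c i|) ^ p) * hh c ρ i H (dd Finset.univ c ρ i (u, y)) :=
        fubini i measurableSet_Icc MeasurableSet.univ hΦ
    _ ≤ ∫⁻ u in Icc (c i - ρ) (c i + ρ),
          ENNReal.ofReal ((ρ / |u - c i|) ^ (p - 1 - 1)) * ∫⁻ z, hh c ρ i H z := by
        refine setLIntegral_mono' measurableSet_Icc fun u _ => ?_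
        rw [Measure.restrict_univ]
        exact inner_le3 hρ hp1 hH u
    _ = (∫⁻ u in Icc (c i - ρ) (c i + ρ), ENNReal.ofReal ((ρ / |u - c i|) ^ (p - 1 - 1))) *
          ∫⁻ z, hh c ρ i H z := by
        rw [lintegral_mul_const]
        refine ENNReal.measurable_ofReal.comp ?_
        have h2 : Measurable fun u : ℝ => |u - c i| := (measurable_id.sub_const _).norm
        exact (measurable_const.div h2).pow_const _
    _ ≤ 2 * ENNReal.ofReal (ρ / (2 - (p - 1))) * ∫⁻ z, hh c ρ i H z := by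
        gcongr
        exact int_full (c i) hρ (by linarith)
    _ = ENNReal.ofReal (1 / (2 - (p - 1))) *
          ((∫⁻ x in cube c ρ, H (Function.update x i (c i + ρ))) +
          ∫⁻ x in cube c ρ, H (Function.update x i (c i - ρ))) := by
        rw [hR, hR, hI, ← mul_add, ← mul_assoc]
        congr 1
        rw [← ENNReal.ofReal_mul (by
          have : 0 < 2 - (p - 1) := by linarith
          positivity), show (2:ℝ≥0∞) = ENNReal.ofReal 2 by simp,
          ← ENNReal.ofReal_mul (by norm_num)]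
        congr 1
        ring

end Polar3

/-- (SQ4) for cubes, `1 ≤ p < 3` -/
def SpecCube3 : Prop :=
  ∀ p : ℝ, 1 ≤ p → p < 3 → ∃ C : ℝ≥0∞, C ≠ ⊤ ∧
    ∀ (c : V) (ρ : ℝ) (W : Set V) (G : V → V) (Z : V → ℝ≥0∞) (ε : ℝ≥0∞), 0 < ρ →
      IsOpen W → cube c ρ ⊆ W → ContDiffOn ℝ 1 G W → Continuous Z → (∀ x, Z x ≤ 1) → ε ≠ 0 →
      ∃ (K : Set V) (s : V → V), SuppDiffeo K s ∧ K ⊆ {x | ∀ l, |x l - c l| < ρ} ∧
        ∑ j, ∫⁻ x in cube c ρ, dE p (G ∘ s) j x ≤
          C * (∑ i, ∑ σ ∈ ({1, -1} : Finset ℝ), ∑ j ∈ Finset.univ.erase i,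
            ∫⁻ x in cube c ρ, dE p G j (Function.update x i (c i + σ * ρ))) + ε ∧
        ∫⁻ x in cube c ρ, Z (s x) ≤
          C * (∑ i, ∑ σ ∈ ({1, -1} : Finset ℝ),
            ∫⁻ x in cube c ρ, Z (Function.update x i (c i + σ * ρ))) + ε

theorem specCube3 : SpecCube3 := by
  intro p hp hp3
  obtain ⟨Cp, hCp, hpol⟩ := Polar3.polar3 hp hp3
  obtain ⟨CR, hCR, hrad⟩ := exists_radSeq specRad
  refine ⟨ENNReal.ofReal (1 + 3 ^ p) * Cp, ENNReal.mul_ne_top ENNReal.ofReal_ne_top hCp, ?_⟩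
  intro c ρ W G Z ε hρ hW hcW hG hZ hZ1 hε
  obtain ⟨K, s, h1, h2, h3⟩ := hrad Finset.univ c ρ univ Finset.univ_nonempty hρ isOpen_univ
    (fun _ _ _ => mem_univ _)
  have hpol' := hpol c ρ hρ
  have hsub : face Finset.univ c ρ ⊆ W := fun x hx => hcW fun l => hx.2 l (Finset.mem_univ l)
  have e1 := energy_le h1 hρ hCR hp hW hG hsub Finset.univ_nonempty hCp hpol' hε
  have e2 := zero_le' h1 hρ hp hZ hZ1 Finset.univ_nonempty hpol' hε
  obtain ⟨n, hn1, hn2⟩ := (e1.and e2).exists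
  refine ⟨K n, s n, h2 n, ?_, ?_, ?_⟩
  · intro x hx l
    exact (h3 n hx).2 l (Finset.mem_univ l)
  · simp only [pr_univ, id] at hn1
    rw [lint_dE _ _ _ measurable_id'] at hn1
    refine hn1.trans_eq ?_
    have hm : ∀ (i : Fin 3) (b : ℝ), ∫⁻ x in cube c ρ, dens p G Finset.univ c i
        (Function.update x i b) =
        ∑ j ∈ Finset.univ.erase i, ∫⁻ x in cube c ρ, dE p G j (Function.update x i b) := by
      intro i b
      simp only [dens, pr_univ, id]
      exact lint_dE _ _ _ (measurable_upd i b)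
    simp only [sum_sign, one_mul, neg_one_mul, ← sub_eq_add_neg, hm]
  · simp only [pr_univ, id] at hn2
    refine hn2.trans ?_
    have : ∀ i, ((∫⁻ x in cube c ρ, Z (Function.update x i (c i + ρ))) +
        (∫⁻ x in cube c ρ, Z (Function.update x i (c i - ρ)))) =
        ∑ σ ∈ ({1, -1} : Finset ℝ), ∫⁻ x in cube c ρ, Z (Function.update x i (c i + σ * ρ)) := by
      intro i
      rw [sum_sign, one_mul, neg_one_mul, ← sub_eq_add_neg]
    simp only [this]
    gcongr
    exact Cle Cp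

/-- (SQ) the squeeze theorem for `1 ≤ p < 3`, if all squares are controlled -/
def SpecSQ3 : Prop :=
  ∀ p : ℝ, 1 ≤ p → p < 3 → ∃ C : ℝ≥0∞, C ≠ ⊤ ∧
    ∀ (Ω Λ R : Set V) (W : Cells Ω R) (F : V → V) (ε : W.ι → ℝ≥0∞) (d : W.ι → ℝ), IsOpen Ω →
      IsOpen Λ → (∀ q, q ∈ W.ctrl) → IsDiffeo Ω Λ F → (∀ i, ε i ≠ 0) → (∀ i, 0 < d i) →
      ∃ s : V → V, IsDiffeo Ω Ω s ∧ (∀ x ∈ R, s x = x) ∧
        (∀ i, ∀ x ∈ cube (W.c i) (W.ρ i), s x ∈ cube (W.c i) (W.ρ i)) ∧
        (∀ x ∈ Ω, (∀ i, ¬ ∀ l, |x l - W.c i l| < W.ρ i) → s x = x) ∧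
        ∀ i, ∑ j, ∫⁻ x in cube (W.c i) (W.ρ i), dE p (F ∘ s) j x ≤ C * W.en p F i + ε i ∧
          volume {x ∈ cube (W.c i) (W.ρ i) | ∀ y ∈ W.net i, d i ≤ ‖s x - y‖} ≤ ε i

theorem isDiffeo_id {Ω : Set V} : IsDiffeo Ω Ω id := by
  have hs : ∀ l, Sm Ω (fun x : V => id x l) := fun l =>
    (contDiff_apply ℝ ℝ l).contDiffOn
  exact ⟨id, ⟨fun x hx => ⟨hx, rfl⟩, fun x hx => ⟨hx, rfl⟩⟩, hs, hs⟩

theorem step2_id {Ω R : Set V} (W : Cells Ω R) (hctrl : ∀ q, q ∈ W.ctrl) (p : ℝ) (F : V → V)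
    (δ : ℝ) : Step2 W p F 0 (fun _ => 0) (fun _ => δ) id where
  diffeo := isDiffeo_id
  fixR := fun _ _ => rfl
  box := fun _ _ hx => hx
  ctrlE := fun _ _ => rfl
  uncE := fun q hq => absurd (hctrl q) hq
  ctrlZ := fun _ _ _ _ => rfl
  uncZ := fun q hq => absurd (hctrl q) hq

/-- **(SQ)** for `1 ≤ p < 3`, all squares controlled -/
theorem specSQ3 : SpecSQ3 := by
  intro p hp hp3
  obtain ⟨C₃, hC₃, hcube⟩ := specCube3 p hp hp3
  refine ⟨C₃, hC₃, ?_⟩
  intro Ω Λ R W F ε d hΩ hΛ hctrl hF hε hd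
  have hcd : ContDiffOn ℝ 1 F Ω := (isDiffeo_cd hF).of_le (by exact_mod_cast le_top)
  set Z : W.ι → V → ℝ≥0∞ := fun i x => zf (W.net i) (d i) (clamp (W.c i) (W.ρ i) x) with hZdef
  have hZc : ∀ i, Continuous (Z i) := fun i => (continuous_zf _ _).comp (continuous_clamp _ _)
  have hZs : ∀ i, ∀ x ∈ cube (W.c i) (W.ρ i), Z i x = zf (W.net i) (d i) (id x) := by
    intro i x hx
    simp only [hZdef, clamp_eq hx, id]
  have hex := fun i => hcube (W.c i) (W.ρ i) Ω F (Z i) (ε i) (W.ρpos i) hΩ (W.sub i)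
    hcd (hZc i) (fun x => zf_le_one _ _ _) (hε i)
  choose K s h1 h2 h3 h4 using hex
  have hKc : ∀ i, K i ⊆ cube (W.c i) (W.ρ i) := fun i x hx l => (h2 i hx l).le
  have hKd : ∀ i j, i ≠ j → Disjoint (K i) (cube (W.c j) (W.ρ j)) := fun i j hij =>
    Set.disjoint_left.2 fun x hx hx' => W.disj i j hij x (h2 i hx) hx'
  obtain ⟨S, hS, hS1, hS2, hS3⟩ := specGlue Ω _ K s hΩ h1 (fun i => (hKc i).trans (W.sub i))
    (fun i j hij => (hKd i j hij).mono_right (hKc j)) (fun x hx => by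
      obtain ⟨N, hN, hf⟩ := W.fin x hx
      refine ⟨N, hN, hf.subset ?_⟩
      rintro i ⟨y, hy, hyN⟩
      exact ⟨y, hKc i hy, hyN⟩)
  have hloc : ∀ i, ∀ x ∈ cube (W.c i) (W.ρ i), S =ᶠ[𝓝 x] s i := fun i x hx =>
    hS3 i x (W.sub i hx) fun j hj hxK => Set.disjoint_left.1 (hKd j i hj) hxK hx
  have hscube : ∀ i, ∀ x ∈ cube (W.c i) (W.ρ i), s i x ∈ cube (W.c i) (W.ρ i) := by
    intro i x hx
    by_cases hxK : x ∈ K i
    · exact hKc i ((h1 i).mapsTo hxK)
    · rw [(h1 i).supp x hxK]; exact hx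
  refine ⟨S, hS, ?_, ?_, ?_, ?_⟩
  · intro x hx
    exact hS2 x fun i hi => W.miss i x hx (h2 i hi)
  · intro i x hx
    rw [(hloc i x hx).eq_of_nhds]
    exact hscube i x hx
  · intro x _ hx
    exact hS2 x fun i hi => hx i (h2 i hi)
  · intro i
    have hsum0 : ∑ q ∈ W.bd i, ENNReal.ofReal (W.ρ i / W.σ q) * (0 : ℝ≥0∞) = 0 := by simp
    constructor
    · have e1 : ∀ j, ∫⁻ x in cube (W.c i) (W.ρ i), dE p (F ∘ S) j x =
          ∫⁻ x in cube (W.c i) (W.ρ i), dE p (F ∘ s i) j x := by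
        intro j
        refine setLIntegral_congr_fun (isClosed_cube _ _).measurableSet fun x hx => ?_
        exact dE_congr (comp_congr (hloc i x hx)) j
      simp only [e1]
      have hf := faces_le (faceDec W) (step2_id W hctrl p F 1) i
      simp only [hsum0, add_zero, one_mul, Function.comp_id] at hf
      calc ∑ j, ∫⁻ x in cube (W.c i) (W.ρ i), dE p (F ∘ s i) j x
          ≤ C₃ * (∑ l, ∑ σ ∈ ({1, -1} : Finset ℝ), ∑ j ∈ Finset.univ.erase l,
            ∫⁻ x in cube (W.c i) (W.ρ i),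
              dE p F j (Function.update x l (W.c i l + σ * W.ρ i))) + ε i := h3 i
        _ ≤ C₃ * W.en p F i + ε i := by
            gcongr
    · have hz := faces_zero (faceDec W) (step2_id W hctrl p F (d i)) i
        (fun _ _ => hd i) (fun _ _ => le_rfl) (hZc i) (hZs i)
      rw [hsum0] at hz
      have hz0 := nonpos_iff_eq_zero.1 hz
      have h4i := h4 i
      rw [hz0, mul_zero, zero_add] at h4i
      refine le_trans ?_ h4i
      calc volume {x ∈ cube (W.c i) (W.ρ i) | ∀ y ∈ W.net i, d i ≤ ‖S x - y‖}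
          ≤ volume ({x | 1 ≤ Z i (s i x)} ∩ cube (W.c i) (W.ρ i)) := by
            refine measure_mono fun x hx => ⟨?_, hx.1⟩
            have h5 := hx.2
            simp only [(hloc i x hx.1).eq_of_nhds] at h5
            rw [mem_ofPred_eq, hZs i _ (hscube i x hx.1), id,
              zf_eq_one (net_nonempty W i) (hd i) h5]
        _ = (volume.restrict (cube (W.c i) (W.ρ i))) {x | 1 ≤ Z i (s i x)} :=
            (Measure.restrict_apply' (isClosed_cube _ _).measurableSet).symm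
        _ ≤ _ := by
            have h6 := mul_meas_ge_le_lintegral (μ := volume.restrict (cube (W.c i) (W.ρ i)))
              ((hZc i).measurable.comp (h1 i).smooth.continuous.measurable) 1
            rw [one_mul] at h6
            exact h6

end Vale.Agent.P073.H73
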