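import Vale.Agent.P073.H73.PostA

/-!
# P073, block A15, SpecPost: geometry of the protected cells and of the cut mesh
-/

namespace Vale.Agent.P073.H73

open MeasureTheory Set Filter Topology Metric Vale.Agent.P073.St Vale.Agent.P073.AB
open Vale.Agent.P073.SQ (ev cube Cells)
open Vale.Agent.P073.AB.P86 (sc rel cen)
open _root_.P073 (ConHomeo)
open _root_.P073.Net (len dyc dyo IsTile SizeFn)
open scoped ENNReal

theorem exists_lower {L : V →L[ℝ] V} (hL : Function.Injective L) :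
    ∃ K : ℝ, 0 < K ∧ ∀ w, ‖w‖ ≤ K * ‖L w‖ := by
  obtain ⟨K, hK, h⟩ := LinearMap.exists_antilipschitzWith (L : V →ₗ[ℝ] V)
    (LinearMap.ker_eq_bot.2 hL)
  refine ⟨K, by exact_mod_cast hK, fun w => ?_⟩
  have := h.le_mul_dist w 0
  simpa [dist_eq_norm] using this

theorem mem_frontier_Icc {lo hi x : V} : x ∈ frontier (Icc lo hi) ↔
    x ∈ Icc lo hi ∧ ∃ k, x k = lo k ∨ x k = hi k := by
  have hint : interior (Icc lo hi) = {x : V | ∀ k, lo k < x k ∧ x k < hi k} := by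
    rw [← Set.pi_univ_Icc, interior_pi_set (Set.toFinite _)]
    ext y
    simp only [interior_Icc, Set.mem_pi, mem_univ, true_implies, mem_Ioo, Set.mem_ofPred_eq]
  rw [isClosed_Icc.frontier_eq, hint]
  constructor
  · rintro ⟨h1, h2⟩
    refine ⟨h1, ?_⟩
    by_contra hcon
    push Not at hcon
    exact h2 fun k => ⟨lt_of_le_of_ne (h1.1 k) (hcon k).1.symm, lt_of_le_of_ne (h1.2 k) (hcon k).2⟩
  · rintro ⟨h1, k, hk⟩
    refine ⟨h1, fun h2 => ?_⟩
    rcases hk with hk | hk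
    · exact absurd (h2 k).1 (by rw [hk]; exact lt_irrefl _)
    · exact absurd (h2 k).2 (by rw [hk]; exact lt_irrefl _)

/-- the nearest boundary point -/
theorem exists_frontier {S : Set V} {x y : V} (hx : x ∉ interior S) (hy : y ∈ S) :
    ∃ z ∈ frontier S, z ∈ segment ℝ x y ∧ ‖x - z‖ ≤ ‖x - y‖ := by
  by_cases hxS : x ∈ S
  · refine ⟨x, ⟨subset_closure hxS, hx⟩, left_mem_segment ℝ x y, ?_⟩
    rw [sub_self, norm_zero]
    positivity
  · obtain ⟨z, hz, hzf⟩ : (segment ℝ x y ∩ frontier S).Nonempty := by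
      by_contra hcon
      have hno : ∀ z ∈ segment ℝ x y, z ∉ frontier S := fun z hz hzf => hcon ⟨z, hz, hzf⟩
      have h1 := (convex_segment x y).isPreconnected (interior S) (closure S)ᶜ isOpen_interior
        isClosed_closure.isOpen_compl (fun z hz => by
          by_cases hzc : z ∈ closure S
          · left
            by_contra h
            exact hno z hz ⟨hzc, h⟩
          · exact Or.inr hzc)
        ⟨y, right_mem_segment ℝ x y, by
          by_contra h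
          exact hno y (right_mem_segment ℝ x y) ⟨subset_closure hy, h⟩⟩
        ⟨x, left_mem_segment ℝ x y, fun h => hno x (left_mem_segment ℝ x y) ⟨h, hx⟩⟩
      obtain ⟨z, -, hz1, hz2⟩ := h1
      exact hz2 (subset_closure (interior_subset hz1))
    refine ⟨z, hzf, hz, ?_⟩
    have h1 := dist_add_dist_of_mem_segment hz
    rw [dist_eq_norm, dist_eq_norm, dist_eq_norm] at h1
    linarith [norm_nonneg (z - y)]

section geo

variable {Ω Λ : Set V} (G : Geo Ω Λ)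

theorem Geo.exists_homeo {z : Fin 3 → ℤ} (hz : z ∈ G.J) : ∃ e : V ≃ₜ V, ⇑e = G.A z := by
  let LE : V ≃L[ℝ] V :=
    (LinearEquiv.ofInjectiveEndo (G.L z : V →ₗ[ℝ] V) (G.inj z hz)).toContinuousLinearEquiv
  refine ⟨LE.toHomeomorph.trans (Homeomorph.addRight (G.A z 0)), ?_⟩
  funext x
  have h1 := G.aff z 0 x
  rw [sub_zero] at h1
  have h2 : LE x = G.L z x := rfl
  show LE x + G.A z 0 = G.A z x
  rw [h2, ← h1, sub_add_cancel]

theorem Geo.continuous_A {z : Fin 3 → ℤ} : Continuous (G.A z) := by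
  have h : G.A z = fun x => G.L z x + G.A z 0 := by
    funext x
    have h1 := G.aff z 0 x
    rw [sub_zero] at h1
    rw [← h1, sub_add_cancel]
  rw [h]
  fun_prop

variable {G} {b : Bix}

theorem Geo.interior_cell (hb : b ∈ G.B) :
    interior (b.cell G.A) = G.A b.1 ⁻¹' interior b.box := by
  obtain ⟨e, he⟩ := G.exists_homeo (G.bJ b hb)
  unfold Bix.cell
  rw [← he, e.preimage_interior]

theorem Geo.frontier_cell (hb : b ∈ G.B) :
    frontier (b.cell G.A) = G.A b.1 ⁻¹' frontier b.box := by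
  obtain ⟨e, he⟩ := G.exists_homeo (G.bJ b hb)
  unfold Bix.cell
  rw [← he, e.preimage_frontier]

theorem Geo.isClosed_cell : IsClosed (b.cell G.A) :=
  isClosed_Icc.preimage G.continuous_A

theorem Geo.isCompact_cell (hb : b ∈ G.B) : IsCompact (b.cell G.A) := by
  obtain ⟨e, he⟩ := G.exists_homeo (G.bJ b hb)
  unfold Bix.cell
  rw [← he, e.isCompact_preimage]
  exact isCompact_Icc

theorem Geo.image_cell (hb : b ∈ G.B) : G.A b.1 '' b.cell G.A = b.box := by
  obtain ⟨e, he⟩ := G.exists_homeo (G.bJ b hb)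
  unfold Bix.cell
  rw [← he]
  exact image_preimage_eq _ e.surjective

theorem Geo.cell_sub (hb : b ∈ G.B) : b.cell G.A ⊆ Ω := fun x hx =>
  (G.hA b hb x ⟨x, hx, by rw [sub_self, norm_zero]; positivity⟩).1

theorem Geo.h_cell (hb : b ∈ G.B) {x : V} (hx : x ∈ b.cell G.A) : G.h.toFun x = G.A b.1 x :=
  (G.hA b hb x ⟨x, hx, by rw [sub_self, norm_zero]; positivity⟩).2

theorem Geo.cell_unique {b' : Bix} (hb : b ∈ G.B) (hb' : b' ∈ G.B) {x : V}
    (hx : x ∈ b.cell G.A) (hx' : x ∈ b'.cell G.A) : b = b' := by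
  by_contra hne
  have h1 := G.sep b hb b' hb' hne x hx x hx'
  rw [sub_self, norm_zero] at h1
  have : (0:ℝ) < 16 / 2 ^ G.nr := by positivity
  linarith

theorem frontier_sub_cell : frontier (b.cell G.A) ⊆ b.cell G.A :=
  Geo.isClosed_cell.frontier_subset

/-- the cubes far from the cells -/
def Geo.Far (G : Geo Ω Λ) (i : Idx) : Prop :=
  ∀ b ∈ G.B, ∀ x ∈ dyc G.v i.1 i.2, ∀ y ∈ b.cell G.A, 1 / 2 ^ G.nr < ‖x - y‖

theorem Geo.near_of_not_far {i : Idx} (h : ¬ G.Far i) :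
    ∃ b ∈ G.B, ∃ x ∈ dyc G.v i.1 i.2, ∃ y ∈ b.cell G.A, ‖x - y‖ ≤ 1 / 2 ^ G.nr := by
  unfold Geo.Far at h
  push Not at h
  exact h

theorem Geo.gen_of_not_far {i : Idx} (hi : i ∈ G.I) (h : ¬ G.Far i) : i.1 = G.nr := by
  obtain ⟨b, hb, x, hx, y, hy, hxy⟩ := Geo.near_of_not_far h
  refine G.unif b hb i hi ⟨x, hx, y, hy, hxy.trans ?_⟩
  gcongr
  norm_num

end geo

section mesh

variable {Ω Λ : Set V} (M : Mesh Ω)

theorem Mesh.face_int (i : M.ι) (k : M.κ) : Disjoint (interior (M.Q i)) (M.F k) := by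
  obtain ⟨a, b, hab, h⟩ := M.two k
  by_cases hi : i = a
  · subst hi
    exact (M.disj i b hab).mono_right (h.trans inter_subset_right)
  · exact (M.disj i a hi).mono_right (h.trans inter_subset_left)

theorem Mesh.face_sub (k : M.κ) : M.F k ⊆ Ω := by
  obtain ⟨a, b, hab, h⟩ := M.two k
  exact h.trans (inter_subset_left.trans (M.sub a))

theorem Mesh.isClosed_face (k : M.κ) : IsClosed (M.F k) := by
  obtain ⟨n, ν, t, h⟩ := (M.fat k).half
  rw [h]
  have : {x : V | ∀ i, ν i x ≤ t i} = ⋂ i, {x : V | ν i x ≤ t i} := by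
    ext x; simp
  rw [this]
  exact isClosed_iInter fun i => isClosed_le (by fun_prop) continuous_const

variable {G : Geo Ω Λ} {CT : ℝ} (CM : CutMesh G CT)

theorem CutMesh.face_int' {b : Bix} (hb : b ∈ G.B) (k : CM.M.κ) :
    Disjoint (interior (b.cell G.A)) (CM.M.F k) := by
  have := CM.M.face_int (CM.cell ⟨b, hb⟩) k
  rwa [CM.Qcell] at this

/-- the faces which meet a cube near the cells -/
theorem CutMesh.near_face {i : Idx} (hi : i ∈ G.I) (hn : ¬ G.Far i) {k : CM.M.κ}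
    (hk : (CM.M.F k ∩ dyc G.v i.1 i.2).Nonempty) :
    ∃ b ∈ G.B, ∀ x ∈ CM.M.F k, ∃ y ∈ frontier (b.cell G.A), ‖x - y‖ ≤ 4 / 2 ^ G.nr := by
  obtain ⟨b, hb, x0, hx0, y0, hy0, hxy0⟩ := Geo.near_of_not_far hn
  have hin := Geo.gen_of_not_far hi hn
  obtain ⟨q, hq, hkq, -⟩ := CM.face k
  obtain ⟨u, huk, hui⟩ := hk
  have hp : (0:ℝ) < 1 / 2 ^ G.nr := by positivity
  have e1 : ‖u - x0‖ ≤ 1 / 2 ^ G.nr := by
    have := S293.dist_dyc hui hx0
    rwa [hin] at this
  have e2 : ‖u - y0‖ ≤ 2 / 2 ^ G.nr := by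
    have := norm_sub_le_norm_sub_add_norm_sub u x0 y0
    have h2 : (2:ℝ) / 2 ^ G.nr = 1 / 2 ^ G.nr + 1 / 2 ^ G.nr := by ring
    linarith
  have hqn : q.1 = G.nr := by
    refine G.unif b hb q hq ⟨u, hkq huk, y0, hy0, e2.trans ?_⟩
    gcongr
    norm_num
  refine ⟨b, hb, fun x hx => ?_⟩
  have e3 : ‖x - u‖ ≤ 1 / 2 ^ G.nr := by
    have := S293.dist_dyc (hkq hx) (hkq huk)
    rwa [hqn] at this
  have e4 : ‖x - y0‖ ≤ 4 / 2 ^ G.nr := by
    have := norm_sub_le_norm_sub_add_norm_sub x u y0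
    have h2 : (2:ℝ) / 2 ^ G.nr = 1 / 2 ^ G.nr + 1 / 2 ^ G.nr := by ring
    have h4 : (4:ℝ) / 2 ^ G.nr = 2 / 2 ^ G.nr + 1 / 2 ^ G.nr + 1 / 2 ^ G.nr := by ring
    linarith
  have hxi : x ∉ interior (b.cell G.A) := fun h => (CM.face_int' hb k).le_bot ⟨h, hx⟩
  obtain ⟨z, hz, -, hxz⟩ := exists_frontier hxi hy0
  exact ⟨z, hz, hxz.trans e4⟩

/-- the faces in a protected cell -/
theorem CutMesh.face_cell {b : Bix} (hb : b ∈ G.B) {k : CM.M.κ}
    (hk : CM.M.F k ⊆ b.cell G.A) : CM.M.F k ⊆ frontier (b.cell G.A) := fun x hx =>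
  ⟨subset_closure (hk hx), fun h => (CM.face_int' hb k).le_bot ⟨h, hx⟩⟩

end mesh

end Vale.Agent.P073.H73
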