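import Vale.Agent.P073.H73.PostB2
import Vale.Agent.P073.Net.NC

/-!
# P073, block A15, SpecPost: the final map
-/

namespace Vale.Agent.P073.H73

open MeasureTheory Set Filter Topology Metric Vale.Agent.P073.St Vale.Agent.P073.AB
open Vale.Agent.P073.SQ (ev cube Cells)
open Vale.Agent.P073.AB.P86 (sc rel cen)
open _root_.P073 (ConHomeo)
open _root_.P073.Net (dyc dyo IsTile SizeFn)
open scoped ENNReal

/-- the inner part of `SpecLay` -/
def Layin (C : ℝ) : Prop :=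
  ∀ (Ω Λ : Set V) (G : Geo Ω Λ) (g : ConHomeo Ω Λ) (K : ℝ),
    St.IsBoundedDomain Ω → St.IsBoundedDomain Λ → 1 ≤ K →
    (∀ b ∈ G.B, g.toFun '' b.cell G.A = b.box) →
    (∀ b ∈ G.B, ∀ x ∈ frontier (b.cell G.A), ∀ m z, IsTile G.ρ 0 m z →
      G.A b.1 x ∈ dyc 0 m z → g.toFun x ∈ dyc 0 m z) →
    (∀ b ∈ G.B, ∀ x ∈ b.cell G.A, ∀ y ∈ b.cell G.A,
      (∃ k, G.A b.1 x k = b.2.1 k ∧ G.A b.1 y k = b.2.1 k ∨
        G.A b.1 x k = b.2.2 k ∧ G.A b.1 y k = b.2.2 k) →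
      ‖g.toFun x - g.toFun y‖ ≤ K * ‖G.A b.1 x - G.A b.1 y‖) →
    ∃ g' : ConHomeo Ω Λ, (∀ x ∈ Ω, (∀ b ∈ G.B, x ∉ interior (b.cell G.A)) →
        g'.toFun x = g.toFun x) ∧
      ∀ b ∈ G.B, ∀ x ∈ b.cell G.A, ‖g'.toFun x - G.A b.1 x‖ ≤ 1 / 2 ^ G.mt ∧
        ((∀ k, b.2.1 k + 1 / 2 ^ G.mt ≤ G.A b.1 x k ∧ G.A b.1 x k ≤ b.2.2 k - 1 / 2 ^ G.mt) →
          g'.toFun x = G.A b.1 x) ∧
        ∀ y ∈ b.cell G.A, ‖g'.toFun x - g'.toFun y‖ ≤ C * K * ‖G.A b.1 x - G.A b.1 y‖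

theorem specLay_iff : SpecLay ↔ ∃ C : ℝ, Layin C := Iff.rfl

theorem convex_squ (v : V) (s : Idx × Fin 3) : Convex ℝ (squ v s) := by
  intro x hx y hy a b ha hb hab
  refine ⟨?_, fun k hk => ?_⟩
  · show a * x s.2 + b * y s.2 = _
    rw [hx.1, hy.1, ← add_mul, hab, one_mul]
  · show _ ≤ a * x k + b * y k ∧ a * x k + b * y k ≤ _
    have h1 := hx.2 k hk
    have h2 := hy.2 k hk
    constructor
    · calc _ = a * (v k + s.1.2 k / 2 ^ s.1.1) + b * (v k + s.1.2 k / 2 ^ s.1.1) := by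
            rw [← add_mul, hab, one_mul]
        _ ≤ _ := add_le_add (mul_le_mul_of_nonneg_left h1.1 ha)
            (mul_le_mul_of_nonneg_left h2.1 hb)
    · calc a * x k + b * y k ≤ a * (v k + (s.1.2 k + 1) / 2 ^ s.1.1) +
            b * (v k + (s.1.2 k + 1) / 2 ^ s.1.1) :=
            add_le_add (mul_le_mul_of_nonneg_left h1.2 ha) (mul_le_mul_of_nonneg_left h2.2 hb)
        _ = _ := by rw [← add_mul, hab, one_mul]

section

variable {p ε δ : ℝ} {Φ : ℕ → Finset (Fin 3 → ℤ) → ((Fin 3 → ℤ) → V → V) → ℝ}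
  {Ω Λ : Set V} {f : V → V} {F : V → Mat} (P : Pre p ε δ 16 Φ Ω Λ f F) {CT : ℝ}
  (CM : CutMesh P.geo CT)

include CM in
/-- **The final map** -/
theorem Pre.exists_map (hp : 1 ≤ p) (hΩ : St.IsBoundedDomain Ω) (hΛ : St.IsBoundedDomain Λ)
    {D : ℝ} {C : ℝ → ℝ} (hK : K2Ain p D C δ) (hade : SpecAde) {C₃ : ℝ}
    (hlay : Layin C₃) {T T' : ℝ} (hT1 : 1 ≤ T) (hT : ∀ z ∈ P.J, ∀ w, ‖P.L z w‖ ≤ T * ‖w‖)
    (hT1' : 1 ≤ T') (hT' : ∀ z ∈ P.J, ∀ w, ‖w‖ ≤ T' * ‖P.L z w‖)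
    {τ : Idx × (Idx × Fin 3) → ℝ≥0∞} (hτ : ∀ a, τ a ≠ 0) :
    ∃ g : ConHomeo Ω Λ,
      (∀ i ∈ P.I, P.geo.Far i → ∀ s, MinSq P.v P.I s → squ P.v s ⊆ dyc P.v i.1 i.2 →
        faceL p g.toFun (sc P.v s) s.2 (1 / 2 / 2 ^ s.1.1) ≤
          ENNReal.ofReal (D * (1 / 2 / 2 ^ s.1.1) ^ 2) * 2 ^ (p - 1) *
            ∑' e : {e : Idx × Fin 3 // MinEdge P.v P.I e ∧ edge P.v e ⊆ squ P.v s},
              (ENNReal.ofReal ((1 / 2 ^ e.1.1.1) ^ (1 - p)) * P.ℓ e.1 ^ p) + τ (i, s)) ∧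
      (∀ i ∈ P.I, ¬ P.geo.Far i → ∀ s, MinSq P.v P.I s → squ P.v s ⊆ dyc P.v i.1 i.2 →
        ∀ x ∈ squ P.v s, ∀ y ∈ squ P.v s, ‖g.toFun x - g.toFun y‖ ≤
          max (max (max (C 1) (C CT)) 1 * (32 * T + 1))
            (|C₃| * (max (max (C 1) (C CT)) 1 * (32 * T + 1) * T') * T) * ‖x - y‖) ∧
      (∀ b ∈ P.B, ∀ x ∈ b.cell P.A,
        (∀ k, b.2.1 k + 1 / 2 ^ P.mt ≤ P.A b.1 x k ∧ P.A b.1 x k ≤ b.2.2 k - 1 / 2 ^ P.mt) →
          g.toFun x = P.A b.1 x) ∧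
      ∀ s, MinSq P.v P.I s → ∀ x ∈ squ P.v s,
        ‖g.toFun x - P.h.toFun x‖ ≤ max |D| 1 * ε := by
  obtain ⟨g, hclose, hlip, himage, htile, hfar⟩ :=
    P.exists_g CM hp hΩ hΛ hK hade hT1 hT hτ
  set K₁ : ℝ := max (max (C 1) (C CT)) 1 * (32 * T + 1) with hK₁
  have hK₁1 : 1 ≤ K₁ := by
    have h1 : (1:ℝ) ≤ max (max (C 1) (C CT)) 1 := le_max_right _ _
    nlinarith
  have hcell : ∀ b (hb : b ∈ P.B), CM.M.Q (CM.cell ⟨b, hb⟩) = b.cell P.A := fun b hb =>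
    CM.Qcell ⟨b, hb⟩
  have hcc : ∀ {b : Bix}, IsClosed (b.cell P.A) := fun {b} => Geo.isClosed_cell (G := P.geo)
  obtain ⟨g', hg1, hg2⟩ := hlay Ω Λ P.geo g (K₁ * T') hΩ hΛ (by nlinarith) himage htile (by
    intro b hb x hx y hy hxy
    have hbJ := P.bJ b hb
    have hseg : segment ℝ x y ⊆ frontier (b.cell P.A) := by
      intro u hu
      have hfc : frontier (b.cell P.A) = P.A b.1 ⁻¹' frontier b.box :=
        Geo.frontier_cell (G := P.geo) hb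
      rw [hfc]
      show P.A b.1 u ∈ frontier b.box
      rw [segment_eq_image'] at hu
      obtain ⟨t, ht, rfl⟩ := hu
      have h1 : P.A b.1 (x + t • (y - x)) = P.A b.1 x + t • (P.A b.1 y - P.A b.1 x) := by
        have h2 := P.aff b.1 x (x + t • (y - x))
        rw [add_sub_cancel_left, map_smul, ← P.aff] at h2
        rw [← h2]
        abel
      simp only
      rw [h1]
      refine mem_frontier_Icc.2 ⟨?_, ?_⟩
      · have := (convex_Icc b.2.1 b.2.2).add_smul_sub_mem hx hy ht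
        exact this
      · obtain ⟨k, hk⟩ := hxy
        have hk' : P.A b.1 x k = b.2.1 k ∧ P.A b.1 y k = b.2.1 k ∨
          P.A b.1 x k = b.2.2 k ∧ P.A b.1 y k = b.2.2 k := hk
        refine ⟨k, ?_⟩
        rcases hk' with ⟨h3, h4⟩ | ⟨h3, h4⟩
        · left
          simp [h3, h4]
        · right
          simp [h3, h4]
    have hfin := CM.M.ffin (b.cell P.A) (Geo.cell_sub (G := P.geo) hb)
      (Geo.isCompact_cell (G := P.geo) hb)
    have h1 := lip_of_cover (g := g.toFun) (L := K₁) (T := {k | CM.M.F k ⊆ b.cell P.A ∧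
      (CM.M.F k ∩ b.cell P.A).Nonempty}) (hfin.subset fun k hk => hk.2) (C := CM.M.F)
      (x := x) (y := y) (fun k _ => CM.M.isClosed_face k) (by
        intro u hu
        have h2 := CM.M.bd (CM.cell ⟨b, hb⟩) u (by rw [hcell b hb]; exact hseg hu)
        obtain ⟨k, huk, hkb⟩ := h2
        rw [hcell b hb] at hkb
        exact mem_iUnion₂.2 ⟨k, ⟨hkb, u, huk, hkb huk⟩, huk⟩)
      (by
        rintro k ⟨hk, -⟩ s ⟨hs, -⟩ t ⟨ht, -⟩
        refine hlip k ⟨b, hb, fun u hu => ⟨u, CM.face_cell hb hk hu, ?_⟩⟩ s hs t ht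
        rw [sub_self, norm_zero]
        positivity)
    refine h1.trans ?_
    have h3 := hT' b.1 hbJ (x - y)
    rw [← P.aff] at h3
    have h4 : K₁ * ‖x - y‖ ≤ K₁ * (T' * ‖P.A b.1 x - P.A b.1 y‖) :=
      mul_le_mul_of_nonneg_left h3 (by linarith)
    calc K₁ * ‖x - y‖ ≤ K₁ * (T' * ‖P.A b.1 x - P.A b.1 y‖) := h4
      _ = K₁ * T' * ‖P.A b.1 x - P.A b.1 y‖ := by ring)
  have hg1' : ∀ x ∈ Ω, (∀ b ∈ P.B, x ∉ interior (b.cell P.A)) → g'.toFun x = g.toFun x := hg1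
  have hg2' : ∀ b ∈ P.B, ∀ x ∈ b.cell P.A, ‖g'.toFun x - P.A b.1 x‖ ≤ 1 / 2 ^ P.mt ∧
        ((∀ k, b.2.1 k + 1 / 2 ^ P.mt ≤ P.A b.1 x k ∧ P.A b.1 x k ≤ b.2.2 k - 1 / 2 ^ P.mt) →
          g'.toFun x = P.A b.1 x) ∧
        ∀ y ∈ b.cell P.A, ‖g'.toFun x - g'.toFun y‖ ≤ C₃ * (K₁ * T') *
          ‖P.A b.1 x - P.A b.1 y‖ := hg2
  have hface : ∀ k, ∀ x ∈ CM.M.F k, g'.toFun x = g.toFun x := fun k x hx =>
    hg1' x (CM.M.face_sub k hx) fun b hb h => (CM.face_int' hb k).le_bot ⟨h, hx⟩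
  refine ⟨g', ?_, ?_, fun b hb x hx => (hg2' b hb x hx).2.1, ?_⟩
  · -- far
    intro i hi hf s hs hsub
    refine le_trans (le_of_eq (faceL_congr ?_ (by positivity))) (hfar i hi hf s hs hsub)
    intro x hx1 hx2
    have hx : x ∈ squ P.v s := (P86.mem_squ_iff P.v s x).1 ⟨hx1, hx2⟩
    have hxΩ : x ∈ Ω := P.part.sub i hi (hsub hx)
    have hno : x ∈ (⋃ b ∈ P.B, b.cell P.A)ᶜ := by
      intro hxc
      obtain ⟨b, hb, hxb⟩ := mem_iUnion₂.1 hxc
      have h1 := hf b hb x (hsub hx) x hxb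
      rw [sub_self, norm_zero] at h1
      have : (0:ℝ) < 1 / 2 ^ P.geo.nr := by positivity
      linarith
    have hopen : IsOpen (⋃ b ∈ P.B, b.cell P.A)ᶜ :=
      (P.B.finite_toSet.isClosed_biUnion fun b _ => hcc).isOpen_compl
    filter_upwards [hΩ.1.mem_nhds hxΩ, hopen.mem_nhds hno] with y hy hy'
    exact hg1' y hy fun b hb h => hy' (mem_iUnion₂.2 ⟨b, hb, interior_subset h⟩)
  · -- near
    intro i hi hn s hs hsub x hx y hy
    have hfin := CM.M.ffin (dyc P.v i.1 i.2) (P.part.sub i hi) (P86.isCompact_dyc _ _ _)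
    refine lip_of_cover (ι := Bix ⊕ CM.M.κ) (T := Sum.inl '' (P.B : Set Bix) ∪
      Sum.inr '' {k | (CM.M.F k ∩ dyc P.v i.1 i.2).Nonempty})
      ((P.B.finite_toSet.image _).union (hfin.image _))
      (C := Sum.elim (fun b => b.cell P.A) CM.M.F) ?_ ?_ ?_
    · rintro (b | k) _
      · exact hcc
      · exact CM.M.isClosed_face k
    · intro u hu
      have hus : u ∈ squ P.v s := (convex_squ P.v s).segment_subset hx hy hu
      by_cases hb : ∃ b ∈ P.B, u ∈ interior (b.cell P.A)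
      · obtain ⟨b, hb, hub⟩ := hb
        exact mem_iUnion₂.2 ⟨Sum.inl b, Or.inl ⟨b, hb, rfl⟩, interior_subset hub⟩
      · push Not at hb
        obtain ⟨k, hk⟩ := CM.cov s hs u hus hb
        exact mem_iUnion₂.2 ⟨Sum.inr k, Or.inr ⟨k, ⟨u, hk, hsub hus⟩, rfl⟩, hk⟩
    · rintro (b | k) hk u ⟨hu, -⟩ w ⟨hw, -⟩
      · have hb : b ∈ P.B := by
          rcases hk with ⟨b', hb', h⟩ | ⟨k', _, h⟩
          · rw [Sum.inl.injEq] at h; rwa [← h]
          · exact absurd h (by simp)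
        have h1 := (hg2' b hb u hu).2.2 w hw
        have h2 := hT b.1 (P.bJ b hb) (u - w)
        rw [← P.aff] at h2
        have hpos : 0 ≤ K₁ * T' := by nlinarith
        calc ‖g'.toFun u - g'.toFun w‖ ≤ C₃ * (K₁ * T') * ‖P.A b.1 u - P.A b.1 w‖ := h1
          _ ≤ |C₃| * (K₁ * T') * ‖P.A b.1 u - P.A b.1 w‖ := by
              gcongr; exact le_abs_self _
          _ ≤ |C₃| * (K₁ * T') * (T * ‖u - w‖) := by
              gcongr
          _ = |C₃| * (K₁ * T') * T * ‖u - w‖ := by ring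
          _ ≤ _ := by gcongr; exact le_max_right _ _
      · have hk' : (CM.M.F k ∩ dyc P.v i.1 i.2).Nonempty := by
          rcases hk with ⟨b', hb', h⟩ | ⟨k', hk', h⟩
          · exact absurd h (by simp)
          · rw [Sum.inr.injEq] at h; rwa [← h]
        rw [hface k u hu, hface k w hw]
        refine (hlip k (CM.near_face hi hn hk') u hu w hw).trans ?_
        gcongr
        exact le_max_left _ _
  · -- close
    intro s hs x hx
    have hε : 0 ≤ ε := by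
      obtain ⟨qp, qm, htwo⟩ := P86.two_of_minSq hΩ.1 P.part hs
      have hxΩ : x ∈ Ω := by
        obtain ⟨⟨q, hq, hf⟩, -⟩ := hs
        exact P.part.sub q hq (S308.squ_sub_of_face hf hx)
      exact (norm_nonneg _).trans (P.near x hxΩ)
    by_cases hb : ∃ b ∈ P.B, x ∈ interior (b.cell P.A)
    · obtain ⟨b, hb, hxb⟩ := hb
      have hxc := interior_subset hxb
      have h1 := (hg2' b hb x hxc).1
      have h2 : P.h.toFun x = P.A b.1 x := Geo.h_cell (G := P.geo) hb hxc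
      rw [h2]
      have h3 : (1:ℝ) / 2 ^ P.mt ≤ ε := by
        have hbf : b.2.1 ∈ frontier b.box := mem_frontier_Icc.2
          ⟨⟨le_rfl, fun k => (P.blt b hb k).le⟩, 0, Or.inl rfl⟩
        have hbΛ : b.2.1 ∈ Λ := by
          have h4 : b.2.1 ∈ g.toFun '' b.cell P.A := by
            rw [himage b hb]; exact isClosed_Icc.frontier_subset hbf
          obtain ⟨w, hw, hwb⟩ := h4
          rw [← hwb]
          exact g.mapsTo (Geo.cell_sub (G := P.geo) hb hw)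
        obtain ⟨m, z, hz, hmz⟩ := _root_.P073.Net.NC.exists_tile P.size 0 hbΛ
        have hm := P.bmt b hb m z hz ⟨_, hmz, hbf⟩
        rw [← hm]
        exact (hz.1 _ hmz).trans (P.tsmall _)
      calc ‖g'.toFun x - P.A b.1 x‖ ≤ 1 / 2 ^ P.mt := h1
        _ ≤ 1 * ε := by rw [one_mul]; exact h3
        _ ≤ _ := by gcongr; exact le_max_right _ _
    · push Not at hb
      obtain ⟨k, hk⟩ := CM.cov s hs x hx hb
      rw [hface k x hk]
      obtain ⟨m, z, hz, hmz⟩ := _root_.P073.Net.NC.exists_tile P.size 0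
        (P.h.mapsTo (CM.M.face_sub k hk))
      have h1 := hclose k x hk m z hz hmz
      have h2 : (1:ℝ) / 2 ^ m ≤ ε := (hz.1 _ hmz).trans (P.tsmall _)
      calc ‖g.toFun x - P.h.toFun x‖ ≤ D / 2 ^ m := h1
        _ = D * (1 / 2 ^ m) := by ring
        _ ≤ |D| * (1 / 2 ^ m) := by gcongr; exact le_abs_self _
        _ ≤ |D| * ε := by gcongr
        _ ≤ _ := by gcongr; exact le_max_left _ _

end

end Vale.Agent.P073.H73
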