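import Vale.Agent.P073.H73.PostC1

/-!
# P073, block A15: `SpecPost`, from `SpecCut`, `SpecAde`, `SpecLay`
-/

namespace Vale.Agent.P073.H73

open MeasureTheory Set Filter Topology Metric Vale.Agent.P073.St Vale.Agent.P073.AB
open Vale.Agent.P073.SQ (ev cube Cells)
open Vale.Agent.P073.AB.P86 (sc rel cen cells)
open _root_.P073 (ConHomeo)
open _root_.P073.Net (dyc dyo IsTile SizeFn)
open scoped ENNReal

section

variable {p ε δ : ℝ} {Φ : ℕ → Finset (Fin 3 → ℤ) → ((Fin 3 → ℤ) → V → V) → ℝ}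
  {Ω Λ : Set V} {f : V → V} {F : V → Mat} (P : Pre p ε δ 16 Φ Ω Λ f F)

/-- the protected set -/
def Pre.R : Set V := ⋃ q ∈ P.keep, dyc P.v q.1 q.2

theorem Pre.measurableSet_R : MeasurableSet P.R :=
  MeasurableSet.biUnion (to_countable _) fun _ _ =>
    (P86.isCompact_dyc _ _ _).isClosed.measurableSet

theorem Pre.R_sub : P.R ⊆ Ω := iUnion₂_subset fun q hq => P.part.sub q hq.1

theorem Pre.R_deep {x : V} (hx : x ∈ P.R) : ∃ b ∈ P.B, P.Deep b x := by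
  obtain ⟨q, hq, hxq⟩ := mem_iUnion₂.1 hx
  obtain ⟨-, b, hb, h⟩ := hq
  exact ⟨b, hb, h x hxq⟩

theorem Pre.cell_diff_sub : (⋃ b ∈ P.B, b.cell P.A) \ P.R ⊆ P.zoneZ := by
  rintro x ⟨hx, hxR⟩
  obtain ⟨b, hb, hxb⟩ := mem_iUnion₂.1 hx
  obtain ⟨q, hq, hxq⟩ := P.part.cover x (Geo.cell_sub (G := P.geo) hb hxb)
  have hqk : q ∉ P.keep := fun h => hxR (mem_iUnion₂.2 ⟨q, h, hxq⟩)
  refine P.sub_zoneZ hq hqk (fun hf => ?_) hxq
  have h1 := hf b hb x hxq x hxb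
  rw [sub_self, norm_zero] at h1
  have : (0:ℝ) < 1 / 2 ^ P.geo.nr := by positivity
  linarith

/-- the energy of `cl F` off the protected set -/
theorem Pre.off_R (hp : 1 ≤ p) {T : ℝ} (hT0 : 0 ≤ T) (hT : ∀ z ∈ P.J, ∀ w, ‖P.L z w‖ ≤ T * ‖w‖) :
    ∑ j, ∫⁻ x in Ω \ P.R, ENNReal.ofReal (‖cl (F x) (ev j)‖ ^ p) ≤
      ENNReal.ofReal ε + 2 ^ (p - 1) * ENNReal.ofReal ε +
        3 * 2 ^ (p - 1) * ENNReal.ofReal (T ^ p) * volume P.zoneZ := by
  have hp0 : 0 ≤ p := by linarith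
  set U : Set V := ⋃ b ∈ P.B, b.cell P.A with hU
  have hcc : ∀ {b : Bix}, IsClosed (b.cell P.A) := fun {b} => Geo.isClosed_cell (G := P.geo)
  have hsub : Ω \ P.R ⊆ (Ω \ U) ∪ ⋃ b ∈ P.B, (b.cell P.A \ P.R) := by
    rintro x ⟨hx, hxR⟩
    by_cases hxU : x ∈ U
    · right
      obtain ⟨b, hb, hxb⟩ := mem_iUnion₂.1 hxU
      exact mem_iUnion₂.2 ⟨b, hb, hxb, hxR⟩
    · exact Or.inl ⟨hx, hxU⟩
  have hvol : ∑ b ∈ P.B, volume (b.cell P.A \ P.R) ≤ volume P.zoneZ := by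
    rw [← measure_biUnion_finset]
    · refine measure_mono ?_
      rintro x hx
      obtain ⟨b, hb, hxb, hxR⟩ := mem_iUnion₂.1 hx
      exact P.cell_diff_sub ⟨mem_iUnion₂.2 ⟨b, hb, hxb⟩, hxR⟩
    · intro b hb b' hb' hne
      refine Set.disjoint_left.2 fun x hx hx' => hne ?_
      exact Geo.cell_unique (G := P.geo) hb hb' hx.1 hx'.1
    · intro b _
      exact hcc.measurableSet.diff P.measurableSet_R
  have hj : ∀ j : Fin 3, ∫⁻ x in Ω \ P.R, ENNReal.ofReal (‖cl (F x) (ev j)‖ ^ p) ≤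
      (∫⁻ x in Ω \ U, ENNReal.ofReal (‖cl (F x) (ev j)‖ ^ p)) +
        2 ^ (p - 1) * (∑ b ∈ P.B, ∫⁻ x in b.cell P.A,
          ENNReal.ofReal (‖cl (F x) (ev j) - P.L b.1 (ev j)‖ ^ p)) +
        2 ^ (p - 1) * ENNReal.ofReal (T ^ p) * volume P.zoneZ := by
    intro j
    have h1 : ∀ b ∈ P.B, ∫⁻ x in b.cell P.A \ P.R, ENNReal.ofReal (‖cl (F x) (ev j)‖ ^ p) ≤
        2 ^ (p - 1) * (∫⁻ x in b.cell P.A,
          ENNReal.ofReal (‖cl (F x) (ev j) - P.L b.1 (ev j)‖ ^ p)) +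
        2 ^ (p - 1) * ENNReal.ofReal (T ^ p) * volume (b.cell P.A \ P.R) := by
      intro b hb
      calc ∫⁻ x in b.cell P.A \ P.R, ENNReal.ofReal (‖cl (F x) (ev j)‖ ^ p)
          ≤ ∫⁻ x in b.cell P.A \ P.R, 2 ^ (p - 1) *
            (ENNReal.ofReal (‖cl (F x) (ev j) - P.L b.1 (ev j)‖ ^ p) +
              ENNReal.ofReal (T ^ p)) := by
            refine lintegral_mono fun x => ?_
            have h2 := H880.add_rpow_le hp (cl (F x) (ev j) - P.L b.1 (ev j)) (P.L b.1 (ev j))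
            rw [sub_add_cancel] at h2
            refine h2.trans ?_
            gcongr
            have h3 := hT b.1 (P.bJ b hb) (ev j)
            rwa [S293.ev_norm, mul_one] at h3
        _ = 2 ^ (p - 1) * ((∫⁻ x in b.cell P.A \ P.R,
            ENNReal.ofReal (‖cl (F x) (ev j) - P.L b.1 (ev j)‖ ^ p)) +
              ENNReal.ofReal (T ^ p) * volume (b.cell P.A \ P.R)) := by
            rw [lintegral_const_mul' _ _ H880.two_rpow_ne_top,
              lintegral_add_right _ measurable_const, setLIntegral_const]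
        _ ≤ 2 ^ (p - 1) * ((∫⁻ x in b.cell P.A,
            ENNReal.ofReal (‖cl (F x) (ev j) - P.L b.1 (ev j)‖ ^ p)) +
              ENNReal.ofReal (T ^ p) * volume (b.cell P.A \ P.R)) := by
            gcongr
            exact sdiff_subset
        _ = _ := by ring
    calc ∫⁻ x in Ω \ P.R, ENNReal.ofReal (‖cl (F x) (ev j)‖ ^ p)
        ≤ ∫⁻ x in (Ω \ U) ∪ ⋃ b ∈ P.B, (b.cell P.A \ P.R),
          ENNReal.ofReal (‖cl (F x) (ev j)‖ ^ p) := lintegral_mono_set hsub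
      _ ≤ (∫⁻ x in Ω \ U, ENNReal.ofReal (‖cl (F x) (ev j)‖ ^ p)) +
          ∫⁻ x in ⋃ b ∈ P.B, (b.cell P.A \ P.R), ENNReal.ofReal (‖cl (F x) (ev j)‖ ^ p) :=
          lintegral_union_le _ _ _
      _ ≤ (∫⁻ x in Ω \ U, ENNReal.ofReal (‖cl (F x) (ev j)‖ ^ p)) +
          ∑ b ∈ P.B, ∫⁻ x in b.cell P.A \ P.R, ENNReal.ofReal (‖cl (F x) (ev j)‖ ^ p) := by
          gcongr
          exact S293.setLIntegral_biUnion_le _ _ _
      _ ≤ (∫⁻ x in Ω \ U, ENNReal.ofReal (‖cl (F x) (ev j)‖ ^ p)) +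
          ∑ b ∈ P.B, (2 ^ (p - 1) * (∫⁻ x in b.cell P.A,
            ENNReal.ofReal (‖cl (F x) (ev j) - P.L b.1 (ev j)‖ ^ p)) +
          2 ^ (p - 1) * ENNReal.ofReal (T ^ p) * volume (b.cell P.A \ P.R)) := by
          exact add_le_add le_rfl (Finset.sum_le_sum h1)
      _ = (∫⁻ x in Ω \ U, ENNReal.ofReal (‖cl (F x) (ev j)‖ ^ p)) +
          2 ^ (p - 1) * (∑ b ∈ P.B, ∫⁻ x in b.cell P.A,
            ENNReal.ofReal (‖cl (F x) (ev j) - P.L b.1 (ev j)‖ ^ p)) +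
          2 ^ (p - 1) * ENNReal.ofReal (T ^ p) * ∑ b ∈ P.B, volume (b.cell P.A \ P.R) := by
          rw [Finset.sum_add_distrib, ← Finset.mul_sum, ← Finset.mul_sum, add_assoc]
      _ ≤ _ := by gcongr
  calc ∑ j, ∫⁻ x in Ω \ P.R, ENNReal.ofReal (‖cl (F x) (ev j)‖ ^ p)
      ≤ ∑ j : Fin 3, ((∫⁻ x in Ω \ U, ENNReal.ofReal (‖cl (F x) (ev j)‖ ^ p)) +
        2 ^ (p - 1) * (∑ b ∈ P.B, ∫⁻ x in b.cell P.A,
          ENNReal.ofReal (‖cl (F x) (ev j) - P.L b.1 (ev j)‖ ^ p)) +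
        2 ^ (p - 1) * ENNReal.ofReal (T ^ p) * volume P.zoneZ) :=
        Finset.sum_le_sum fun j _ => hj j
    _ = (∑ j, ∫⁻ x in Ω \ U, ENNReal.ofReal (‖cl (F x) (ev j)‖ ^ p)) +
        2 ^ (p - 1) * (∑ b ∈ P.B, ∑ j, ∫⁻ x in b.cell P.A,
          ENNReal.ofReal (‖cl (F x) (ev j) - P.L b.1 (ev j)‖ ^ p)) +
        3 * 2 ^ (p - 1) * ENNReal.ofReal (T ^ p) * volume P.zoneZ := by
        rw [Finset.sum_add_distrib, Finset.sum_add_distrib, ← Finset.mul_sum, Finset.sum_comm,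
          Finset.sum_const, Finset.card_univ, Fintype.card_fin, nsmul_eq_mul]
        push_cast
        ring
    _ ≤ _ := by
        gcongr
        · exact P.s2
        · exact P.s1

/-- the energy on the protected set -/
theorem Pre.on_R {g : V → V}
    (hg : ∀ b ∈ P.B, ∀ x ∈ b.cell P.A,
      (∀ k, b.2.1 k + 1 / 2 ^ P.mt ≤ P.A b.1 x k ∧ P.A b.1 x k ≤ b.2.2 k - 1 / 2 ^ P.mt) →
        g x = P.A b.1 x) :
    ∑ j, ∫⁻ x in P.R, ENNReal.ofReal (‖fderiv ℝ g x (ev j) - cl (F x) (ev j)‖ ^ p) ≤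
      ENNReal.ofReal ε := by
  have hsub : P.R ⊆ ⋃ b ∈ P.B, (b.cell P.A ∩ P.R) := fun x hx => by
    obtain ⟨b, hb, h⟩ := P.R_deep hx
    exact mem_iUnion₂.2 ⟨b, hb, h.1, hx⟩
  have hae : ∀ᵐ x : V, x ∈ P.R → ∀ b ∈ P.B, x ∈ b.cell P.A → fderiv ℝ g x = P.L b.1 := by
    have h0 : ∀ q : Idx, volume (dyc P.v q.1 q.2 \ dyo P.v q.1 q.2) = 0 := by
      intro q
      have hm : MeasurableSet (dyo P.v q.1 q.2) := by
        rw [S308.dyo_eq_obox]
        exact (S308.isOpen_obox _ _ _ _).measurableSet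
      rw [measure_sdiff P86.dyo_sub_dyc hm.nullMeasurableSet (by
        rw [S308.volume_dyo]; exact ENNReal.ofReal_ne_top), S308.volume_dyc, S308.volume_dyo,
        tsub_self]
    have h1 : ∀ᵐ x : V, ∀ q : Idx, x ∉ dyc P.v q.1 q.2 \ dyo P.v q.1 q.2 :=
      ae_all_iff.2 fun q => measure_eq_zero_iff_ae_notMem.1 (h0 q)
    filter_upwards [h1] with x hx hxR b hb hxb
    obtain ⟨q, hq, hxq⟩ := mem_iUnion₂.1 hxR
    have hxo : x ∈ dyo P.v q.1 q.2 := by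
      by_contra h
      exact hx q ⟨hxq, h⟩
    obtain ⟨-, b', hb', hD⟩ := hq
    have hbb : b = b' := Geo.cell_unique (G := P.geo) hb hb' hxb (hD x hxq).1
    subst hbb
    have hopen : IsOpen (dyo P.v q.1 q.2) := by
      rw [S308.dyo_eq_obox]; exact S308.isOpen_obox _ _ _ _
    have heq : g =ᶠ[𝓝 x] P.A b.1 := by
      filter_upwards [hopen.mem_nhds hxo] with y hy
      have h2 := hD y (P86.dyo_sub_dyc hy)
      exact hg b hb y h2.1 h2.2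
    rw [heq.fderiv_eq]
    have hA : P.A b.1 = fun y => P.L b.1 y + P.A b.1 0 := by
      funext y
      have h1 := P.aff b.1 0 y
      rw [sub_zero] at h1
      rw [← h1, sub_add_cancel]
    rw [hA]
    exact ((P.L b.1).hasFDerivAt.add_const _).fderiv
  have hj : ∀ j : Fin 3, ∫⁻ x in P.R,
      ENNReal.ofReal (‖fderiv ℝ g x (ev j) - cl (F x) (ev j)‖ ^ p) ≤
      ∑ b ∈ P.B, ∫⁻ x in b.cell P.A,
        ENNReal.ofReal (‖cl (F x) (ev j) - P.L b.1 (ev j)‖ ^ p) := by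
    intro j
    calc ∫⁻ x in P.R, ENNReal.ofReal (‖fderiv ℝ g x (ev j) - cl (F x) (ev j)‖ ^ p)
        ≤ ∫⁻ x in ⋃ b ∈ P.B, (b.cell P.A ∩ P.R),
          ENNReal.ofReal (‖fderiv ℝ g x (ev j) - cl (F x) (ev j)‖ ^ p) := lintegral_mono_set hsub
      _ ≤ ∑ b ∈ P.B, ∫⁻ x in b.cell P.A ∩ P.R,
          ENNReal.ofReal (‖fderiv ℝ g x (ev j) - cl (F x) (ev j)‖ ^ p) :=
          S293.setLIntegral_biUnion_le _ _ _
      _ ≤ ∑ b ∈ P.B, ∫⁻ x in b.cell P.A,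
          ENNReal.ofReal (‖cl (F x) (ev j) - P.L b.1 (ev j)‖ ^ p) := by
          refine Finset.sum_le_sum fun b hb => ?_
          refine le_trans (setLIntegral_mono_ae' ?_ ?_) (lintegral_mono_set inter_subset_left)
          · exact (Geo.isClosed_cell (G := P.geo)).measurableSet.inter P.measurableSet_R
          · filter_upwards [hae] with x hx hxm
            rw [hx hxm.2 b hb hxm.1, norm_sub_rev]
  calc ∑ j, ∫⁻ x in P.R, ENNReal.ofReal (‖fderiv ℝ g x (ev j) - cl (F x) (ev j)‖ ^ p)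
      ≤ ∑ j : Fin 3, ∑ b ∈ P.B, ∫⁻ x in b.cell P.A,
        ENNReal.ofReal (‖cl (F x) (ev j) - P.L b.1 (ev j)‖ ^ p) :=
        Finset.sum_le_sum fun j _ => hj j
    _ = ∑ b ∈ P.B, ∑ j, ∫⁻ x in b.cell P.A,
        ENNReal.ofReal (‖cl (F x) (ev j) - P.L b.1 (ev j)‖ ^ p) := Finset.sum_comm
    _ ≤ _ := P.s1

/-- **The conclusion** for given data. -/
theorem Pre.conFace (hp : 1 ≤ p) (hε : 0 < ε) (hΩ : St.IsBoundedDomain Ω)
    (hΛ : St.IsBoundedDomain Λ) {CT : ℝ} (CM : CutMesh P.geo CT)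
    {D : ℝ} {C : ℝ → ℝ} (hK : K2Ain p D C δ) (hade : SpecAde) {C₃ : ℝ}
    (hlay : Layin C₃) {T T' : ℝ} (hT1 : 1 ≤ T) (hT : ∀ z ∈ P.J, ∀ w, ‖P.L z w‖ ≤ T * ‖w‖)
    (hT1' : 1 ≤ T') (hT' : ∀ z ∈ P.J, ∀ w, ‖w‖ ≤ T' * ‖P.L z w‖)
    (hΦ : 12 * (max (max (max (C 1) (C CT)) 1 * (32 * T + 1))
            (|C₃| * (max (max (C 1) (C CT)) 1 * (32 * T + 1) * T') * T)) ^ p +
        3 * 2 ^ (p - 1) * T ^ p ≤ Φ P.N P.J P.A) :
    ConFace p (((|D| + 1) * 2 ^ (p - 1) + |D| + 5) * ε) Ω Λ f F := by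
  have hp0 : 0 ≤ p := by linarith
  set K₁ : ℝ := max (max (C 1) (C CT)) 1 * (32 * T + 1) with hK₁
  have hK₁1 : 1 ≤ K₁ := by
    have h1 : (1:ℝ) ≤ max (max (C 1) (C CT)) 1 := le_max_right _ _
    nlinarith
  set Kc : ℝ := max K₁ (|C₃| * (K₁ * T') * T) with hKc
  have hKc0 : 0 ≤ Kc := by linarith [le_max_left K₁ (|C₃| * (K₁ * T') * T)]
  -- the zone
  have hZ : ENNReal.ofReal (12 * Kc ^ p + 3 * 2 ^ (p - 1) * T ^ p) * volume P.zoneZ ≤
      ENNReal.ofReal ε := le_trans (mul_le_mul' (ENNReal.ofReal_le_ofReal hΦ) le_rfl) P.cut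
  have h2E : (2 : ℝ≥0∞) ^ (p - 1) = ENNReal.ofReal (2 ^ (p - 1)) := by
    rw [← ENNReal.ofReal_rpow_of_pos (by norm_num)]
    simp
  have h2pos : (0 : ℝ) < 2 ^ (p - 1) := by positivity
  have hZ1 : 12 * ENNReal.ofReal (Kc ^ p) * volume P.zoneZ ≤ ENNReal.ofReal ε := by
    refine le_trans ?_ hZ
    gcongr
    rw [show (12 : ℝ≥0∞) = ENNReal.ofReal 12 by simp, ← ENNReal.ofReal_mul (by norm_num)]
    apply ENNReal.ofReal_le_ofReal
    have : 0 ≤ 3 * 2 ^ (p - 1) * T ^ p := by positivity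
    linarith
  have hZ2 : 3 * 2 ^ (p - 1) * ENNReal.ofReal (T ^ p) * volume P.zoneZ ≤ ENNReal.ofReal ε := by
    refine le_trans ?_ hZ
    gcongr
    rw [show (3 : ℝ≥0∞) = ENNReal.ofReal 3 by simp, h2E, ← ENNReal.ofReal_mul (by norm_num),
      ← ENNReal.ofReal_mul (by positivity)]
    apply ENNReal.ofReal_le_ofReal
    have : 0 ≤ 12 * Kc ^ p := by positivity
    linarith
  -- the errors
  obtain ⟨τ, hτ0, hτ⟩ := ENNReal.exists_pos_sum_of_countable'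
    (ε := ENNReal.ofReal ε) (by simpa using hε) (Idx × (Idx × Fin 3))
  obtain ⟨g, hfar, hnear, hdeep, hclose⟩ := P.exists_map CM hp hΩ hΛ hK hade hlay hT1 hT hT1' hT'
    (τ := fun a => ENNReal.ofReal (1 / 2 / 2 ^ a.2.1.1 / (1 / 2 / 2 ^ a.1.1)) * τ a)
    (fun a => mul_ne_zero (by
      have : (0:ℝ) < 1 / 2 / 2 ^ a.2.1.1 / (1 / 2 / 2 ^ a.1.1) := by positivity
      simpa using this) (hτ0 a).ne')
  have hsum := P.sum_enL hp hΩ.1 g.toFun hKc0 (τ := τ) hfar hnear _ rfl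
  set W : Cells Ω (⋃ q ∈ P.keep, dyc P.v q.1 q.2) := { cells hΩ.1 P.part P.keep_sub with
      ctrl := univ
      unc := fun q h => absurd (mem_univ q) h } with hW
  have hD0 : 0 ≤ |D| := abs_nonneg D
  refine ⟨P.R, W, g, fun q => mem_univ q, P.measurableSet_R, P.R_sub, ?_, ?_, ?_, P.K, P.Ksub,
    P.Kmeas, ?_, ?_, ?_⟩
  · refine (P.on_R hdeep).trans (ENNReal.ofReal_le_ofReal ?_)
    have : 0 ≤ (|D| + 1) * 2 ^ (p - 1) := by positivity
    nlinarith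
  · refine (hsum.trans (add_le_add (add_le_add le_rfl hτ.le) hZ1)).trans ?_
    rw [h2E, ← ENNReal.ofReal_mul hD0, ← ENNReal.ofReal_mul (by positivity),
      ← ENNReal.ofReal_add (by positivity) hε.le, ← ENNReal.ofReal_add (by positivity) hε.le]
    apply ENNReal.ofReal_le_ofReal
    nlinarith
  · refine (P.off_R hp (by linarith) hT).trans ?_
    refine (add_le_add le_rfl hZ2).trans ?_
    rw [h2E, ← ENNReal.ofReal_mul (by positivity), ← ENNReal.ofReal_add hε.le (by positivity),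
      ← ENNReal.ofReal_add (by positivity) hε.le]
    apply ENNReal.ofReal_le_ofReal
    nlinarith [mul_nonneg hD0 h2pos.le]
  · refine P.Kvol.trans (ENNReal.ofReal_le_ofReal ?_)
    have : 0 ≤ (|D| + 1) * 2 ^ (p - 1) := by positivity
    nlinarith
  · rintro x ⟨-, hxR⟩
    obtain ⟨b, hb, hD⟩ := P.R_deep hxR
    rw [hdeep b hb x hD.1 hD.2]
    have h1 : P.h.toFun x = P.A b.1 x := Geo.h_cell (G := P.geo) hb hD.1
    rw [← h1]
    refine (P.near x (P.R_sub hxR)).trans ?_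
    have : 0 ≤ (|D| + 1) * 2 ^ (p - 1) := by positivity
    nlinarith
  · rintro i x ⟨hxK, hxi⟩ y hy
    obtain ⟨t, ht, hy1, hy2, -⟩ := hy
    have hys : y ∈ squ P.v t.1 := (P86.mem_squ_iff P.v t.1 y).1 ⟨hy1, hy2⟩
    have hsub : squ P.v t.1 ⊆ dyc P.v i.1.1 i.1.2 := (mem_bd hΩ.1 P.part P.keep_sub i t).1 ht
    have hxi' : x ∈ dyc P.v i.1.1 i.1.2 := by
      rw [← P86.cube_eq]
      exact hxi
    have e1 := hclose t.1 t.2.1 y hys
    have e2 := P.near y (P.part.sub i.1 i.2.1 (hsub hys))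
    have e3 := P.osc x hxK i.1 i.2.1 hxi' y (hsub hys)
    have e4 := norm_sub_le_norm_sub_add_norm_sub (g.toFun y) (P.h.toFun y) (f x)
    have e5 := norm_sub_le_norm_sub_add_norm_sub (P.h.toFun y) (f y) (f x)
    have e6 : max |D| 1 ≤ |D| + 1 := max_le (by linarith) (by linarith)
    have e7 : max |D| 1 * ε ≤ (|D| + 1) * ε := by gcongr
    have : 0 ≤ (|D| + 1) * 2 ^ (p - 1) * ε := by positivity
    nlinarith

end

/-! ### Constants -/

/-- an upper bound for the linear parts, in terms of the affine maps -/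
theorem exists_upper (J : Finset (Fin 3 → ℤ)) (A : (Fin 3 → ℤ) → V → V) : ∃ T : ℝ, 1 ≤ T ∧
    ∀ L : (Fin 3 → ℤ) → V →L[ℝ] V, (∀ z x y, A z y - A z x = L z (y - x)) →
      ∀ z ∈ J, ∀ w, ‖L z w‖ ≤ T * ‖w‖ := by
  refine ⟨1 + ∑ z ∈ J, ∑ j, ‖A z (ev j) - A z 0‖, ?_, ?_⟩
  · have : 0 ≤ ∑ z ∈ J, ∑ j, ‖A z (ev j) - A z 0‖ := by positivity
    linarith
  · intro L hL z hz w
    have h1 : w = ∑ j, w j • ev j := by
      funext k
      simp [ev, Finset.sum_apply, Pi.single_apply]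
    have h2 : ‖L z w‖ ≤ ∑ j, ‖w‖ * ‖A z (ev j) - A z 0‖ := by
      conv_lhs => rw [h1, map_sum]
      refine (norm_sum_le _ _).trans (Finset.sum_le_sum fun j _ => ?_)
      rw [map_smul, norm_smul, hL, sub_zero]
      gcongr
      exact norm_le_pi_norm w j
    have h3 : ∑ j, ‖A z (ev j) - A z 0‖ ≤ ∑ z ∈ J, ∑ j, ‖A z (ev j) - A z 0‖ :=
      Finset.single_le_sum (f := fun z => ∑ j, ‖A z (ev j) - A z 0‖)
        (fun _ _ => by positivity) hz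
    rw [← Finset.mul_sum] at h2
    nlinarith [norm_nonneg w]

theorem exists_lower_all (J : Finset (Fin 3 → ℤ)) (A : (Fin 3 → ℤ) → V → V) : ∃ T : ℝ, 1 ≤ T ∧
    ∀ L : (Fin 3 → ℤ) → V →L[ℝ] V, (∀ z x y, A z y - A z x = L z (y - x)) →
      (∀ z ∈ J, Function.Injective (L z)) → ∀ z ∈ J, ∀ w, ‖w‖ ≤ T * ‖L z w‖ := by
  classical
  have h1 : ∀ z, ∃ T : ℝ, 0 ≤ T ∧ ∀ L : V →L[ℝ] V, (∀ x y, A z y - A z x = L (y - x)) →
      Function.Injective L → ∀ w, ‖w‖ ≤ T * ‖L w‖ := by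
    intro z
    by_cases h : ∃ L : V →L[ℝ] V, (∀ x y, A z y - A z x = L (y - x)) ∧ Function.Injective L
    · obtain ⟨L, hL, hinj⟩ := h
      obtain ⟨K, hK, hK'⟩ := exists_lower hinj
      refine ⟨K, hK.le, fun L' hL' _ w => ?_⟩
      have : L' w = L w := by
        have e1 := hL 0 w
        have e2 := hL' 0 w
        rw [sub_zero] at e1 e2
        rw [← e2, e1]
      rw [this]
      exact hK' w
    · exact ⟨0, le_rfl, fun L hL hinj => absurd ⟨L, hL, hinj⟩ h⟩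
  choose T hT0 hT using h1
  refine ⟨1 + ∑ z ∈ J, T z, ?_, ?_⟩
  · have : 0 ≤ ∑ z ∈ J, T z := Finset.sum_nonneg fun z _ => hT0 z
    linarith
  · intro L hL hinj z hz w
    have h2 := hT z (L z) (hL z) (hinj z hz) w
    have h3 : T z ≤ ∑ z ∈ J, T z := Finset.single_le_sum (fun z _ => hT0 z) hz
    nlinarith [norm_nonneg (L z w)]

/-- **[POST]** -/
theorem specPost_of {p : ℝ} (hp : 1 ≤ p) (h1 : SpecCut) (h2 : SpecAde) (h3 : SpecLay) :
    SpecPost p := by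
  intro hK
  obtain ⟨D, C, δ, hδ, hK⟩ := k2a_iff.1 hK
  obtain ⟨C₃, hlay⟩ := specLay_iff.1 h3
  choose CT hCT using h1
  choose T hT1 hT using exists_upper
  choose T' hT1' hT' using exists_lower_all
  refine ⟨δ, hδ, fun N J A =>
    12 * (max (max (max (C 1) (C (CT N J A))) 1 * (32 * T J A + 1))
            (|C₃| * (max (max (C 1) (C (CT N J A))) 1 * (32 * T J A + 1) * T' J A) * T J A)) ^ p +
        3 * 2 ^ (p - 1) * T J A ^ p, fun ε hε => ?_⟩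
  have hM : 0 < (|D| + 1) * 2 ^ (p - 1) + |D| + 5 := by positivity
  refine ⟨ε / ((|D| + 1) * 2 ^ (p - 1) + |D| + 5), by positivity, ?_⟩
  intro Ω Λ f F hΩ hΛ _ _ P
  obtain ⟨CM⟩ := hCT P.N P.J P.A Ω Λ P.geo hΩ hΛ rfl rfl rfl
  have h4 := P.conFace hp (by positivity) hΩ hΛ CM hK h2 hlay (hT1 P.J P.A)
    (hT P.J P.A P.L P.aff) (hT1' P.J P.A) (hT' P.J P.A P.L P.aff P.inj) le_rfl
  rwa [mul_div_cancel₀ _ hM.ne'] at h4

end Vale.Agent.P073.H73
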