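import Vale.Agent.P073.H73.FlatC
import Vale.Agent.P073.H73.R2F0
import Vale.Agent.P073.H490.I2b
import Vale.Agent.P073.H582.E2d
import Vale.Agent.P073.H193.PlaneSum
import Vale.Agent.P073.H193.Refine

/-!
# P073, block B10, [R2F-SHARP]: Round 2 near a set which is away from the solid cubes

Preparations for the sharp clauses of `FOut`:
* minimal squares and minimal edges away from the solid cubes (`minSq_ref`, `minEdge_ref`);
* the tiles near a point such that all tiles of generation `m` around are tiles (`near_gen_le`);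
* `Deep` from the position of the image (`deep_act`);
* length of the edges (`len_hh_le`), derivative from `LipBd`.
-/

namespace Vale.Agent.P073.H73

open MeasureTheory Set Filter Topology Metric Vale.Agent.P073.St Vale.Agent.P073.AB
open Vale.Agent.P073.AB.P86
open Vale.Agent.P073.SQ (ev cube Cells)
open Vale.Agent.P073.H304 (IsEdge LipBd Nb)
open Vale.Agent.P073.H194 (partMesh)
open Vale.Agent.P073.H239 (tv Deep faceI)
open _root_.P073 (ConHomeo)
open _root_.P073.Net (len dyc dyo IsTile SizeFn)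
open scoped ENNReal

section ref

variable {v : V} {I₁ S I₂ : Set Idx}

theorem pt_mem_squ (v : V) (s : Idx × Fin 3) : pt v s.1.1 s.1.2 ∈ squ v s := by
  refine ⟨rfl, fun k _ => ⟨le_rfl, ?_⟩⟩
  show v k + _ ≤ _
  gcongr
  linarith

/-- a minimal square away from the solid cubes -/
theorem minSq_ref (R : H582.Ref v I₁ S I₂) {s : Idx × Fin 3} (hs : MinSq v I₁ s)
    (hoff : ∀ q ∈ S, Disjoint (dyc v q.1 q.2) (squ v s)) : MinSq v I₂ s := by
  obtain ⟨⟨q, hq, hf⟩, hmin⟩ := hs
  have hqS : q ∉ S := fun h => Set.disjoint_left.1 (hoff q h)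
    (S308.squ_sub_of_face hf (pt_mem_squ v s)) (pt_mem_squ v s)
  refine ⟨⟨q, R.keep q hq hqS, hf⟩, ?_⟩
  rintro s' ⟨q', hq', hf'⟩ hlt hdir hsub
  by_cases h : q' ∈ I₁ \ S
  · exact hmin s' ⟨q', h.1, hf'⟩ hlt hdir hsub
  · obtain ⟨Q, hQ, hQs⟩ := R.fine q' hq' h
    exact Set.disjoint_left.1 (hoff Q hQ) (hQs (S308.squ_sub_of_face hf' (pt_mem_squ v s')))
      (hsub (pt_mem_squ v s'))

/-- a minimal edge away from the solid cubes -/
theorem minEdge_ref (R : H582.Ref v I₁ S I₂) {e : Idx × Fin 3} (he : MinEdge v I₁ e)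
    (hoff : ∀ q ∈ S, Disjoint (dyc v q.1 q.2) (edge v e)) : MinEdge v I₂ e := by
  obtain ⟨⟨q, hq, hf⟩, hmin⟩ := he
  have hqS : q ∉ S := fun h => Set.disjoint_left.1 (hoff q h)
    (edgeOf_mem hf (left_mem_segment ℝ _ _)) (left_mem_segment ℝ _ _)
  refine ⟨⟨q, R.keep q hq hqS, hf⟩, ?_⟩
  rintro e' ⟨q', hq', hf'⟩ hlt hsub
  by_cases h : q' ∈ I₁ \ S
  · exact hmin e' ⟨q', h.1, hf'⟩ hlt hsub
  · obtain ⟨Q, hQ, hQs⟩ := R.fine q' hq' h
    exact Set.disjoint_left.1 (hoff Q hQ) (hQs (edgeOf_mem hf' (left_mem_segment ℝ _ _)))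
      (hsub (left_mem_segment ℝ _ _))

end ref

section tiles

variable {Λ : Set V} {ρ : V → ℝ}

/-- sizes of nearby tiles -/
theorem tile_gen_le (hρ : SizeFn Λ ρ) {m : ℕ} {z : Fin 3 → ℤ} (hz : IsTile ρ 0 m z) {y : V}
    (hy : y ∈ dyc 0 m z) {n : ℕ} {w : Fin 3 → ℤ} (hw : IsTile ρ 0 n w) {u : V}
    (hu : u ∈ dyc 0 n w) (hd : ‖y - u‖ ≤ 1 / 64 / 2 ^ n) : m ≤ n + 2 := by
  have h1 := _root_.P073.Net.NC.upper hρ hz hy
  have h2 := hw.1 u hu
  have h3 := hρ.lip u y
  rw [norm_sub_rev] at h3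
  by_contra hcon
  have h4 : n + 3 ≤ m := by omega
  have h5 : (1:ℝ) / 2 ^ m ≤ 1 / 2 ^ (n + 3) := by
    apply one_div_le_one_div_of_le (by positivity)
    exact pow_le_pow_right₀ (by norm_num) h4
  have h6 : (1:ℝ) / 2 ^ (n + 3) = 1 / 8 * (1 / 2 ^ n) := by rw [pow_add]; ring
  have h7 : (4:ℝ) / 2 ^ m = 4 * (1 / 2 ^ m) := by ring
  have h8 : (1:ℝ) / 64 / 2 ^ n = 1 / 64 * (1 / 2 ^ n) := by ring
  have h9 : (0:ℝ) < 1 / 2 ^ n := by positivity
  rw [h7] at h1
  rw [h8] at hd
  linarith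

/-- a tile near `y` has at least the generation `m` if all cubes of generation `m` near `y` are
tiles -/
theorem near_gen_le (hρ : SizeFn Λ ρ) {m : ℕ} {y : V}
    (htile : ∀ z : Fin 3 → ℤ, (∃ u ∈ dyc 0 m z, ‖y - u‖ ≤ 4 / 2 ^ m) → IsTile ρ 0 m z)
    {n : ℕ} {w : Fin 3 → ℤ} (hw : IsTile ρ 0 n w) {u : V} (hu : u ∈ dyc 0 n w)
    (hd : ‖y - u‖ ≤ 1 / 64 / 2 ^ n) : m ≤ n := by
  by_contra hcon
  have hlt : n < m := by omega
  obtain ⟨z, hz⟩ : ∃ z : Fin 3 → ℤ, y ∈ dyc 0 m z := by
    refine ⟨fun i => ⌊y i * 2 ^ m⌋, fun i => ?_⟩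
    have hp : (0:ℝ) < 2 ^ m := by positivity
    have h1 := Int.floor_le (y i * 2 ^ m)
    have h2 := (Int.lt_floor_add_one (y i * 2 ^ m)).le
    simp only [Pi.zero_apply, zero_add]
    exact ⟨(div_le_iff₀ hp).2 h1, (le_div_iff₀ hp).2 h2⟩
  have ht := htile z ⟨y, hz, by rw [sub_self, norm_zero]; positivity⟩
  have h1 := tile_gen_le hρ ht hz hw hu hd
  obtain ⟨z', hz', hsub⟩ := H193.exists_sub (q := (n, w)) hlt.le hu
  have h2 : (1:ℝ) / 2 ^ n ≤ 4 * (1 / 2 ^ m) := by
    have h3 : (2:ℝ) ^ m ≤ 2 ^ (n + 2) := pow_le_pow_right₀ (by norm_num) h1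
    rw [pow_add] at h3
    rw [mul_one_div, div_le_div_iff₀ (by positivity) (by positivity)]
    linarith
  have h4 : ‖y - u‖ ≤ 4 / 2 ^ m := by
    have e1 : (1:ℝ) / 64 / 2 ^ n = 1 / 64 * (1 / 2 ^ n) := by ring
    have e2 : (4:ℝ) / 2 ^ m = 4 * (1 / 2 ^ m) := by ring
    have e3 : (0:ℝ) < 1 / 2 ^ n := by positivity
    rw [e1] at hd
    rw [e2]
    linarith
  exact (htile z' ⟨u, hz', h4⟩).2 n w hlt hsub hw.1

end tiles

/-- `Deep` from the position of the image, with processed tiles -/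
theorem deep_act {c δ : ℝ} {ρ : V → ℝ} {J₀ : Set (ℕ × (Fin 3 → ℤ))} {l : Fin 3} {m : ℕ}
    {z : Fin 3 → ℤ} {S : Set V} (hδ : δ ≤ 1 / 64) (hc : 0 ≤ c) {y₀ : V} (hy₀ : y₀ ∈ S)
    (htile : ∀ z' : Fin 3 → ℤ, (∃ y ∈ dyc 0 m z', ‖y₀ - y‖ ≤ 4 / 2 ^ m) → IsTile ρ 0 m z')
    (hact : ∀ z' : Fin 3 → ℤ, (∃ y ∈ dyc 0 m z', ‖y₀ - y‖ ≤ 1 / 64 / 2 ^ m) → (m, z') ∈ J₀)
    (hnear : ∀ y ∈ S, |y l - z l / 2 ^ m| ≤ δ / 2 ^ m)
    (hmid : ∀ y ∈ S, ∀ j, j ≠ l → (z j + c) / 2 ^ m ≤ y j ∧ y j ≤ (z j + 1 - c) / 2 ^ m) :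
    Deep c δ 0 ρ J₀ (Finset.univ.erase l) m z S where
  tile := by
    intro z' hz'
    have hp : (0:ℝ) < 1 / 2 ^ m := by positivity
    refine htile z' ⟨fun j => z' j / 2 ^ m, fun j => ?_, ?_⟩
    · simp only [Pi.zero_apply, zero_add]
      refine ⟨le_rfl, ?_⟩
      rw [P86.div_add_one]
      linarith
    · rw [pi_norm_le_iff_of_nonneg (by positivity)]
      intro j
      rw [Pi.sub_apply, Real.norm_eq_abs]
      have h1 : |y₀ j - z j / 2 ^ m| ≤ 1 * (1 / 2 ^ m) := by
        by_cases hj : j = l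
        · subst hj
          have h2 := hnear y₀ hy₀
          have e1 : δ / 2 ^ m ≤ 1 * (1 / 2 ^ m) := by
            rw [div_eq_mul_one_div]
            gcongr
            linarith
          exact h2.trans e1
        · obtain ⟨h2, h3⟩ := hmid y₀ hy₀ j hj
          have e1 : ((z j : ℝ) + c) / 2 ^ m = z j / 2 ^ m + c * (1 / 2 ^ m) := by ring
          have e2 : ((z j : ℝ) + 1 - c) / 2 ^ m = z j / 2 ^ m + (1 - c) * (1 / 2 ^ m) := by ring
          rw [e1] at h2
          rw [e2] at h3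
          have e3 : 0 ≤ c * (1 / 2 ^ m) := by positivity
          have e4 : (1 - c) * (1 / 2 ^ m) ≤ 1 * (1 / 2 ^ m) := by gcongr; linarith
          rw [abs_le]
          constructor <;> linarith
      obtain ⟨h2, h3⟩ := hz' j
      have h4 : |(z j : ℝ) / 2 ^ m - z' j / 2 ^ m| ≤ 2 * (1 / 2 ^ m) := by
        have e1 : (z j : ℝ) / 2 ^ m - z' j / 2 ^ m = (z j - z' j) * (1 / 2 ^ m) := by ring
        rw [e1, abs_mul, abs_of_pos hp]
        gcongr
        rw [abs_le]
        have h5 : ((z j : ℤ) : ℝ) - 2 ≤ z' j := by exact_mod_cast h2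
        have h6 : ((z' j : ℤ) : ℝ) ≤ z j + 1 := by exact_mod_cast h3
        constructor <;> linarith
      have h5 := abs_sub_le (y₀ j) (z j / 2 ^ m : ℝ) (z' j / 2 ^ m)
      have e4 : (4:ℝ) / 2 ^ m = 4 * (1 / 2 ^ m) := by ring
      rw [e4]
      linarith
  act := by
    intro z' h1 h2
    have hp : (0:ℝ) < 1 / 2 ^ m := by positivity
    refine hact z' ⟨Function.update y₀ l (z l / 2 ^ m), fun j => ?_, ?_⟩
    · simp only [Pi.zero_apply, zero_add]
      by_cases hj : j = l
      · subst hj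
        rw [Function.update_self]
        rcases h2 j (by simp) with h3 | h3
        · rw [h3, P86.div_add_one]
          exact ⟨le_rfl, by linarith⟩
        · rw [h3]
          push_cast
          rw [sub_add_cancel]
          refine ⟨?_, le_rfl⟩
          gcongr
          linarith
      · rw [Function.update_of_ne hj]
        obtain ⟨h3, h4⟩ := hmid y₀ hy₀ j hj
        rw [h1 j (by simpa using hj)]
        have e1 : ((z j : ℝ) + c) / 2 ^ m = z j / 2 ^ m + c * (1 / 2 ^ m) := by ring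
        have e2 : ((z j : ℝ) + 1 - c) / 2 ^ m = (z j + 1) / 2 ^ m - c * (1 / 2 ^ m) := by ring
        have e3 : 0 ≤ c * (1 / 2 ^ m) := by positivity
        rw [e1] at h3
        rw [e2] at h4
        constructor <;> linarith
    · rw [pi_norm_le_iff_of_nonneg (by positivity)]
      intro j
      rw [Pi.sub_apply, Real.norm_eq_abs]
      by_cases hj : j = l
      · subst hj
        rw [Function.update_self]
        refine (hnear y₀ hy₀).trans ?_
        gcongr
      · rw [Function.update_of_ne hj, sub_self, abs_zero]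
        positivity
  near := by
    intro y hy j hj
    have hj' : j = l := by simpa using hj
    subst hj'
    have := hnear y hy
    simpa using this
  mid := by
    intro y hy j hj
    have hj' : j ≠ l := by simpa using hj
    have := hmid y hy j hj'
    simpa using this

theorem Deep.subset {c δ : ℝ} {w : V} {ρ : V → ℝ} {J₀ : Set (ℕ × (Fin 3 → ℤ))}
    {A : Finset (Fin 3)} {m : ℕ} {z : Fin 3 → ℤ} {S T : Set V} (h : T ⊆ S)
    (H : Deep c δ w ρ J₀ A m z S) : Deep c δ w ρ J₀ A m z T where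
  tile := H.tile
  act := H.act
  near := fun y hy => H.near y (h hy)
  mid := fun y hy => H.mid y (h hy)

/-- the derivative along a square from the local Lipschitz bound -/
theorem lineDeriv_le_lipBd {g : V → V} {a : V} {l : Fin 3} {σ : ℝ} (hσ : 0 < σ) {G : V → ℝ}
    (hG : LipBd g (sqr a l σ) G) {x : V} (hx : ∀ j, |x j - a j| < σ) {j : Fin 3} (hj : j ≠ l) :
    ‖lineDeriv ℝ g (Function.update x l (a l)) (ev j)‖ ≤ G (Function.update x l (a l)) := by
  have hmem : Function.update x l (a l) ∈ sqr a l σ := by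
    refine ⟨by simp, fun k => ?_⟩
    by_cases hk : k = l
    · subst hk
      simp [hσ.le]
    · rw [Function.update_of_ne hk]
      exact (hx k).le
  refine H304.lineDeriv_le_of_lip (hG.nonneg _ hmem) ?_
  have h1 := hG.lip _ hmem
  rw [eventually_nhdsWithin_iff] at h1
  have hcont : Tendsto (fun t : ℝ => Function.update x l (a l) + t • ev j) (𝓝 0)
      (𝓝 (Function.update x l (a l))) := by
    have : Continuous fun t : ℝ => Function.update x l (a l) + t • ev j := by fun_prop
    have h := this.tendsto 0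
    simpa using h
  have h2 := hcont.eventually h1
  have h3 : ∀ᶠ t : ℝ in 𝓝 0, |t| < σ - |x j - a j| := by
    have : Tendsto (fun t : ℝ => |t|) (𝓝 0) (𝓝 0) := by
      have := (continuous_abs (G := ℝ)).tendsto 0
      simpa using this
    exact this.eventually_lt_const (by linarith [hx j])
  filter_upwards [h2, h3] with t ht ht'
  have h4 : Function.update x l (a l) + t • ev j ∈ sqr a l σ := by
    refine ⟨?_, fun k => ?_⟩
    · simp [ev, Ne.symm hj]
    · by_cases hk : k = l
      · subst hk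
        simp [ev, Ne.symm hj, hσ.le]
      by_cases hkj : k = j
      · subst hkj
        have : (Function.update x l (a l) + t • ev k) k = x k + t := by
          simp [ev, Function.update_of_ne hk]
        rw [this]
        calc |x k + t - a k| = |(x k - a k) + t| := by ring_nf
          _ ≤ |x k - a k| + |t| := abs_add_le _ _
          _ ≤ σ := by linarith
      · have : (Function.update x l (a l) + t • ev j) k = x k := by
          simp [ev, Function.update_of_ne hk, hkj]
        rw [this]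
        exact (hx k).le
  refine (ht h4).trans (le_of_eq ?_)
  rw [add_sub_cancel_left, norm_smul, H304.norm_ev, mul_one, Real.norm_eq_abs]

/-- energy of a square from the local Lipschitz bound -/
theorem faceL_le_lipBd {p : ℝ} (hp : 0 ≤ p) {g : V → V} {a : V} {l : Fin 3} {σ : ℝ} (hσ : 0 < σ)
    {G : V → ℝ} (hG : LipBd g (sqr a l σ) G) : faceL p g a l σ ≤
      2 * ∫⁻ x in cube a σ, ENNReal.ofReal (G (Function.update x l (a l)) ^ p) := by
  have hcard : (Finset.univ.erase l).card = 2 := by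
    rw [Finset.card_erase_of_mem (Finset.mem_univ l)]; simp
  have hcube : cube a σ = closedBall a σ := SQ.cube_eq a hσ.le
  unfold faceL
  rw [hcube]
  have h1 : ∀ j ∈ Finset.univ.erase l, ∫⁻ x in closedBall a σ,
      ENNReal.ofReal (‖lineDeriv ℝ g (Function.update x l (a l)) (ev j)‖ ^ p) ≤
      ∫⁻ x in closedBall a σ, ENNReal.ofReal (G (Function.update x l (a l)) ^ p) := by
    intro j hj
    have hj' := Finset.ne_of_mem_erase hj
    refine lintegral_mono_ae ?_
    have hfr : volume (frontier (closedBall a σ)) = 0 :=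
      (convex_closedBall a σ).addHaar_frontier volume
    rw [ae_restrict_iff' measurableSet_closedBall]
    filter_upwards [measure_eq_zero_iff_ae_notMem.1 hfr] with x hx hxc
    have hxi : x ∈ interior (closedBall a σ) := by
      by_contra h
      exact hx ⟨subset_closure hxc, h⟩
    have hx' : ∀ j, |x j - a j| < σ := by
      intro j
      rw [interior_closedBall a hσ.ne', mem_ball, dist_eq_norm] at hxi
      have := norm_le_pi_norm (x - a) j
      rw [Pi.sub_apply, Real.norm_eq_abs] at this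
      exact this.trans_lt hxi
    have := lineDeriv_le_lipBd hσ hG hx' hj'
    gcongr
  refine (Finset.sum_le_sum h1).trans ?_
  rw [Finset.sum_const, hcard]
  simp

end Vale.Agent.P073.H73
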