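import Vale.Agent.P073.H73.R2F1

/-!
# P073, block B10, [R2F-SHARP]: the output of Round 2 on squares and edges away from the solid cubes
-/

namespace Vale.Agent.P073.H73

open MeasureTheory Set Filter Topology Metric Vale.Agent.P073.St Vale.Agent.P073.AB
open Vale.Agent.P073.AB.P86
open Vale.Agent.P073.SQ (ev cube Cells)
open Vale.Agent.P073.H304 (IsEdge LipBd Nb)
open Vale.Agent.P073.H194 (partMesh)
open Vale.Agent.P073.H239 (tv Deep faceI)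
open Vale.Agent.P073.H212 (TvOut AuxOut MonSide SharpOut3)
open Vale.Agent.P073.H687 (edges mem_edges sum_edges finite_minEdge)
open Vale.Agent.P073.H696
open Vale.Agent.P073.H851 (M3)
open _root_.P073 (ConHomeo)
open _root_.P073.Net (len dyc dyo IsTile SizeFn)
open scoped ENNReal

section R2

variable {p Cu : ℝ} {Lc : M3 → ℝ} {δ : ℝ} {j : ℕ} {ε : ℝ} {Ω Λ : Set V} {f : V → V} {F : V → Mat}
  {v : V} {X : R2 p Cu Lc δ j ε Ω Λ f F v} {ng : Idx → ℕ} {hΩ : IsOpen Ω}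
  {hI : Part Ω v (X.I₂ ng)} {D D' c₀ δK μ r : ℝ} {Y : Set (partMesh hΩ hI).κ}
  {εk : (partMesh hΩ hI).κ → ℝ} {g : ConHomeo Ω Λ}

/-- closeness, when all tiles near the image have the generation `m` -/
theorem out_close (O : OutL p D D' (1 / 2 ^ j) c₀ 0 (partMesh hΩ hI) X.hh.toFun X.J₀ X.Z Y εk g)
    (hD : 0 ≤ D) (hc : c₀ ≤ 1 / 64) {x : V} (hx : x ∈ Ω) {m : ℕ}
    (htile : ∀ z : Fin 3 → ℤ, (∃ y ∈ dyc 0 m z, ‖X.hh.toFun x - y‖ ≤ 4 / 2 ^ m) →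
      IsTile X.ρ 0 m z) : ‖g.toFun x - X.hh.toFun x‖ ≤ D / 2 ^ m := by
  by_cases h : X.hh.toFun x ∈ Nb 0 X.J₀ c₀
  · obtain ⟨t, ht, u, hu, hd⟩ := h
    have h1 := O.close x hx t ht ⟨t, rfl, u, hu, hd⟩
    have hu' : u ∈ dyc 0 t.1 t.2 :=
      (isCompact_dyc 0 t.1 t.2).isClosed.frontier_subset hu
    have h2 : m ≤ t.1 := near_gen_le X.tg.size htile (X.tg.tile t (X.tg.sub ht)) hu'
      (hd.trans (by gcongr))
    refine h1.trans ?_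
    gcongr
    norm_num
  · rw [O.off x hx h, sub_self, norm_zero]
    positivity

/-- length of the edges away from the solid cubes -/
theorem out_len (O : OutL p D D' (1 / 2 ^ j) c₀ 0 (partMesh hΩ hI) X.hh.toFun X.J₀ X.Z Y εk g)
    (hG : X.Geo ng) (hD : 0 ≤ D) {s : Idx × Fin 3} (hs : MinSq v (X.I₂ ng) s)
    {e : Idx × Fin 3} (he : MinEdge v (X.I₂ ng) e) (hes : edge v e ⊆ squ v s) {q : Idx}
    (hq : q ∈ X.I₁ \ X.S) (heq : edge v e ⊆ dyc v q.1 q.2) :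
    len (onSeg g.toFun (segP v e)) (Icc 0 1) ≤
      ENNReal.ofReal (2 * D * Cu) * len (onSeg X.h₁.toFun (segP v e)) (Icc 0 1) +
        ENNReal.ofReal (εk ⟨s, hs⟩) := by
  have h1 := O.edge ⟨s, hs⟩ (segP v e) (isEdge_segP hΩ hI he) hes
  refine h1.trans ?_
  gcongr ?_ + _
  have h2 := H582.R2.ell_le X (heq.trans (X.st.part.sub q hq.1))
    fun y hy => (hG.off q hq y (heq hy)).1
  have h3 : X.ℓ e = len (onSeg X.hh.toFun (segP v e)) (Icc 0 1) := rfl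
  have hCu := X.hCu
  rw [← h3]
  calc ENNReal.ofReal D * X.ℓ e ≤ ENNReal.ofReal D *
        (ENNReal.ofReal (2 * Cu) * H304.elen X.h₁.toFun v e) := by gcongr
    _ = _ := by
        rw [← mul_assoc, ← ENNReal.ofReal_mul hD]
        congr 2
        ring

/-- the cubes of `I₁ \ S` are drawn -/
theorem drawn_keep (hG : X.Geo ng) {q : Idx} (hq : q ∈ X.I₁ \ X.S) :
    ∃ i ∈ (X.Z : Set (partMesh hΩ hI).ι), (partMesh hΩ hI).Q i = dyc v q.1 q.2 := by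
  have hq2 : q ∈ X.I₂ ng := Or.inl (Or.inl hq)
  refine ⟨⟨q, hq2⟩, ⟨?_, ?_⟩, rfl⟩
  · rintro ⟨c, hc, he⟩
    have h1 : q = c := eq_of_sub hI hq2 (H490.mem_of_C hc)
      (le_of_eq (show dyc v q.1 q.2 = dyc v c.1 c.2 from he))
    exact (hG.cell c hc).1 (h1 ▸ hq.1)
  · rintro _ ⟨y, hy, rfl⟩
    exact (hG.off q hq y hy).2

/-- energy of the squares away from the solid cubes -/
theorem out_face (O : OutL p D D' (1 / 2 ^ j) c₀ 0 (partMesh hΩ hI) X.hh.toFun X.J₀ X.Z Y εk g)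
    (hG : X.Geo ng) (hp : 0 ≤ p) (hD' : 0 ≤ D') {s : Idx × Fin 3}
    (hs : MinSq v (X.I₂ ng) s) (hsE : ∀ e, EdgeOfSq e s → MinEdge v (X.I₂ ng) e) {q : Idx}
    (hq : q ∈ X.I₁ \ X.S) (hsq : squ v s ⊆ dyc v q.1 q.2) {β : ℝ} (hβ : 0 ≤ β)
    (hεk : 0 ≤ εk ⟨s, hs⟩ ∧ 2 * εk ⟨s, hs⟩ ≤ β) :
    faceL p g.toFun (sc v s) s.2 (1 / 2 / 2 ^ s.1.1) ≤
      ENNReal.ofReal ((2 * Cu) ^ p * D' * (1 / 2 ^ s.1.1) ^ 2) *
        ∑' e : {e : Idx × Fin 3 // EdgeOfSq e s}, ENNReal.ofReal ((1 / 2 ^ s.1.1) ^ (1 - p)) *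
          (len (onSeg X.h₁.toFun (segP v e.1)) (Icc 0 1) + ENNReal.ofReal β) ^ p := by
  have hCu := X.hCu
  have hσ : (0:ℝ) < 1 / 2 / 2 ^ s.1.1 := by positivity
  have hsqr : squ v s = sqr (sc v s) s.2 (1 / 2 / 2 ^ s.1.1) := H687.squ_eq_sqr v s
  obtain ⟨i, hi, hQi⟩ := drawn_keep (hΩ := hΩ) (hI := hI) hG hq
  obtain ⟨G, hGl, hE⟩ := O.face ⟨s, hs⟩ ⟨i, hi, by rw [hQi]; exact hsq⟩ D' (Or.inl le_rfl)
  have hGl' : LipBd g.toFun (sqr (sc v s) s.2 (1 / 2 / 2 ^ s.1.1)) G := by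
    rw [← hsqr]; exact hGl
  have hinj := segP_injective v
  set L : Idx × Fin 3 → ℝ≥0∞ := fun e =>
    ENNReal.ofReal (2 * Cu) * len (onSeg X.h₁.toFun (segP v e)) (Icc 0 1) with hL
  have h1 := hE (edges hI hs) (Function.extend (segP v) L 0) (sc v s) s.2 _ hσ hsqr
    (adapted_part hΩ hI ⟨s, hs⟩) (by
      intro e' he'
      obtain ⟨e, he, rfl⟩ := (mem_edges hI hs).1 he'
      rw [hinj.extend_apply]
      exact H582.R2.ell_le X ((he.2.trans hsq).trans (X.st.part.sub q hq.1))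
        fun y hy => (hG.off q hq y (hsq (he.2 hy))).1)
  rw [H687.sum_edges] at h1
  have h2 := H193.tsum_minEdge_le hΩ hI hs (fun e he => hsE e (mem_sqE.1 he)) fun e =>
    ENNReal.ofReal (‖(segP v e).2 - (segP v e).1‖ ^ (1 - p)) *
      (Function.extend (segP v) L 0 (segP v e) + ENNReal.ofReal (εk ⟨s, hs⟩ *
        ‖(segP v e).2 - (segP v e).1‖ / (1 / 2 / 2 ^ s.1.1))) ^ p
  refine (faceL_le_lipBd hp hσ hGl').trans ?_
  rw [H687.tsum_sqE s fun e => ENNReal.ofReal ((1 / 2 ^ s.1.1) ^ (1 - p)) *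
    (len (onSeg X.h₁.toFun (segP v e)) (Icc 0 1) + ENNReal.ofReal β) ^ p]
  have h3 : ∑ e ∈ sqE s, ENNReal.ofReal (‖(segP v e).2 - (segP v e).1‖ ^ (1 - p)) *
      (Function.extend (segP v) L 0 (segP v e) + ENNReal.ofReal (εk ⟨s, hs⟩ *
        ‖(segP v e).2 - (segP v e).1‖ / (1 / 2 / 2 ^ s.1.1))) ^ p ≤
      ENNReal.ofReal ((2 * Cu) ^ p) * ∑ e ∈ sqE s, ENNReal.ofReal ((1 / 2 ^ s.1.1) ^ (1 - p)) *
        (len (onSeg X.h₁.toFun (segP v e)) (Icc 0 1) + ENNReal.ofReal β) ^ p := by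
    rw [Finset.mul_sum]
    refine Finset.sum_le_sum fun e he => ?_
    have hg : e.1.1 = s.1.1 := (mem_sqE.1 he).1
    rw [hinj.extend_apply, norm_segP, hg]
    have e1 : εk ⟨s, hs⟩ * (1 / 2 ^ s.1.1) / (1 / 2 / 2 ^ s.1.1) = 2 * εk ⟨s, hs⟩ := by field_simp
    rw [e1]
    calc ENNReal.ofReal ((1 / 2 ^ s.1.1) ^ (1 - p)) *
          (L e + ENNReal.ofReal (2 * εk ⟨s, hs⟩)) ^ p
        ≤ ENNReal.ofReal ((1 / 2 ^ s.1.1) ^ (1 - p)) * (ENNReal.ofReal (2 * Cu) *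
          (len (onSeg X.h₁.toFun (segP v e)) (Icc 0 1) + ENNReal.ofReal β)) ^ p := by
          gcongr
          rw [mul_add]
          gcongr
          rw [← ENNReal.ofReal_mul (by positivity)]
          apply ENNReal.ofReal_le_ofReal
          nlinarith [hεk.2]
      _ = _ := by
          rw [ENNReal.mul_rpow_of_nonneg _ _ hp, ENNReal.ofReal_rpow_of_nonneg (by positivity) hp]
          ring
  calc 2 * ∫⁻ x in cube (sc v s) (1 / 2 / 2 ^ s.1.1),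
        ENNReal.ofReal (G (Function.update x s.2 (sc v s s.2)) ^ p)
      ≤ 2 * (ENNReal.ofReal (D' * (1 / 2 / 2 ^ s.1.1) ^ 2) * (ENNReal.ofReal ((2 * Cu) ^ p) *
        ∑ e ∈ sqE s, ENNReal.ofReal ((1 / 2 ^ s.1.1) ^ (1 - p)) *
        (len (onSeg X.h₁.toFun (segP v e)) (Icc 0 1) + ENNReal.ofReal β) ^ p)) := by
        gcongr
        exact h1.trans (by gcongr; exact h2.trans h3)
    _ = ENNReal.ofReal (2 * (D' * (1 / 2 / 2 ^ s.1.1) ^ 2) * (2 * Cu) ^ p) *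
        ∑ e ∈ sqE s, ENNReal.ofReal ((1 / 2 ^ s.1.1) ^ (1 - p)) *
        (len (onSeg X.h₁.toFun (segP v e)) (Icc 0 1) + ENNReal.ofReal β) ^ p := by
        have e2 : (2:ℝ≥0∞) = ENNReal.ofReal 2 := by simp
        rw [e2, ← mul_assoc, ← mul_assoc, ← ENNReal.ofReal_mul (by norm_num),
          ← ENNReal.ofReal_mul (by positivity)]
    _ ≤ _ := by
        gcongr ENNReal.ofReal ?_ * _
        have e2 : (2:ℝ) * (D' * (1 / 2 / 2 ^ s.1.1) ^ 2) * (2 * Cu) ^ p =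
          1 / 2 * ((2 * Cu) ^ p * D' * (1 / 2 ^ s.1.1) ^ 2) := by ring
        rw [e2]
        have e3 : 0 ≤ (2 * Cu) ^ p * D' * (1 / 2 ^ s.1.1) ^ 2 := by positivity
        linarith

/-- closeness of the auxiliary function -/
theorem aux_close {q : V → V}
    (O : AuxOut D c₀ δK 0 X.ρ (partMesh hΩ hI) X.hh.toFun X.J₀ εk q)
    (hD : 0 ≤ D) (hc : c₀ ≤ 1 / 64) {x : V} (hx : x ∈ Ω) {m : ℕ}
    (htile : ∀ z : Fin 3 → ℤ, (∃ y ∈ dyc 0 m z, ‖X.hh.toFun x - y‖ ≤ 4 / 2 ^ m) →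
      IsTile X.ρ 0 m z) : ‖q x - X.hh.toFun x‖ ≤ D / 2 ^ m := by
  by_cases h : X.hh.toFun x ∈ Nb 0 X.J₀ c₀
  · obtain ⟨t, ht, u, hu, hd⟩ := h
    have h1 := O.close x hx t ht ⟨t, rfl, u, hu, hd⟩
    have hu' : u ∈ dyc 0 t.1 t.2 :=
      (isCompact_dyc 0 t.1 t.2).isClosed.frontier_subset hu
    have h2 : m ≤ t.1 := near_gen_le X.tg.size htile (X.tg.tile t (X.tg.sub ht)) hu'
      (hd.trans (by gcongr))
    refine h1.trans ?_
    gcongr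
    norm_num
  · rw [O.off x hx h, sub_self, norm_zero]
    positivity

/-- length of the edges away from the solid cubes under the auxiliary function -/
theorem aux_len {q' : V → V}
    (O : AuxOut D c₀ δK 0 X.ρ (partMesh hΩ hI) X.hh.toFun X.J₀ εk q')
    (hG : X.Geo ng) (hD : 0 ≤ D) {s : Idx × Fin 3} (hs : MinSq v (X.I₂ ng) s)
    {e : Idx × Fin 3} (he : MinEdge v (X.I₂ ng) e) (hes : edge v e ⊆ squ v s) {q : Idx}
    (hq : q ∈ X.I₁ \ X.S) (heq : edge v e ⊆ dyc v q.1 q.2) :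
    len (onSeg q' (segP v e)) (Icc 0 1) ≤
      ENNReal.ofReal (2 * D * Cu) * len (onSeg X.h₁.toFun (segP v e)) (Icc 0 1) +
        ENNReal.ofReal (εk ⟨s, hs⟩) := by
  have h1 := O.edge ⟨s, hs⟩ (segP v e) (isEdge_segP hΩ hI he) hes
  refine h1.trans ?_
  gcongr ?_ + _
  have h2 := H582.R2.ell_le X (heq.trans (X.st.part.sub q hq.1))
    fun y hy => (hG.off q hq y (heq hy)).1
  have h3 : X.ℓ e = len (onSeg X.hh.toFun (segP v e)) (Icc 0 1) := rfl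
  have hCu := X.hCu
  rw [← h3]
  calc ENNReal.ofReal D * X.ℓ e ≤ ENNReal.ofReal D *
        (ENNReal.ofReal (2 * Cu) * H304.elen X.h₁.toFun v e) := by gcongr
    _ = _ := by
        rw [← mul_assoc, ← ENNReal.ofReal_mul hD]
        congr 2
        ring

/-- sharp edges -/
theorem out_tv {g : V → V}
    (Sh : TvOut c₀ δK 0 X.ρ (partMesh hΩ hI) X.hh.toFun X.J₀ εk g)
    (hδ : δ ≤ δK) {s : Idx × Fin 3} (hs : MinSq v (X.I₂ ng) s) {e : Idx × Fin 3}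
    (he : MinEdge v (X.I₂ ng) e) (hes : edge v e ⊆ squ v s) {A : Finset (Fin 3)}
    (hA : A.Nonempty) (hA' : A ≠ Finset.univ) {m : ℕ} {z : Fin 3 → ℤ}
    (hd : Deep c₀ δ 0 X.ρ X.J₀ A m z (X.hh.toFun '' edge v e)) :
    tv g (segP v e) Finset.univ ≤
      ENNReal.ofReal (1 + c₀) * tv X.hh.toFun (segP v e) A + ENNReal.ofReal (εk ⟨s, hs⟩) :=
  Sh ⟨s, hs⟩ (segP v e) (isEdge_segP hΩ hI he) hes A hA hA' m z (Deep.mono hδ hd)

/-- sharp faces -/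
theorem out_faceI {q : V → V}
    (Sh : ∀ k ∈ Y, ∀ (a : V) (l : Fin 3) (σ : ℝ), 0 < σ → (partMesh hΩ hI).F k = sqr a l σ →
      ∀ m z, Deep c₀ δK 0 X.ρ X.J₀ (Finset.univ.erase l) m z
        (X.hh.toFun '' (partMesh hΩ hI).F k) →
      (∀ i, i ≠ l → ∀ x : V, x ∈ sqr a l σ → x + (2 * σ) • ev i ∈ sqr a l σ →
        (∀ j, j ≠ i → j ≠ l → |x j - a j| = σ) →
        IsEdge (partMesh hΩ hI) (x, x + (2 * σ) • ev i) ∧ MonSide r σ g.toFun i x ∧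
        MonSide r σ q i x ∧
        H239.tv X.hh.toFun (x, x + (2 * σ) • ev i) (Finset.univ.erase l) ≤
          ENNReal.ofReal ((1 + r) * (2 * σ))) →
      faceI p g.toFun a l σ ≤ ENNReal.ofReal ((μ + εk k) * σ ^ 3))
    (hδ : δ ≤ δK) (hμ : 0 ≤ μ) {s : Idx × Fin 3} (hs : MinSq v (X.I₂ ng) s)
    (hY : (⟨s, hs⟩ : (partMesh hΩ hI).κ) ∈ Y) {m : ℕ} {z : Fin 3 → ℤ}
    (hd : Deep c₀ δ 0 X.ρ X.J₀ (Finset.univ.erase s.2) m z (X.hh.toFun '' squ v s))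
    (hside : ∀ e : Idx × Fin 3, EdgeOfSq e s → MinEdge v (X.I₂ ng) e ∧
      ((1 - r) / 2 ^ s.1.1 ≤ g.toFun (segP v e).2 e.2 - g.toFun (segP v e).1 e.2 ∧
      tv g.toFun (segP v e) Finset.univ ≤ ENNReal.ofReal ((1 + r) / 2 ^ s.1.1)) ∧
      ((1 - r) / 2 ^ s.1.1 ≤ q (segP v e).2 e.2 - q (segP v e).1 e.2 ∧
      tv q (segP v e) Finset.univ ≤ ENNReal.ofReal ((1 + r) / 2 ^ s.1.1)) ∧
      tv X.hh.toFun (segP v e) (Finset.univ.erase s.2) ≤ ENNReal.ofReal ((1 + r) / 2 ^ s.1.1))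
    {β : ℝ} (hεk : 0 ≤ εk ⟨s, hs⟩ ∧ 2 * εk ⟨s, hs⟩ ≤ β) :
    faceI p g.toFun (sc v s) s.2 (1 / 2 / 2 ^ s.1.1) ≤
      ENNReal.ofReal ((μ + β) * (1 / 2 ^ s.1.1) ^ 3) := by
  refine (Sh ⟨s, hs⟩ hY (sc v s) s.2 (1 / 2 / 2 ^ s.1.1) (by positivity)
    (H687.squ_eq_sqr v s) m z (Deep.mono hδ hd) ?_).trans ?_
  · intro i hi x hx hx' hj
    obtain ⟨e, he, hei, hseg⟩ := side_eq hi hx hx' hj
    obtain ⟨h1, ⟨h2, h3⟩, ⟨h2', h3'⟩, h5⟩ := hside e he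
    have h4 : (2 * (1 / 2 / 2 ^ s.1.1) : ℝ) = 1 / 2 ^ s.1.1 := by ring
    rw [hseg] at h2 h3 h2' h3' h5
    rw [hei] at h2 h2'
    have e1 : (1 + r) / 2 ^ s.1.1 = (1 + r) * (1 / 2 ^ s.1.1) := by ring
    have e2 : (1 - r) / 2 ^ s.1.1 = (1 - r) * (1 / 2 ^ s.1.1) := by ring
    rw [h4] at h2 h3 h2' h3' h5 ⊢
    rw [e2] at h2 h2'
    rw [e1] at h3 h3' h5
    refine ⟨?_, ⟨?_, ?_⟩, ⟨?_, ?_⟩, h5⟩
    · rw [← h4, ← hseg]; exact isEdge_segP hΩ hI h1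
    · rw [h4]; exact h2
    · rw [h4]; exact h3
    · rw [h4]; exact h2'
    · rw [h4]; exact h3'
  · apply ENNReal.ofReal_le_ofReal
    have h3 : εk ⟨s, hs⟩ ≤ β := by linarith [hεk.1, hεk.2]
    have e1 : (1:ℝ) / 2 / 2 ^ s.1.1 ≤ 1 / 2 ^ s.1.1 := by
      gcongr; norm_num
    have hβ : 0 ≤ β := by linarith [hεk.1]
    have e2 : 0 ≤ μ + β := add_nonneg hμ hβ
    calc (μ + εk ⟨s, hs⟩) * (1 / 2 / 2 ^ s.1.1) ^ 3 ≤ (μ + β) * (1 / 2 / 2 ^ s.1.1) ^ 3 := by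
          gcongr
      _ ≤ (μ + β) * (1 / 2 ^ s.1.1) ^ 3 := by gcongr

end R2

end Vale.Agent.P073.H73
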