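import Vale.Agent.P073.H73.R2F2
import Vale.Agent.P073.H239.FSpec

/-!
# P073, block B10, [R2F-SHARP]: closeness at the boundary, and the fields of `FOut`
-/

namespace Vale.Agent.P073.H73

open MeasureTheory Set Filter Topology Metric Vale.Agent.P073.St Vale.Agent.P073.AB
open Vale.Agent.P073.AB.P86
open Vale.Agent.P073.SQ (ev cube Cells)
open Vale.Agent.P073.LOC (BdClose Q1)
open Vale.Agent.P073.H304 (IsEdge LipBd Nb)
open Vale.Agent.P073.H194 (partMesh)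
open Vale.Agent.P073.H235 (Bx cmp cmpD rect redge Free NearMon ShortH)
open Vale.Agent.P073.H239 (tv Deep faceI FData FAux)
open Vale.Agent.P073.H212 (TvOut AuxOut SharpOut3)
open Vale.Agent.P073.H696
open Vale.Agent.P073.H851 (M3)
open _root_.P073 (ConHomeo)
open _root_.P073.Net (len dyc dyo IsTile SizeFn)
open scoped ENNReal

/-- the points which are mapped into a compact set -/
theorem isCompact_preimage_con {Ω Λ : Set V} (h : ConHomeo Ω Λ) {K : Set V} (hK : IsCompact K)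
    (hKΛ : K ⊆ Λ) : ∃ K' ⊆ Ω, IsCompact K' ∧ ∀ x ∈ Ω, x ∉ K' → h.toFun x ∉ K := by
  refine ⟨h.invFun '' K, ?_, hK.image_of_continuousOn (h.cont_inv.mono hKΛ), ?_⟩
  · rintro _ ⟨y, hy, rfl⟩
    exact h.mapsTo_inv (hKΛ hy)
  · intro x hx hxK hy
    exact hxK ⟨h.toFun x, hy, h.left_inv hx⟩

theorem isCompact_preimage_homeo {Ω Λ : Set V} {f : V → V} (hf : St.IsHomeo Ω Λ f) {K : Set V}
    (hK : IsCompact K) (hKΛ : K ⊆ Λ) : ∃ K' ⊆ Ω, IsCompact K' ∧ ∀ x ∈ Ω, x ∉ K' → f x ∉ K := by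
  obtain ⟨h, ⟨h1, h2⟩, -, hc⟩ := hf
  refine ⟨h '' K, ?_, hK.image_of_continuousOn (hc.mono hKΛ), ?_⟩
  · rintro _ ⟨y, hy, rfl⟩
    exact (h2 y (hKΛ hy)).1
  · intro x hx hxK hy
    exact hxK ⟨f x, hy, (h1 x hx).2⟩

section R2

variable {p Cu : ℝ} {Lc : M3 → ℝ} {δ : ℝ} {j : ℕ} {ε : ℝ} {Ω Λ : Set V} {f : V → V} {F : V → Mat}
  {v : V} {X : R2 p Cu Lc δ j ε Ω Λ f F v} {ng : Idx → ℕ} {hΩ : IsOpen Ω}
  {hI : Part Ω v (X.I₂ ng)} {D D' c₀ δK μ r : ℝ} {Y : Set (partMesh hΩ hI).κ}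
  {εk : (partMesh hΩ hI).κ → ℝ} {g : ConHomeo Ω Λ}

/-- closeness at the boundary -/
theorem out_bd (O : OutL p D D' (1 / 2 ^ j) c₀ 0 (partMesh hΩ hI) X.hh.toFun X.J₀ X.Z Y εk g)
    (hD : 0 ≤ D) (hc : c₀ ≤ 1 / 64)
    (bdT : ∀ η > 0, ∃ K ⊆ Λ, IsCompact K ∧ ∀ y ∈ Λ, y ∉ K → ‖X.Tt.toFun y - y‖ ≤ η) :
    BdClose Ω f g.toFun := by
  intro η hη
  have hbΛ := isBounded_of_domain X.hΛ
  -- the map
  set T₁ : Set V := {y | y ∈ closure Λ ∧ η ≤ infDist y Λᶜ} with hT₁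
  have hT₁Λ : T₁ ⊆ Λ := by
    rintro y ⟨-, hy⟩
    by_contra hcon
    have h0 : infDist y Λᶜ = 0 := infDist_zero_of_mem hcon
    rw [h0] at hy
    linarith
  have hT₁c : IsCompact T₁ := by
    refine hbΛ.isCompact_closure.of_isClosed_subset ?_ fun y hy => hy.1
    exact isClosed_closure.inter (isClosed_le continuous_const (continuous_infDist_pt _))
  obtain ⟨K₁, hK₁, hK₁c, hK₁f⟩ := isCompact_preimage_homeo X.hf hT₁c hT₁Λ
  -- the target homeomorphism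
  obtain ⟨T₂, hT₂Λ, hT₂c, hT₂f⟩ := bdT (η / 4) (by positivity)
  obtain ⟨K₂, hK₂, hK₂c, hK₂f⟩ := isCompact_preimage_con X.h₁ hT₂c hT₂Λ
  -- large tiles
  set t : ℝ := η / (4 * (D + 1)) with ht
  have ht0 : 0 < t := by positivity
  set T₃ : Set V := {y | t / 2 ≤ X.ρ y} with hT₃
  have hT₃Λ : T₃ ⊆ Λ := by
    intro y hy
    by_contra hcon
    have := X.tg.size.off y hcon
    have hy' : t / 2 ≤ X.ρ y := hy
    linarith
  have hT₃c : IsCompact T₃ := by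
    refine Metric.isCompact_of_isClosed_isBounded ?_ (hbΛ.subset hT₃Λ)
    exact isClosed_le continuous_const (continuous_size X.tg.size)
  obtain ⟨K₃, hK₃, hK₃c, hK₃f⟩ := isCompact_preimage_con X.hh hT₃c hT₃Λ
  refine ⟨K₁ ∪ K₂ ∪ K₃, union_subset (union_subset hK₁ hK₂) hK₃, (hK₁c.union hK₂c).union hK₃c, ?_⟩
  rintro x ⟨hx, hxK⟩
  simp only [mem_union, not_or] at hxK
  obtain ⟨⟨hx1, hx2⟩, hx3⟩ := hxK
  -- three estimates
  have e1 : ‖X.h₁.toFun x - f x‖ ≤ η / 4 := by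
    refine (X.st.close x hx).2.trans ?_
    have h1 := hK₁f x hx hx1
    have hfx : f x ∈ Λ := by
      obtain ⟨h, ⟨h1, -⟩, -⟩ := X.hf
      exact (h1 x hx).1
    have h2 : infDist (f x) Λᶜ < η := by
      by_contra hcon
      exact h1 ⟨subset_closure hfx, not_lt.1 hcon⟩
    linarith
  have e2 : ‖X.hh.toFun x - X.h₁.toFun x‖ ≤ η / 4 :=
    hT₂f _ (X.h₁.mapsTo hx) (hK₂f x hx hx2)
  have e3 : ‖g.toFun x - X.hh.toFun x‖ ≤ η / 4 := by
    by_cases h : X.hh.toFun x ∈ Nb 0 X.J₀ c₀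
    · obtain ⟨s, hs, u, hu, hd⟩ := h
      have h1 := O.close x hx s hs ⟨s, rfl, u, hu, hd⟩
      have hu' : u ∈ dyc 0 s.1 s.2 := (isCompact_dyc 0 s.1 s.2).isClosed.frontier_subset hu
      have h2 := (X.tg.tile s (X.tg.sub hs)).1 u hu'
      have h3 := X.tg.size.lip u (X.hh.toFun x)
      rw [norm_sub_rev] at h3
      have h4 : X.ρ (X.hh.toFun x) < t / 2 := by
        have := hK₃f x hx hx3
        exact not_le.1 this
      have h5 : (0:ℝ) < 1 / 2 ^ s.1 := by positivity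
      have h6 : c₀ / 2 ^ s.1 ≤ 1 / 2 * (1 / 2 ^ s.1) := by
        rw [div_eq_mul_one_div]
        gcongr
        linarith
      have h7 : (1:ℝ) / 2 ^ s.1 ≤ t := by linarith
      calc ‖g.toFun x - X.hh.toFun x‖ ≤ D / 2 ^ s.1 := h1
        _ = D * (1 / 2 ^ s.1) := by ring
        _ ≤ (D + 1) * t := by gcongr; linarith
        _ = η / 4 := by rw [ht]; field_simp
    · rw [O.off x hx h, sub_self, norm_zero]
      positivity
  have e4 := norm_sub_le_norm_sub_add_norm_sub (g.toFun x) (X.hh.toFun x) (f x)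
  have e5 := norm_sub_le_norm_sub_add_norm_sub (X.hh.toFun x) (X.h₁.toFun x) (f x)
  linarith

end R2

section FData

variable {p Cu : ℝ} {Lc : M3 → ℝ} {δ : ℝ} {j : ℕ} {C θ ν τ ε c : ℝ} {Λ : Set V} {f : V → V}
  {F : V → Mat} {v : V} (X : FData p Cu Lc δ j C θ ν τ ε c Λ f F v)

/-- the sides of the squares of the core are edges of the core -/
theorem side_redge {a b : Fin 3 → ℤ} {n : ℕ} {k : Fin 3 → ℤ} (hk : k ∈ rect a b)
    {e : Idx × Fin 3} (he : EdgeOfSq e ((n, k), 2)) :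
    e.1.1 = n ∧ e.2 ≠ 2 ∧ e.1.2 ∈ redge a b e.2 := by
  obtain ⟨h1, h2, h3, h4, h5⟩ := he
  refine ⟨h1, h2, ?_⟩
  rw [rect, Fintype.mem_piFinset] at hk
  rw [redge, Fintype.mem_piFinset]
  intro i
  have hki := hk i
  by_cases hi : i = 2
  · subst hi
    simp only [if_pos] at hki ⊢
    rw [h4]
    exact hki
  · rw [if_neg hi] at hki ⊢
    by_cases hi' : i = e.2
    · subst hi'
      rw [if_pos rfl, h3]
      exact hki
    · rw [if_neg hi']
      rw [Finset.mem_Ico] at hki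
      rw [Finset.mem_Icc]
      rcases h5 i hi' hi with h | h
      · rw [h]
        exact ⟨hki.1, hki.2.le⟩
      · rw [h]
        have := hki.1
        have := hki.2
        simp only at *
        omega

/-- every edge of the core is a side of a square of the core -/
theorem exists_side {a b : Fin 3 → ℤ} {n : ℕ} (hab : ∀ i, i ≠ 2 → a i < b i) {i : Fin 3}
    (hi : i ≠ 2) {k : Fin 3 → ℤ} (hk : k ∈ redge a b i) :
    ∃ k' ∈ rect a b, EdgeOfSq ((n, k), i) ((n, k'), 2) := by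
  rw [redge, Fintype.mem_piFinset] at hk
  obtain ⟨l, hl1, hl2⟩ := H687.fin3_third i 2 hi
  have hall := H687.fin3_all 2 i l hi hl1 hl2
  have hkl := hk l
  rw [if_neg hl1, if_neg hl2, Finset.mem_Icc] at hkl
  have hk2 := hk 2
  rw [if_pos rfl, Finset.mem_singleton] at hk2
  have hki := hk i
  rw [if_neg hi, if_pos rfl, Finset.mem_Ico] at hki
  have habl := hab l hl1
  refine ⟨Function.update k l (if k l = b l then k l - 1 else k l), ?_, rfl, hi, ?_, ?_, ?_⟩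
  · rw [rect, Fintype.mem_piFinset]
    intro m
    rcases hall m with rfl | rfl | rfl
    · rw [if_pos rfl, Function.update_of_ne (Ne.symm hl1), Finset.mem_singleton]
      exact hk2
    · rw [if_neg hi, Function.update_of_ne (Ne.symm hl2), Finset.mem_Ico]
      exact hki
    · rw [if_neg hl1, Function.update_self, Finset.mem_Ico]
      split_ifs with h
      · omega
      · exact ⟨hkl.1, lt_of_le_of_ne hkl.2 h⟩
  · show k i = _
    simp only
    rw [Function.update_of_ne (Ne.symm hl2)]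
  · show k 2 = _
    simp only
    rw [Function.update_of_ne (Ne.symm hl1)]
  · intro m hm1 hm2
    rcases hall m with rfl | rfl | rfl
    · exact absurd rfl hm2
    · exact absurd rfl hm1
    · show k m = _ ∨ k m = _
      simp only
      rw [Function.update_self]
      split_ifs with h
      · right; omega
      · left; rfl

/-- the squares of the core -/
theorem fd_sq {k : Fin 3 → ℤ} (hk : k ∈ rect X.a X.b) :
    ∃ q ∈ X.I₁ \ X.S, squ v ((X.nS, k), 2) ⊆ dyc v q.1 q.2 := by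
  obtain ⟨⟨q, hq, hf⟩, -⟩ := X.pl.minS k hk
  have hsub := S308.squ_sub_of_face (v := v) hf
  refine ⟨q, ⟨hq, fun h => ?_⟩, hsub⟩
  exact Set.disjoint_left.1 (X.pl.offS k hk q h) (hsub (pt_mem_squ v _)) (pt_mem_squ v _)

theorem fd_minS {ng : Idx → ℕ} (hG : X.toR2.Geo ng) {k : Fin 3 → ℤ} (hk : k ∈ rect X.a X.b) :
    MinSq v (X.toR2.I₂ ng) ((X.nS, k), 2) :=
  minSq_ref (H582.R2.ref X.toR2 hG) (X.pl.minS k hk) (X.pl.offS k hk)

theorem fd_minE {ng : Idx → ℕ} (hG : X.toR2.Geo ng) {k : Fin 3 → ℤ} (hk : k ∈ rect X.a X.b)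
    {e : Idx × Fin 3} (he : EdgeOfSq e ((X.nS, k), 2)) : MinEdge v (X.toR2.I₂ ng) e := by
  obtain ⟨⟨m, z⟩, i⟩ := e
  obtain ⟨h1, h2, h3⟩ := side_redge hk he
  have h1' : m = X.nS := h1
  subst h1'
  exact minEdge_ref (H582.R2.ref X.toR2 hG) (X.pl.minE i h2 z h3) fun q hq =>
    (X.pl.offS k hk q hq).mono_right (S308.edge_sub_squ he)

/-- the good squares in the middle of the tiles are deep -/
theorem fd_deep {c₀ : ℝ} (hc : 0 ≤ c₀) (hδ : δ ≤ 1 / 64) {k : Fin 3 → ℤ} (hk : k ∈ X.G)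
    (hF : Free c₀ v X.nS X.mt X.toR2.hh.toFun k) :
    ∃ z, Deep c₀ δ 0 X.ρ X.J₀ (Finset.univ.erase 2) X.mt z
      (X.toR2.hh.toFun '' squ v ((X.nS, k), 2)) := by
  have hkR := X.tp.Gsub hk
  obtain ⟨z, hz⟩ := hF
  obtain ⟨t, ht⟩ := X.tp.plate k hk
  have hpt := pt_mem_squ v ((X.nS, k), (2 : Fin 3))
  refine ⟨Function.update z 2 t, deep_act hδ hc (mem_image_of_mem _ hpt)
    (X.tp.tile k hkR _ hpt) (X.tp.act k hkR _ hpt) ?_ ?_⟩
  · rintro _ ⟨x, hx, rfl⟩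
    rw [Function.update_self]
    exact ht x hx
  · rintro _ ⟨x, hx, rfl⟩ i hi
    rw [Function.update_of_ne hi]
    exact hz x hx i hi

variable {ng : Idx → ℕ} {hΩ : IsOpen (Bx (H235.fl θ))} {hI : Part (Bx (H235.fl θ)) v (X.toR2.I₂ ng)}
  {D D' c₀ δK μ r rK K : ℝ} {εk : (partMesh hΩ hI).κ → ℝ} {g : ConHomeo (Bx (H235.fl θ)) Λ}

/-- sharp edges of the good squares -/
theorem fd_tv {q : V → V}
    (T : TvOut c₀ δK 0 X.ρ (partMesh hΩ hI) X.toR2.hh.toFun X.J₀ εk q) (hG : X.toR2.Geo ng)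
    (hεk : ∀ s (hs : MinSq v (X.toR2.I₂ ng) s), 0 ≤ εk ⟨s, hs⟩ ∧
      2 * εk ⟨s, hs⟩ ≤ 2 * ε / 2 ^ s.1.1)
    (hc : 0 < c₀) (hc64 : c₀ ≤ 1 / 64) (hδ : δ ≤ δK) (hδc : δ ≤ c₀) {k : Fin 3 → ℤ}
    (hk : k ∈ X.G) (hF : Free c₀ v X.nS X.mt X.toR2.hh.toFun k) {e : Idx × Fin 3}
    (he : EdgeOfSq e ((X.nS, k), 2)) : H239.tv q (segP v e) Finset.univ ≤
      ENNReal.ofReal (1 + c₀) * H239.tv X.toR2.hh.toFun (segP v e) (Finset.univ.erase 2) +
        ENNReal.ofReal (2 * ε / 2 ^ X.nS) := by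
  have hkR := X.tp.Gsub hk
  obtain ⟨z, hz⟩ := fd_deep X hc.le (hδc.trans hc64) hk hF
  have hs := fd_minS X hG hkR
  refine (out_tv T hδ hs (fd_minE X hG hkR he) (S308.edge_sub_squ he)
    (A := Finset.univ.erase 2) (by decide) (by decide)
    (Deep.subset (image_mono (S308.edge_sub_squ he)) hz)).trans ?_
  gcongr
  have := hεk _ hs
  have h2 : 2 * εk ⟨((X.nS, k), 2), hs⟩ ≤ 2 * ε / 2 ^ X.nS := this.2
  linarith [this.1]

/-- the fields of `FAux` -/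
theorem fAux_of (hG : X.toR2.Geo ng) {q : V → V}
    (A : AuxOut D c₀ δK 0 X.ρ (partMesh hΩ hI) X.toR2.hh.toFun X.J₀ εk q)
    (hεk : ∀ s (hs : MinSq v (X.toR2.I₂ ng) s), 0 ≤ εk ⟨s, hs⟩ ∧
      2 * εk ⟨s, hs⟩ ≤ 2 * ε / 2 ^ s.1.1)
    (hD : 0 ≤ D) (hc : 0 < c₀) (hc64 : c₀ ≤ 1 / 64) (hδ : δ ≤ δK) (hδc : δ ≤ c₀) :
    FAux X (2 * D) c₀ (2 * ε) q where
  close := by
    intro k hk x hx
    obtain ⟨q, hq, hsq⟩ := fd_sq X hk
    refine (aux_close A hD hc64 (X.st.part.sub q hq.1 (hsq hx)) (X.tp.tile k hk x hx)).trans ?_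
    gcongr
    linarith
  len := by
    intro i hi k hk
    have hab : ∀ i, i ≠ 2 → X.a i < X.b i := by
      intro i hi
      have h1 := X.pl.alt
      have h2 := X.pl.quad
      fin_cases i
      · exact h1
      · show X.a 1 < X.b 1
        omega
      · exact absurd rfl hi
    obtain ⟨k', hk', he⟩ := exists_side (n := X.nS) hab hi hk
    obtain ⟨q, hq, hsq⟩ := fd_sq X hk'
    have hs := fd_minS X hG hk'
    refine (aux_len A hG hD hs (fd_minE X hG hk' he) (S308.edge_sub_squ he) hq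
      ((S308.edge_sub_squ he).trans hsq)).trans ?_
    gcongr
    have := hεk _ hs
    have h2 : 2 * εk ⟨((X.nS, k'), 2), hs⟩ ≤ 2 * ε / 2 ^ X.nS := this.2
    linarith [this.1]
  tv := fun _ hk hF _ he => fd_tv X A.tv hG hεk hc hc64 hδ hδc hk hF he

/-- **The output of Round 2**: all fields of `FOut`, from the energies (hypothesis `hen`) -/
theorem fOut_of (hG : X.toR2.Geo ng)
    (O : OutL p D D' (1 / 2 ^ j) c₀ 0 (partMesh hΩ hI) X.toR2.hh.toFun X.J₀ X.toR2.Z X.Y εk g)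
    (Sh : SharpOut3 p D c₀ δK μ rK 0 X.ρ (partMesh hΩ hI) X.toR2.hh.toFun X.J₀ X.Y εk g)
    (hεk : ∀ s (hs : MinSq v (X.toR2.I₂ ng) s), 0 ≤ εk ⟨s, hs⟩ ∧
      2 * εk ⟨s, hs⟩ ≤ 2 * ε / 2 ^ s.1.1)
    (hp : 0 ≤ p) (hD : 0 ≤ D) (hDD : D ≤ D') (hc : 0 < c₀) (hc64 : c₀ ≤ 1 / 64) (hδ : δ ≤ δK)
    (hδc : δ ≤ c₀) (hμ : 0 ≤ μ) (hr : r ≤ rK) (hK : (2 * Cu) ^ p ≤ K)
    (hen : ∀ A : Set V, ∫⁻ x in Bx (H235.fl θ) ∩ A, ENNReal.ofReal (‖fderiv ℝ g.toFun x‖ ^ p) ≤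
      ENNReal.ofReal (K * (2 * D)) * H239.enX X.toR2 A +
        ENNReal.ofReal (K * (2 * D')) *
          H239.enP X.toR2 (⋃ k ∈ rect X.a X.b, squ v ((X.nS, k), 2)) +
        ENNReal.ofReal (K * (2 * D) * (2 * ε))) :
    H239.FOut X K (2 * D) (2 * D') μ r c₀ (2 * ε) g where
  bd := out_bd O hD hc64 X.tp.bdT
  en := hen
  close := by
    intro k hk x hx
    obtain ⟨q, hq, hsq⟩ := fd_sq X hk
    refine (out_close O hD hc64 (X.st.part.sub q hq.1 (hsq hx)) (X.tp.tile k hk x hx)).trans ?_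
    gcongr
    linarith
  len := by
    intro i hi k hk
    have hab : ∀ i, i ≠ 2 → X.a i < X.b i := by
      intro i hi
      have h1 := X.pl.alt
      have h2 := X.pl.quad
      fin_cases i
      · exact h1
      · show X.a 1 < X.b 1
        omega
      · exact absurd rfl hi
    obtain ⟨k', hk', he⟩ := exists_side (n := X.nS) hab hi hk
    obtain ⟨q, hq, hsq⟩ := fd_sq X hk'
    have hs := fd_minS X hG hk'
    refine (out_len O hG hD hs (fd_minE X hG hk' he) (S308.edge_sub_squ he) hq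
      ((S308.edge_sub_squ he).trans hsq)).trans ?_
    gcongr
    have := hεk _ hs
    have h2 : 2 * εk ⟨((X.nS, k'), 2), hs⟩ ≤ 2 * ε / 2 ^ X.nS := this.2
    linarith [this.1]
  face := by
    intro k hk
    obtain ⟨q, hq, hsq⟩ := fd_sq X hk
    have hs := fd_minS X hG hk
    have hε := X.hε.1
    have h1 := out_face O hG hp (hD.trans hDD) hs (fun e he => fd_minE X hG hk he) hq hsq
      (β := 2 * ε / 2 ^ X.nS) (by positivity) (hεk _ hs)
    refine h1.trans ?_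
    gcongr ENNReal.ofReal ?_ * _
    have hD' : 0 ≤ D' := hD.trans hDD
    calc (2 * Cu) ^ p * D' * (1 / 2 ^ X.nS) ^ 2 ≤ K * D' * (1 / 2 ^ X.nS) ^ 2 := by gcongr
      _ ≤ K * (2 * D') * (1 / 2 ^ X.nS) ^ 2 := by
          have hK0 : 0 ≤ K := by
            have : 0 ≤ (2 * Cu) ^ p := Real.rpow_nonneg (by linarith [X.hCu]) p
            linarith
          gcongr
          linarith
  tv := fun _ hk hF _ he => fd_tv X Sh.tv hG hεk hc hc64 hδ hδc hk hF he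
  aux := by
    obtain ⟨q, A, hFc⟩ := Sh.aux
    refine ⟨q, fAux_of X hG A hεk hD hc hc64 hδ hδc, ?_⟩
    intro k hk hF hN hNq hSh
    have hkR := X.tp.Gsub hk
    obtain ⟨z, hz⟩ := fd_deep X hc.le (hδc.trans hc64) hk hF
    have hs := fd_minS X hG hkR
    have hε := X.hε.1
    refine out_faceI hFc hδ hμ hs ⟨k, hkR, rfl⟩ hz (fun e he => ⟨fd_minE X hG hkR he,
      ⟨?_, ?_⟩, ⟨?_, ?_⟩, ?_⟩) (β := 2 * ε) ⟨(hεk _ hs).1, (hεk _ hs).2.trans ?_⟩
    · refine le_trans ?_ (hN e he).1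
      gcongr
    · refine (hN e he).2.trans ?_
      gcongr
    · refine le_trans ?_ (hNq e he).1
      gcongr
    · refine (hNq e he).2.trans ?_
      gcongr
    · refine (hSh e he).trans ?_
      gcongr
    · exact div_le_self (by positivity) (one_le_pow₀ (by norm_num))

end FData

end Vale.Agent.P073.H73
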